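import Vale.Agent.P366.MathlibUsed
import Vale.Agent.P366.Stmt

set_option linter.all false

section

section

section

open MeasureTheory Metric Filter Topology Set
open scoped ContDiff ENNReal

noncomputable section
namespace Vale.Agent.P366

variable {n : ℕ}

/-- Euclidean `n`-space: the coordinate space. -/
abbrev E (n : ℕ) := EuclideanSpace ℝ (Fin n)

/-- A field of matrices: the components of a covariant 2-tensor field. -/
abbrev Field (n : ℕ) := E n → Matrix (Fin n) (Fin n) ℝ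

/-- The partial derivative in the direction of the `i`-th coordinate. -/
def pd (i : Fin n) (f : E n → ℝ) (x : E n) : ℝ :=
  fderiv ℝ f x (EuclideanSpace.single i 1)

/-- The Christoffel symbol with upper index `k` and lower indices `i`, `j` of the metric `g`. -/
def chr (g : Field n) (k i j : Fin n) (x : E n) : ℝ :=
  (1 / 2) * ∑ l, (g x)⁻¹ k l *
    (pd i (fun y => g y j l) x + pd j (fun y => g y i l) x - pd l (fun y => g y i j) x)

/-- The scalar curvature of `g`. -/
def scal (g : Field n) (x : E n) : ℝ :=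
  ∑ i, ∑ j, (g x)⁻¹ i j * ∑ k, (pd k (chr g k i j) x - pd j (chr g k i k) x +
    ∑ l, (chr g k k l x * chr g l i j x - chr g k j l x * chr g l i k x))

/-- The trace of `K` with respect to `g`. -/
def tr (g K : Field n) (x : E n) : ℝ := ∑ i, ∑ j, (g x)⁻¹ i j * K x i j

/-- The squared norm of `K` with respect to `g`. -/
def normSq (g K : Field n) (x : E n) : ℝ :=
  ∑ i, ∑ j, ∑ k, ∑ l, (g x)⁻¹ i k * (g x)⁻¹ j l * K x i j * K x k l

/-- The tensor `π = K - (tr K) g`. -/
def momT (g K : Field n) : Field n := fun x => K x - tr g K x • g x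

/-- The components of the momentum density `J = div π`. -/
def mom (g K : Field n) (j : Fin n) (x : E n) : ℝ :=
  ∑ i, ∑ k, (g x)⁻¹ i k * (pd k (fun y => momT g K y i j) x -
    ∑ l, (chr g l k i x * momT g K x l j + chr g l k j x * momT g K x i l))

/-- The norm of the momentum density with respect to `g`. -/
def momNorm (g K : Field n) (x : E n) : ℝ :=
  √(∑ i, ∑ j, (g x)⁻¹ i j * mom g K i x * mom g K j x)

/-- The energy density `μ`. -/
def mu (g K : Field n) (x : E n) : ℝ := (scal g x + tr g K x ^ 2 - normSq g K x) / 2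

/-- The norm of the differential of `F` with respect to `g`. -/
def dNorm (g : Field n) (F : E n → ℝ) (x : E n) : ℝ :=
  √(∑ i, ∑ j, (g x)⁻¹ i j * pd i F x * pd j F x)

/-- The components of the unit normal of the level set of `F`, pointing to larger `F`. -/
def nrm (g : Field n) (F : E n → ℝ) (i : Fin n) (x : E n) : ℝ :=
  (∑ j, (g x)⁻¹ i j * pd j F x) / dNorm g F x

/-- The trace of `K` over the tangent space of the level set of `F` through `x`. -/
def trS (g K : Field n) (F : E n → ℝ) (x : E n) : ℝ :=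
  tr g K x - ∑ i, ∑ j, K x i j * nrm g F i x * nrm g F j x

/-- The covariant Hessian of `F`. -/
def hess (g : Field n) (F : E n → ℝ) : Field n := fun x =>
  Matrix.of fun i j => pd i (pd j F) x - ∑ k, chr g k i j x * pd k F x

/-- The mean curvature of the level set of `F` through `x` with respect to the unit normal
`nrm g F`: the tangential divergence of the normal. -/
def meanCurv (g : Field n) (F : E n → ℝ) (x : E n) : ℝ := trS g (hess g F) F x / dNorm g F x

/-- The future outgoing null expansion of the level set of `F` through `x`. -/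
def thetaPlus (g K : Field n) (F : E n → ℝ) (x : E n) : ℝ := meanCurv g F x + trS g K F x

/-- `F` is a smooth defining function of `D` near the boundary point `p`, increasing into `D`. -/
def LocalDef (D : Set (E n)) (p : E n) (F : E n → ℝ) : Prop :=
  ∃ V : Set (E n), IsOpen V ∧ p ∈ V ∧ ContDiffOn ℝ ∞ F V ∧ fderiv ℝ F p ≠ 0 ∧
    D ∩ V = {x ∈ V | 0 ≤ F x}

/-- Closed connected domains with smooth boundary that contain a neighbourhood of infinity
(the boundary is then compact). -/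
structure IsExtDomain (D : Set (E n)) : Prop where
  closed : IsClosed D
  connected : IsConnected D
  smooth : ∀ p ∈ frontier D, ∃ F, LocalDef D p F
  atInfinity : ∃ R : ℝ, {x | R < ‖x‖} ⊆ D

/-- Initial data on an exterior domain `Ω` of Euclidean space with nonempty boundary: a Riemannian
metric `g` and a symmetric tensor `K`, smooth up to the boundary (smooth on a neighbourhood
`U` of `Ω`). -/
structure Exterior (n : ℕ) where
  Ω : Set (E n)
  U : Set (E n)
  g : Field n
  K : Field n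
  dom : IsExtDomain Ω
  bdry : (frontier Ω).Nonempty
  isOpen_U : IsOpen U
  sub : Ω ⊆ U
  g_smooth : ∀ i j, ContDiffOn ℝ ∞ (fun x => g x i j) U
  K_smooth : ∀ i j, ContDiffOn ℝ ∞ (fun x => K x i j) U
  g_pos : ∀ x ∈ U, (g x).PosDef
  K_symm : ∀ x ∈ U, (K x).IsSymm

namespace Exterior

variable (D : Exterior n)

/-- Asymptotic flatness of order `q > (n - 2) / 2`. -/
def IsAF : Prop :=
  ∃ q C R : ℝ, ((n : ℝ) - 2) / 2 < q ∧ 0 < R ∧ ∀ x : E n, R < ‖x‖ → ∀ i j k l : Fin n,
    |D.g x i j - (1 : Matrix (Fin n) (Fin n) ℝ) i j| ≤ C * ‖x‖ ^ (-q) ∧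
    |pd k (fun y => D.g y i j) x| ≤ C * ‖x‖ ^ (-q - 1) ∧
    |pd l (pd k (fun y => D.g y i j)) x| ≤ C * ‖x‖ ^ (-q - 2) ∧
    |D.K x i j| ≤ C * ‖x‖ ^ (-1 - q) ∧
    |pd k (fun y => D.K y i j) x| ≤ C * ‖x‖ ^ (-2 - q)

/-- `μ` and `|J|` are integrable with respect to the Riemannian volume. -/
def IsL1 : Prop :=
  IntegrableOn (fun x => mu D.g D.K x * √(D.g x).det) D.Ω ∧
  IntegrableOn (fun x => momNorm D.g D.K x * √(D.g x).det) D.Ω

/-- The dominant energy condition. -/
def DEC : Prop := ∀ x ∈ D.Ω, momNorm D.g D.K x ≤ mu D.g D.K x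

/-- The boundary is weakly future trapped. -/
def Trapped : Prop :=
  ∀ p ∈ frontier D.Ω, ∃ F, LocalDef D.Ω p F ∧ thetaPlus D.g D.K F p ≤ 0

end Exterior

/-- The area of the unit sphere. -/
def omega (n : ℕ) : ℝ := ((volume : Measure (E n)).toSphere univ).toReal

/-- The integral of `h` over the coordinate sphere of radius `R` with the Euclidean area
element. -/
def sphInt (R : ℝ) (h : E n → ℝ) : ℝ :=
  R ^ (n - 1) * ∫ θ : sphere (0 : E n) 1, h (R • (θ : E n)) ∂(volume : Measure (E n)).toSphere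

namespace Exterior

variable (D : Exterior n)

/-- `m` is the ADM energy. -/
def IsEnergy (m : ℝ) : Prop :=
  Tendsto (fun R : ℝ => 1 / (2 * ((n : ℝ) - 1) * omega n) * sphInt R (fun x =>
    ∑ i, ∑ j, (pd j (fun y => D.g y i j) x - pd i (fun y => D.g y j j) x) * (x i / ‖x‖)))
    atTop (𝓝 m)

/-- `P` is the ADM momentum. -/
def IsMomentum (P : E n) : Prop :=
  ∀ i, Tendsto (fun R : ℝ => 1 / (((n : ℝ) - 1) * omega n) * sphInt R (fun x =>
    ∑ j, momT D.g D.K x i j * (x j / ‖x‖))) atTop (𝓝 (P i))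

/-- Admissible test fields: smooth, compactly supported, of `g`-length at most one on `Ω`. -/
def TestField (X : E n → E n) : Prop :=
  ContDiff ℝ ∞ X ∧ HasCompactSupport X ∧
    ∀ x ∈ D.Ω, ∑ i, ∑ j, D.g x i j * X x i * X x j ≤ 1

/-- The `g`-area of the boundary of `A ⊆ Ω` (including its part on the boundary of `Ω`), as the
supremum of the integrals over `A` of the `g`-divergence of the admissible test fields with
respect to the Riemannian volume. -/
def area (A : Set (E n)) : ℝ≥0∞ :=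
  ⨆ (X : E n → E n) (_ : D.TestField X),
    ENNReal.ofReal (∫ x in A, ∑ i, pd i (fun y => √(D.g y).det * X y i) x)

end Exterior

end Vale.Agent.P366
end
end
end
end

section

section

section

open MeasureTheory Metric Filter Topology Set
open scoped BigOperators ENNReal ContDiff

noncomputable section
namespace Vale.Agent.P366

/-- The surface measure of the unit sphere of Euclidean `n`-space. -/
abbrev sphM (n : ℕ) : Measure (sphere (0 : E n) 1) := (volume : Measure (E n)).toSphere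

/-- Integral of `h` over the unit sphere after scaling by `r`. -/
def sphI {n : ℕ} (h : E n → ℝ) (r : ℝ) : ℝ :=
  ∫ θ : sphere (0 : E n) 1, h (r • (θ : E n)) ∂(sphM n)

lemma norm_sph {n : ℕ} (θ : sphere (0 : E n) 1) : ‖(θ : E n)‖ = 1 := by simp

lemma norm_smul_sph {n : ℕ} {r : ℝ} (hr : 0 ≤ r) (θ : sphere (0 : E n) 1) :
    ‖r • (θ : E n)‖ = r := by
  rw [norm_smul, Real.norm_eq_abs, abs_of_nonneg hr, norm_sph, mul_one]

lemma polar {n : ℕ} [Nontrivial (E n)] (h : E n → ℝ) (hh : Integrable h) :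
    ∫ x, h x = ∫ r in Ioi (0 : ℝ), r ^ (n - 1) * sphI h r := by
  have hmp := (volume : Measure (E n)).measurePreserving_homeomorphUnitSphereProd
  have hdim : Module.finrank ℝ (E n) = n := by simp only [finrank_euclideanSpace, Fintype.card_fin]
  rw [hdim] at hmp
  have hemb : MeasurableEmbedding (homeomorphUnitSphereProd (E n)) :=
    Homeomorph.measurableEmbedding _
  have hkey : ∀ x : ({(0)}ᶜ : Set (E n)), ‖(x : E n)‖ • ‖(x : E n)‖⁻¹ • (x : E n) = x := by
    intro x
    have hx : ‖(x : E n)‖ ≠ 0 := norm_ne_zero_iff.mpr (fun h0 => x.2 (by simp [h0]))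
    rw [smul_inv_smul₀ hx]
  have h1 : ∫ x, h x = ∫ x : ({(0)}ᶜ : Set (E n)), h x.1 ∂((volume : Measure (E n)).comap (↑)) := by
    rw [integral_subtype_comap (measurableSet_singleton _).compl fun x ↦ h x,
      restrict_compl_singleton]
  have h2 : ∫ x : ({(0)}ᶜ : Set (E n)), h x.1 ∂((volume : Measure (E n)).comap (↑))
      = ∫ p : sphere (0 : E n) 1 × Ioi (0 : ℝ), h (p.2.1 • (p.1 : E n))
        ∂((sphM n).prod (Measure.volumeIoiPow (n - 1))) := by
    rw [← hmp.integral_comp hemb]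
    refine integral_congr_ae (Eventually.of_forall fun x => ?_)
    simp only
    congr 1
    simp only [homeomorphUnitSphereProd_apply_snd_coe, homeomorphUnitSphereProd_apply_fst_coe, hkey]
  have hint : Integrable (fun p : sphere (0 : E n) 1 × Ioi (0 : ℝ) => h (p.2.1 • (p.1 : E n)))
      ((sphM n).prod (Measure.volumeIoiPow (n - 1))) := by
    rw [← hmp.integrable_comp_emb hemb]
    have : (fun p : sphere (0 : E n) 1 × Ioi (0 : ℝ) => h (p.2.1 • (p.1 : E n))) ∘
        (homeomorphUnitSphereProd (E n)) = fun x : ({(0)}ᶜ : Set (E n)) => h x.1 := by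
      funext x
      simp only [Function.comp]
      congr 1
      simp only [homeomorphUnitSphereProd_apply_snd_coe, homeomorphUnitSphereProd_apply_fst_coe, hkey]
    rw [this]
    have h3 : IntegrableOn h ({(0)}ᶜ : Set (E n)) := hh.integrableOn
    rw [integrableOn_iff_comap_subtypeVal (measurableSet_singleton _).compl] at h3
    exact h3
  rw [h1, h2, integral_prod_symm _ hint]
  have h4 : ∀ y : Ioi (0 : ℝ), (∫ x : sphere (0 : E n) 1, h (y.1 • (x : E n)) ∂(sphM n))
      = sphI h y.1 := fun y => rfl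
  simp only [h4]
  simp only [Measure.volumeIoiPow, ENNReal.ofReal]
  rw [integral_withDensity_eq_integral_smul,
    integral_subtype_comap measurableSet_Ioi fun a ↦ Real.toNNReal (a ^ (n - 1)) • sphI h a]
  · refine setIntegral_congr_fun measurableSet_Ioi fun x hx ↦ ?_
    rw [NNReal.smul_def, Real.coe_toNNReal _ (pow_nonneg (le_of_lt hx) _), smul_eq_mul]
  · exact (measurable_subtype_coe.pow_const _).real_toNNReal

/-! ### differentiation under the sphere integral -/

lemma cont_smul_sph2 (n : ℕ) :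
    Continuous (fun p : ℝ × sphere (0 : E n) 1 => p.1 • (p.2 : E n)) :=
  continuous_fst.smul (continuous_subtype_val.comp continuous_snd)

lemma cont_smul_sph1 {n : ℕ} (r : ℝ) :
    Continuous (fun θ : sphere (0 : E n) 1 => r • (θ : E n)) :=
  Continuous.smul (f := fun _ : sphere (0 : E n) 1 => r) (g := fun θ => (θ : E n))
    continuous_const continuous_subtype_val

lemma sphI_continuousOn {n : ℕ} {b : ℝ} (hb : 0 ≤ b) {h : E n → ℝ}
    (hh : ContinuousOn h {x | b < ‖x‖}) : ContinuousOn (sphI h) (Ioi b) := by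
  intro r0 hr0
  have hr0' : b < r0 := hr0
  refine ContinuousAt.continuousWithinAt ?_
  -- compact neighbourhood
  obtain ⟨c, hc1, hc2⟩ := exists_between hr0'
  have hcpos : 0 < c := lt_of_le_of_lt hb hc1
  set Kc : Set (ℝ × sphere (0 : E n) 1) := Icc c (r0 + 1) ×ˢ univ with hKc
  have hKcomp : IsCompact Kc := isCompact_Icc.prod isCompact_univ
  have hcont : ContinuousOn (fun p : ℝ × sphere (0 : E n) 1 => h (p.1 • (p.2 : E n))) Kc := by
    refine hh.comp (cont_smul_sph2 n).continuousOn ?_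
    rintro ⟨r, θ⟩ ⟨hr, -⟩
    have : 0 ≤ r := le_trans hcpos.le hr.1
    simp only [mem_ofPred_eq, norm_smul_sph this]
    exact lt_of_lt_of_le hc1 hr.1
  obtain ⟨C, hC⟩ := hKcomp.exists_bound_of_continuousOn hcont
  have hnhds : Ioo c (r0 + 1) ∈ 𝓝 r0 := Ioo_mem_nhds hc2 (by linarith only [])
  refine continuousAt_of_dominated (bound := fun _ => C) ?_ ?_ ?_ ?_
  · filter_upwards [hnhds] with r hr
    have : Continuous (fun θ : sphere (0 : E n) 1 => h (r • (θ : E n))) := by
      rw [← continuousOn_univ]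
      refine hh.comp (cont_smul_sph1 r).continuousOn ?_
      intro θ _
      have h0 : 0 ≤ r := le_trans hcpos.le hr.1.le
      simp only [mem_ofPred_eq, norm_smul_sph h0]
      exact lt_trans hc1 hr.1
    exact this.aestronglyMeasurable
  · filter_upwards [hnhds] with r hr
    refine Eventually.of_forall fun θ => ?_
    exact hC (r, θ) ⟨⟨hr.1.le, hr.2.le⟩, mem_univ _⟩
  · exact integrable_const C
  · refine Eventually.of_forall fun θ => ?_
    have h0 : 0 ≤ r0 := le_trans hcpos.le hc2.le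
    have hx : (r0 • (θ : E n)) ∈ {x : E n | b < ‖x‖} := by
      simp only [mem_ofPred_eq, norm_smul_sph h0]; exact hr0'
    have hopen : IsOpen {x : E n | b < ‖x‖} := isOpen_lt continuous_const continuous_norm
    have hca : ContinuousAt h (r0 • (θ : E n)) := hh.continuousAt (hopen.mem_nhds hx)
    have : ContinuousAt (fun r : ℝ => r • (θ : E n)) r0 :=
      (continuous_id.smul continuous_const).continuousAt
    exact ContinuousAt.comp (f := fun r : ℝ => r • (θ : E n)) hca this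

lemma isOpen_outside {n : ℕ} (b : ℝ) : IsOpen {x : E n | b < ‖x‖} :=
  isOpen_lt continuous_const continuous_norm

lemma integrable_sph {n : ℕ} {b r : ℝ} (hb : 0 ≤ b) (hr : b < r) {h : E n → ℝ}
    (hh : ContinuousOn h {x | b < ‖x‖}) :
    Integrable (fun θ : sphere (0 : E n) 1 => h (r • (θ : E n))) (sphM n) := by
  have h1 : Continuous (fun θ : sphere (0 : E n) 1 => h (r • (θ : E n))) := by
    rw [← continuousOn_univ]
    refine hh.comp (cont_smul_sph1 r).continuousOn ?_
    intro θ _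
    have h0 : 0 ≤ r := le_trans hb hr.le
    simp only [mem_ofPred_eq, norm_smul_sph h0]
    exact hr
  exact (h1.integrable_of_hasCompactSupport (HasCompactSupport.of_compactSpace _))

lemma sphI_hasDerivAt {n : ℕ} {b : ℝ} (hb : 0 ≤ b) {h : E n → ℝ}
    (hh : ContDiffOn ℝ 1 h {x | b < ‖x‖}) {r0 : ℝ} (hr0 : b < r0) :
    HasDerivAt (sphI h) (∫ θ : sphere (0 : E n) 1, fderiv ℝ h (r0 • (θ : E n)) (θ : E n) ∂(sphM n))
      r0 := by
  obtain ⟨c, hc1, hc2⟩ := exists_between hr0
  have hcpos : 0 < c := lt_of_le_of_lt hb hc1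
  set Kc : Set (ℝ × sphere (0 : E n) 1) := Icc c (r0 + 1) ×ˢ univ with hKc
  have hKcomp : IsCompact Kc := isCompact_Icc.prod isCompact_univ
  have hopen : IsOpen {x : E n | b < ‖x‖} := isOpen_outside b
  have hfd : ContinuousOn (fderiv ℝ h) {x | b < ‖x‖} := hh.continuousOn_fderiv_of_isOpen hopen le_rfl
  have hcont : ContinuousOn (fun p : ℝ × sphere (0 : E n) 1 =>
      fderiv ℝ h (p.1 • (p.2 : E n)) (p.2 : E n)) Kc := by
    have h1 : ContinuousOn (fun p : ℝ × sphere (0 : E n) 1 => fderiv ℝ h (p.1 • (p.2 : E n))) Kc := by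
      refine hfd.comp (cont_smul_sph2 n).continuousOn ?_
      rintro ⟨r, θ⟩ ⟨hr, -⟩
      have : 0 ≤ r := le_trans hcpos.le hr.1
      simp only [mem_ofPred_eq, norm_smul_sph this]
      exact lt_of_lt_of_le hc1 hr.1
    exact h1.clm_apply (continuous_subtype_val.comp continuous_snd).continuousOn
  obtain ⟨C, hC⟩ := hKcomp.exists_bound_of_continuousOn hcont
  have hnhds : Ioo c (r0 + 1) ∈ 𝓝 r0 := Ioo_mem_nhds hc2 (by linarith only [])
  have hmem : ∀ r ∈ Ioo c (r0 + 1), ∀ θ : sphere (0 : E n) 1,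
      (r • (θ : E n)) ∈ {x : E n | b < ‖x‖} := by
    intro r hr θ
    have h0 : 0 ≤ r := le_trans hcpos.le hr.1.le
    simp only [mem_ofPred_eq, norm_smul_sph h0]
    exact lt_trans hc1 hr.1
  have hkey := hasDerivAt_integral_of_dominated_loc_of_deriv_le (μ := sphM n)
    (F := fun r (θ : sphere (0 : E n) 1) => h (r • (θ : E n)))
    (F' := fun r (θ : sphere (0 : E n) 1) => fderiv ℝ h (r • (θ : E n)) (θ : E n))
    (x₀ := r0) (s := Ioo c (r0 + 1)) (bound := fun _ => C) hnhds ?_ ?_ ?_ ?_ ?_ ?_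
  · exact hkey.2
  · filter_upwards [hnhds] with r hr
    have : Continuous (fun θ : sphere (0 : E n) 1 => h (r • (θ : E n))) := by
      rw [← continuousOn_univ]
      refine hh.continuousOn.comp (cont_smul_sph1 r).continuousOn ?_
      intro θ _
      exact hmem r hr θ
    exact this.aestronglyMeasurable
  · exact integrable_sph hb hr0 hh.continuousOn
  · have : Continuous (fun θ : sphere (0 : E n) 1 => fderiv ℝ h (r0 • (θ : E n)) (θ : E n)) := by
      have h1 : Continuous (fun θ : sphere (0 : E n) 1 => fderiv ℝ h (r0 • (θ : E n))) := by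
        rw [← continuousOn_univ]
        refine hfd.comp (cont_smul_sph1 r0).continuousOn ?_
        intro θ _
        exact hmem r0 ⟨hc2, by linarith only []⟩ θ
      exact h1.clm_apply continuous_subtype_val
    exact this.aestronglyMeasurable
  · refine Eventually.of_forall fun θ r hr => ?_
    exact hC (r, θ) ⟨⟨hr.1.le, hr.2.le⟩, mem_univ _⟩
  · exact integrable_const C
  · refine Eventually.of_forall fun θ r hr => ?_
    have hx := hmem r hr θ
    have hd : DifferentiableAt ℝ h (r • (θ : E n)) :=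
      (hh.differentiableOn (by norm_num)).differentiableAt (hopen.mem_nhds hx)
    have h1 : HasDerivAt (fun r : ℝ => r • (θ : E n)) (θ : E n) r := by
      simpa using (hasDerivAt_id r).smul_const (θ : E n)
    exact hd.hasFDerivAt.comp_hasDerivAt r h1


/-! ### the divergence identity on spheres -/

lemma fderiv_eq_sum_pd {n : ℕ} (f : E n → ℝ) (x v : E n) :
    fderiv ℝ f x v = ∑ i, v i * pd i f x := by
  have hv : v = ∑ i, v i • (EuclideanSpace.single i (1 : ℝ) : E n) := by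
    ext j
    simp only [WithLp.ofLp_sum, WithLp.ofLp_smul, PiLp.ofLp_single, Finset.sum_apply, Pi.smul_apply, Pi.single_apply, smul_eq_mul, mul_ite, mul_one, mul_zero, Finset.sum_ite_eq, Finset.mem_univ, ↓reduceIte]
  conv_lhs => rw [hv]
  rw [map_sum]
  simp only [map_smul, smul_eq_mul, pd]

lemma test_function {b : ℝ} {n : ℕ} (hb : 0 ≤ b) (χ : ℝ → ℝ) (hχ : ContDiff ℝ ∞ χ)
    (hc : HasCompactSupport χ) (hs : tsupport χ ⊆ Ioi b) :
    ContDiff ℝ ∞ (fun x : E n => χ ‖x‖) ∧ HasCompactSupport (fun x : E n => χ ‖x‖) ∧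
      tsupport (fun x : E n => χ ‖x‖) ⊆ {x | b < ‖x‖} := by
  have hsub : tsupport (fun x : E n => χ ‖x‖) ⊆ {x : E n | ‖x‖ ∈ tsupport χ} := by
    refine closure_minimal ?_ ?_
    · intro x hx
      exact subset_tsupport _ (by simpa using hx)
    · exact (isClosed_tsupport χ).preimage continuous_norm
  have hsub2 : tsupport (fun x : E n => χ ‖x‖) ⊆ {x | b < ‖x‖} := fun x hx => hs (hsub hx)
  refine ⟨?_, ?_, hsub2⟩
  · rw [contDiff_iff_contDiffAt]
    intro x
    by_cases hx : x = 0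
    · -- near zero the function vanishes
      have h0 : (0 : ℝ) ∉ tsupport χ := fun h => absurd (hs h) (by simp only [mem_Ioi, not_lt, hb])
      have h1 : ∀ᶠ y in 𝓝 x, χ ‖y‖ = 0 := by
        have h2 : (tsupport χ)ᶜ ∈ 𝓝 (‖x‖) := by
          rw [hx, norm_zero]
          exact (isClosed_tsupport χ).isOpen_compl.mem_nhds h0
        have h3 := continuous_norm.continuousAt.preimage_mem_nhds h2
        filter_upwards [h3] with y hy
        exact image_eq_zero_of_notMem_tsupport hy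
      have h4 : (fun y : E n => χ ‖y‖) =ᶠ[𝓝 x] fun _ => (0 : ℝ) := h1
      exact (contDiffAt_const).congr_of_eventuallyEq h4
    · exact (hχ.contDiffAt).comp x (contDiffAt_norm ℝ hx)
  · obtain ⟨R, hR⟩ := hc.isCompact.isBounded.subset_closedBall 0
    refine HasCompactSupport.intro (isCompact_closedBall (0 : E n) R) ?_
    intro x hx
    by_contra hne
    apply hx
    have h1 : ‖x‖ ∈ tsupport χ := subset_tsupport _ hne
    have h2 := hR h1
    simp only [mem_closedBall, dist_zero_right, norm_norm] at h2 ⊢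
    exact h2

lemma integrable_of_cutoff {n : ℕ} {b : ℝ} {u h : E n → ℝ} (hu : Continuous u)
    (hcu : HasCompactSupport u) (hsu : tsupport u ⊆ {x | b < ‖x‖})
    (hh : ContinuousOn h {x | b < ‖x‖}) : Integrable (fun x => u x * h x) := by
  have hc : Continuous (fun x => u x * h x) := by
    rw [continuous_iff_continuousAt]
    intro x
    by_cases hx : x ∈ tsupport u
    · exact hu.continuousAt.mul (hh.continuousAt ((isOpen_outside b).mem_nhds (hsu hx)))
    · have h1 : (fun x => u x * h x) =ᶠ[𝓝 x] fun _ => (0 : ℝ) := by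
        filter_upwards [(isClosed_tsupport u).isOpen_compl.mem_nhds hx] with y hy
        rw [image_eq_zero_of_notMem_tsupport hy, zero_mul]
      exact continuousAt_const.congr h1.symm
  exact hc.integrable_of_hasCompactSupport (hcu.mul_right)

end Vale.Agent.P366
end
end
end
end

section

section

section

open MeasureTheory Metric Filter Topology Set
open scoped BigOperators ENNReal ContDiff

noncomputable section
namespace Vale.Agent.P366

/-- Flux of the vector field `W` through the sphere of radius `r`. -/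
def flux {n : ℕ} (W : Fin n → E n → ℝ) (r : ℝ) : ℝ :=
  r ^ (n - 1) * sphI (fun x => ∑ i, W i x * (x i / ‖x‖)) r

/-- Euclidean divergence. -/
def dvg {n : ℕ} (W : Fin n → E n → ℝ) (x : E n) : ℝ := ∑ i, pd i (W i) x

lemma contDiffOn_coord_div {n : ℕ} {b : ℝ} (hb : 0 ≤ b) (i : Fin n) {m : WithTop ℕ∞} :
    ContDiffOn ℝ m (fun x : E n => x i / ‖x‖) {x | b < ‖x‖} := by
  intro x hx
  have hx0 : x ≠ 0 := by
    rintro rfl
    simp only [mem_ofPred_eq, norm_zero] at hx
    exact absurd hx (not_lt.mpr hb)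
  have h1 : ContDiffAt ℝ m (fun x : E n => x i) x := by
    have : ContDiff ℝ m (fun x : E n => x i) :=
      (EuclideanSpace.proj (𝕜 := ℝ) i).contDiff
    exact this.contDiffAt
  have h2 : ContDiffAt ℝ m (fun x : E n => ‖x‖) x := contDiffAt_norm ℝ hx0
  exact (h1.div h2 (norm_ne_zero_iff.mpr hx0)).contDiffWithinAt

lemma sphI_cutoff {n : ℕ} (χ : ℝ → ℝ) (h : E n → ℝ) {r : ℝ} (hr : 0 ≤ r) :
    sphI (fun x => χ ‖x‖ * h x) r = χ r * sphI h r := by
  unfold sphI
  rw [← integral_const_mul]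
  refine integral_congr_ae (Eventually.of_forall fun θ => ?_)
  simp only [norm_smul_sph hr]

lemma fderiv_comp_norm {n : ℕ} {χ : ℝ → ℝ} {x : E n} (hx : x ≠ 0)
    (hχ : DifferentiableAt ℝ χ ‖x‖) (i : Fin n) :
    pd i (fun y : E n => χ ‖y‖) x = deriv χ ‖x‖ * (x i / ‖x‖) := by
  unfold pd
  have h1 : HasFDerivAt (fun y : E n => ‖y‖) (fderiv ℝ (fun y : E n => ‖y‖) x) x :=
    ((contDiffAt_norm ℝ hx (n := 1)).differentiableAt (by norm_num)).hasFDerivAt
  have h2 : HasFDerivAt (fun y : E n => χ ‖y‖) (deriv χ ‖x‖ • fderiv ℝ (fun y : E n => ‖y‖) x) x :=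
    hχ.hasDerivAt.comp_hasFDerivAt x h1
  rw [h2.fderiv]
  have h3 : fderiv ℝ (fun y : E n => ‖y‖) x (EuclideanSpace.single i 1) = x i / ‖x‖ := by
    have h4 : HasFDerivAt (fun y : E n => ‖y‖ ^ 2) (2 • (innerSL ℝ x)) x :=
      (hasStrictFDerivAt_norm_sq x).hasFDerivAt
    have h5 : HasFDerivAt (fun y : E n => ‖y‖ ^ 2)
        ((2 * ‖x‖) • fderiv ℝ (fun y : E n => ‖y‖) x) x := by
      have := h1.pow 2
      simpa only [Nat.add_one_sub_one, pow_one, nsmul_eq_mul, Nat.cast_ofNat] using this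
    have h6 := h4.unique h5
    have h7 := congrArg (fun L => L (EuclideanSpace.single i (1 : ℝ))) h6
    simp at h7
    have hn : ‖x‖ ≠ 0 := norm_ne_zero_iff.mpr hx
    have h8 : inner ℝ x (EuclideanSpace.single i (1 : ℝ)) = x i := by
      rw [EuclideanSpace.inner_single_right]; simp
    rw [h8] at h7
    field_simp
    linarith only [h7]
  simp [h3]

theorem flux_hasDerivAt {n : ℕ} [Nontrivial (E n)] {b : ℝ} (hb : 0 ≤ b)
    {W : Fin n → E n → ℝ} (hW : ∀ i, ContDiffOn ℝ 1 (W i) {x | b < ‖x‖}) {r : ℝ} (hr : b < r) :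
    HasDerivAt (flux W) (r ^ (n - 1) * sphI (dvg W) r) r := by
  set U : Set (E n) := {x | b < ‖x‖} with hU
  have hopen : IsOpen U := isOpen_outside b
  set h : E n → ℝ := fun x => ∑ i, W i x * (x i / ‖x‖) with hh
  have hhC : ContDiffOn ℝ 1 h U := by
    refine ContDiffOn.sum fun i _ => ?_
    exact (hW i).mul (contDiffOn_coord_div hb i)
  -- candidate derivative
  set F1 : ℝ → ℝ := fun r => ((n - 1 : ℕ) : ℝ) * r ^ (n - 1 - 1) * sphI h r +
    r ^ (n - 1) * sphI (fun x => ∑ i, (x i / ‖x‖) * pd i h x) r with hF1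
  have hder : ∀ r, b < r → HasDerivAt (flux W) (F1 r) r := by
    intro r hr
    have h1 := sphI_hasDerivAt hb hhC hr
    have h2 : HasDerivAt (fun r : ℝ => r ^ (n - 1)) (((n - 1 : ℕ) : ℝ) * r ^ (n - 1 - 1)) r :=
      hasDerivAt_pow (n - 1) r
    have h3 := h2.mul h1
    have h4 : (∫ θ : sphere (0 : E n) 1, fderiv ℝ h (r • (θ : E n)) (θ : E n) ∂(sphM n))
        = sphI (fun x => ∑ i, (x i / ‖x‖) * pd i h x) r := by
      unfold sphI
      refine integral_congr_ae (Eventually.of_forall fun θ => ?_)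
      have h0 : 0 < r := lt_of_le_of_lt hb hr
      simp only [norm_smul_sph h0.le]
      rw [fderiv_eq_sum_pd]
      refine Finset.sum_congr rfl fun i _ => ?_
      congr 1
      simp only [PiLp.smul_apply, smul_eq_mul]
      (clear * - h0; field_simp)
    rw [h4] at h3
    exact h3
  have hpdcont : ∀ (u : E n → ℝ), ContDiffOn ℝ 1 u U → ∀ i, ContinuousOn (pd i u) U := by
    intro u hu i
    have := hu.continuousOn_fderiv_of_isOpen hopen le_rfl
    exact this.clm_apply continuousOn_const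
  have hF1cont : ContinuousOn F1 (Ioi b) := by
    refine ContinuousOn.add ?_ ?_
    · exact ContinuousOn.mul (by fun_prop) (sphI_continuousOn hb hhC.continuousOn)
    · refine ContinuousOn.mul (by fun_prop) (sphI_continuousOn hb ?_)
      refine continuousOn_finsetSum _ fun i _ => ?_
      exact (contDiffOn_coord_div (m := 0) hb i).continuousOn.mul (hpdcont h hhC i)
  have hdvgcont : ContinuousOn (dvg W) U := by
    refine continuousOn_finsetSum _ fun i _ => ?_
    exact hpdcont (W i) (hW i) i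
  have hGcont : ContinuousOn (fun r => r ^ (n - 1) * sphI (dvg W) r) (Ioi b) :=
    ContinuousOn.mul (by fun_prop) (sphI_continuousOn hb hdvgcont)
  -- weak identity
  have hweak : ∀ χ : ℝ → ℝ, ContDiff ℝ ∞ χ → HasCompactSupport χ → tsupport χ ⊆ Ioi b →
      ∫ r, χ r • (r ^ (n - 1) * sphI (dvg W) r - F1 r) = 0 := by
    intro χ hχ hc hs
    obtain ⟨hu1, hu2, hu3⟩ := test_function (n := n) hb χ hχ hc hs
    have hχ1 : Differentiable ℝ χ := hχ.differentiable (by norm_num)
    have hdχ : Continuous (deriv χ) := hχ.continuous_deriv (by norm_num)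
    -- volume integration by parts
    have hparts : ∀ i, ∫ x, χ ‖x‖ * pd i (W i) x = - ∫ x, (deriv χ ‖x‖ * (x i / ‖x‖)) * W i x := by
      intro i
      have hpdχ : ∀ x : E n, fderiv ℝ (fun y : E n => χ ‖y‖) x (EuclideanSpace.single i 1)
          = deriv χ ‖x‖ * (x i / ‖x‖) := by
        intro x
        by_cases hx : x = 0
        · subst hx
          have h0 : (0 : ℝ) ∉ tsupport χ := fun h => absurd (hs h) (by simp only [mem_Ioi, not_lt, hb])
          have hz : (0 : E n) ∉ tsupport (fun y : E n => χ ‖y‖) := by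
            intro h; have := hu3 h; simp only [mem_ofPred_eq, norm_zero] at this; exact absurd this (not_lt.mpr hb)
          have h1 : (fun y : E n => χ ‖y‖) =ᶠ[𝓝 (0 : E n)] fun _ => (0 : ℝ) := by
            filter_upwards [(isClosed_tsupport (fun y : E n => χ ‖y‖)).isOpen_compl.mem_nhds hz]
              with y hy
            exact image_eq_zero_of_notMem_tsupport (f := fun y : E n => χ ‖y‖) hy
          rw [h1.fderiv_eq]
          simp only [fderiv_fun_const, Pi.zero_apply, zero_apply, norm_zero, PiLp.zero_apply, div_zero, mul_zero]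
        · exact fderiv_comp_norm hx (hχ1 _) i
      have hcd1 : Continuous (fun x : E n =>
          fderiv ℝ (fun y : E n => χ ‖y‖) x (EuclideanSpace.single i 1)) :=
        (hu1.continuous_fderiv (by norm_num)).clm_apply continuous_const
      have hcs1 : HasCompactSupport (fun x : E n =>
          fderiv ℝ (fun y : E n => χ ‖y‖) x (EuclideanSpace.single i 1)) :=
        hu2.fderiv_apply (𝕜 := ℝ) _
      have hts1 : tsupport (fun x : E n =>
          fderiv ℝ (fun y : E n => χ ‖y‖) x (EuclideanSpace.single i 1)) ⊆ U :=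
        (tsupport_fderiv_apply_subset ℝ _).trans hu3
      have hmain := integral_mul_fderiv_eq_neg_fderiv_mul_of_integrable (μ := (volume : Measure (E n)))
        (f := fun y : E n => χ ‖y‖) (g := W i) (v := EuclideanSpace.single i (1 : ℝ))
        (integrable_of_cutoff hcd1 hcs1 hts1 (hW i).continuousOn)
        (integrable_of_cutoff hu1.continuous hu2 hu3 (hpdcont (W i) (hW i) i))
        (integrable_of_cutoff hu1.continuous hu2 hu3 (hW i).continuousOn)
        (fun x _ => hu1.differentiable (by norm_num) x)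
        (fun x hx => ((hW i).differentiableOn (by norm_num)).differentiableAt
          (hopen.mem_nhds (hu3 hx)))
      simp only [hpdχ] at hmain
      exact hmain
    -- sum
    have hsum : ∫ x, χ ‖x‖ * dvg W x = - ∫ x, deriv χ ‖x‖ * h x := by
      have h1 : ∫ x, χ ‖x‖ * dvg W x = ∑ i, ∫ x, χ ‖x‖ * pd i (W i) x := by
        rw [← integral_finsetSum]
        · refine integral_congr_ae (Eventually.of_forall fun x => ?_)
          simp only [dvg, Finset.mul_sum]
        · intro i _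
          exact integrable_of_cutoff hu1.continuous hu2 hu3 (hpdcont (W i) (hW i) i)
      obtain ⟨hv1, hv2, hv3⟩ : Continuous (fun x : E n => deriv χ ‖x‖) ∧
          HasCompactSupport (fun x : E n => deriv χ ‖x‖) ∧
          tsupport (fun x : E n => deriv χ ‖x‖) ⊆ U := by
        have hd1 : ContDiff ℝ ∞ (deriv χ) := by
          have := (contDiff_infty_iff_deriv (𝕜 := ℝ) (f := χ)).mp hχ
          exact this.2
        obtain ⟨q1, q2, q3⟩ := test_function (n := n) hb (deriv χ) hd1 hc.deriv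
          ((tsupport_deriv_subset).trans hs)
        exact ⟨q1.continuous, q2, q3⟩
      have h2 : ∫ x, deriv χ ‖x‖ * h x = ∑ i, ∫ x, (deriv χ ‖x‖ * (x i / ‖x‖)) * W i x := by
        rw [← integral_finsetSum]
        · refine integral_congr_ae (Eventually.of_forall fun x => ?_)
          simp only [hh, Finset.mul_sum]
          refine Finset.sum_congr rfl fun i _ => ?_
          ring
        · intro i _
          have : (fun x : E n => (deriv χ ‖x‖ * (x i / ‖x‖)) * W i x) =
              fun x : E n => deriv χ ‖x‖ * ((x i / ‖x‖) * W i x) := by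
            funext x; ring
          rw [this]
          exact integrable_of_cutoff hv1 hv2 hv3
            ((contDiffOn_coord_div (m := 0) hb i).continuousOn.mul (hW i).continuousOn)
      rw [h1, h2, ← Finset.sum_neg_distrib]
      exact Finset.sum_congr rfl fun i _ => hparts i
    have hd1 : ContDiff ℝ ∞ (deriv χ) := ((contDiff_infty_iff_deriv (𝕜 := ℝ) (f := χ)).mp hχ).2
    obtain ⟨q1, q2, q3⟩ := test_function (n := n) hb (deriv χ) hd1 hc.deriv
          ((tsupport_deriv_subset).trans hs)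
    have hzero : ∀ r : ℝ, r ≤ 0 → χ r = 0 := by
      intro r hr
      refine image_eq_zero_of_notMem_tsupport fun h0 => ?_
      exact absurd (lt_of_le_of_lt hb (hs h0)) (not_lt.mpr hr)
    have hzero' : ∀ r : ℝ, r ≤ 0 → deriv χ r = 0 := by
      intro r hr
      refine image_eq_zero_of_notMem_tsupport fun h0 => ?_
      exact absurd (lt_of_le_of_lt hb (hs (tsupport_deriv_subset h0))) (not_lt.mpr hr)
    have hP1 : ∫ x, χ ‖x‖ * dvg W x = ∫ r, χ r * (r ^ (n - 1) * sphI (dvg W) r) := by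
      rw [polar _ (integrable_of_cutoff hu1.continuous hu2 hu3 hdvgcont)]
      rw [← integral_indicator measurableSet_Ioi]
      refine integral_congr_ae (Eventually.of_forall fun r => ?_)
      by_cases hr0 : 0 < r
      · simp only [indicator, mem_Ioi, hr0, if_true]
        rw [sphI_cutoff χ _ hr0.le]; ring
      · simp only [indicator, mem_Ioi, hr0, if_false]
        rw [hzero r (not_lt.mp hr0), zero_mul]
    have hP2 : ∫ x, deriv χ ‖x‖ * h x = ∫ r, deriv χ r * flux W r := by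
      rw [polar _ (integrable_of_cutoff q1.continuous q2 q3 hhC.continuousOn)]
      rw [← integral_indicator measurableSet_Ioi]
      refine integral_congr_ae (Eventually.of_forall fun r => ?_)
      by_cases hr0 : 0 < r
      · simp only [indicator, mem_Ioi, hr0, if_true]
        rw [sphI_cutoff (deriv χ) _ hr0.le]; simp only [flux, hh]; ring
      · simp only [indicator, mem_Ioi, hr0, if_false]
        rw [hzero' r (not_lt.mp hr0), zero_mul]
    have hcutR : ∀ u k : ℝ → ℝ, Continuous u → HasCompactSupport u → tsupport u ⊆ Ioi b →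
        ContinuousOn k (Ioi b) → Integrable (fun r => u r * k r) := by
      intro u k hu hcu hsu hk
      have hcc : Continuous (fun x => u x * k x) := by
        rw [continuous_iff_continuousAt]
        intro x
        by_cases hx : x ∈ tsupport u
        · exact hu.continuousAt.mul (hk.continuousAt (isOpen_Ioi.mem_nhds (hsu hx)))
        · have h1 : (fun x => u x * k x) =ᶠ[𝓝 x] fun _ => (0 : ℝ) := by
            filter_upwards [(isClosed_tsupport u).isOpen_compl.mem_nhds hx] with y hy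
            rw [image_eq_zero_of_notMem_tsupport hy, zero_mul]
          exact continuousAt_const.congr h1.symm
      exact hcc.integrable_of_hasCompactSupport (hcu.mul_right)
    have hfluxcont : ContinuousOn (flux W) (Ioi b) := fun r hr =>
      (hder r hr).continuousAt.continuousWithinAt
    have hI1 : Integrable (fun r => χ r * F1 r) := hcutR _ _ hχ.continuous hc hs hF1cont
    have hI2 : Integrable (fun r => χ r * (r ^ (n - 1) * sphI (dvg W) r)) :=
      hcutR _ _ hχ.continuous hc hs hGcont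
    have hI3 : Integrable (fun r => deriv χ r * flux W r) :=
      hcutR _ _ hdχ hc.deriv ((tsupport_deriv_subset).trans hs) hfluxcont
    have hI4 : Integrable (fun r => χ r * flux W r) := hcutR _ _ hχ.continuous hc hs hfluxcont
    have h1D : ∫ r, χ r * F1 r = - ∫ r, deriv χ r * flux W r := by
      have heq : ∀ r, χ r * fderiv ℝ (flux W) r 1 = χ r * F1 r := by
        intro r
        by_cases hx : r ∈ tsupport χ
        · rw [fderiv_apply_one_eq_deriv, (hder r (hs hx)).deriv]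
        · rw [image_eq_zero_of_notMem_tsupport hx, zero_mul, zero_mul]
      have hmain := integral_mul_fderiv_eq_neg_fderiv_mul_of_integrable (μ := (volume : Measure ℝ))
        (f := χ) (g := flux W) (v := (1 : ℝ))
        (by simpa only [fderiv_apply_one_eq_deriv] using hI3)
        (by simpa only [heq] using hI1)
        hI4 (fun x _ => hχ1 x) (fun x hx => (hder x (hs hx)).differentiableAt)
      simp only [heq] at hmain
      simpa only [fderiv_apply_one_eq_deriv] using hmain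
    have hfin : ∫ r, χ r • (r ^ (n - 1) * sphI (dvg W) r - F1 r)
        = (∫ r, χ r * (r ^ (n - 1) * sphI (dvg W) r)) - (∫ r, χ r * F1 r) := by
      rw [← integral_sub hI2 hI1]
      refine integral_congr_ae (Eventually.of_forall fun r => ?_)
      simp only [smul_eq_mul]; ring
    rw [hfin, ← hP1, hsum, hP2, h1D]; ring
  have hloc : LocallyIntegrableOn (fun r => r ^ (n - 1) * sphI (dvg W) r - F1 r) (Ioi b) :=
    (hGcont.sub hF1cont).locallyIntegrableOn measurableSet_Ioi
  have hae := isOpen_Ioi.ae_eq_zero_of_integral_contDiff_smul_eq_zero hloc hweak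
  have heqOn : EqOn (fun r => r ^ (n - 1) * sphI (dvg W) r) F1 (Ioi b) := by
    refine Measure.eqOn_open_of_ae_eq (μ := (volume : Measure ℝ)) ?_ isOpen_Ioi hGcont hF1cont
    rw [Filter.EventuallyEq, ae_restrict_iff' measurableSet_Ioi]
    filter_upwards [hae] with r hr1 hr2
    have := hr1 hr2
    linarith only [this]
  have := hder r hr
  rw [← heqOn hr] at this
  exact this

end Vale.Agent.P366
end
end
end
end

section

section

section

open MeasureTheory Metric Filter Topology Set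
open scoped ContDiff ENNReal

noncomputable section
namespace Vale.Agent.P366

variable {n : ℕ}

lemma inv_smul_one {s : ℝ} (hs : s ≠ 0) :
    (s ^ 2 • (1 : Matrix (Fin n) (Fin n) ℝ))⁻¹ = (s ^ 2)⁻¹ • (1 : Matrix (Fin n) (Fin n) ℝ) := by
  apply Matrix.inv_eq_left_inv
  rw [Matrix.smul_mul, Matrix.mul_smul, smul_smul, one_mul, inv_mul_cancel₀ (pow_ne_zero 2 hs),
    one_smul]

lemma ginv_apply {g : Field n} {x : E n} {s : ℝ} (hs : s ≠ 0)
    (hg : g x = s ^ 2 • (1 : Matrix (Fin n) (Fin n) ℝ)) (i j : Fin n) :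
    (g x)⁻¹ i j = (s ^ 2)⁻¹ * (if i = j then 1 else 0) := by
  rw [hg, inv_smul_one hs, Matrix.smul_apply, Matrix.one_apply, smul_eq_mul]

lemma g_apply {g : Field n} {x : E n} {s : ℝ}
    (hg : g x = s ^ 2 • (1 : Matrix (Fin n) (Fin n) ℝ)) (i j : Fin n) :
    g x i j = s ^ 2 * (if i = j then 1 else 0) := by
  rw [hg, Matrix.smul_apply, Matrix.one_apply, smul_eq_mul]

/-- Christoffel symbols from first-order data at a point. -/
lemma chr_of {g : Field n} {x : E n} {s : ℝ} (hs : s ≠ 0) {L : Fin n → ℝ}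
    (hg : g x = s ^ 2 • (1 : Matrix (Fin n) (Fin n) ℝ))
    (hd : ∀ i j k, pd i (fun y => g y j k) x = 2 * s ^ 2 * L i * (if j = k then 1 else 0))
    (k i j : Fin n) :
    chr g k i j x = L i * (if j = k then 1 else 0) + L j * (if i = k then 1 else 0)
      - L k * (if i = j then 1 else 0) := by
  unfold chr
  simp only [ginv_apply hs hg, hd]
  have h1 : ∀ l : Fin n, (s ^ 2)⁻¹ * (if k = l then 1 else 0) *
      (2 * s ^ 2 * L i * (if j = l then 1 else 0) + 2 * s ^ 2 * L j * (if i = l then 1 else 0) -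
        2 * s ^ 2 * L l * (if i = j then 1 else 0)) =
      if k = l then (2 * L i * (if j = l then 1 else 0) + 2 * L j * (if i = l then 1 else 0) -
        2 * L l * (if i = j then 1 else 0)) else 0 := by
    intro l
    split_ifs <;> field_simp <;> ring
  simp only [h1, Finset.sum_ite_eq, Finset.mem_univ, if_true]
  ring

/-- Trace with respect to a conformally flat metric. -/
lemma tr_of {g K : Field n} {x : E n} {s : ℝ} (hs : s ≠ 0)
    (hg : g x = s ^ 2 • (1 : Matrix (Fin n) (Fin n) ℝ)) :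
    tr g K x = (s ^ 2)⁻¹ * ∑ i, K x i i := by
  unfold tr
  simp only [ginv_apply hs hg]
  rw [Finset.mul_sum]
  refine Finset.sum_congr rfl fun i _ => ?_
  have : ∀ j, (s ^ 2)⁻¹ * (if i = j then 1 else 0) * K x i j =
    if i = j then (s ^ 2)⁻¹ * K x i j else 0 := by
    intro j; split_ifs <;> simp
  simp only [this, Finset.sum_ite_eq, Finset.mem_univ, if_true]

lemma normSq_of {g K : Field n} {x : E n} {s : ℝ} (hs : s ≠ 0)
    (hg : g x = s ^ 2 • (1 : Matrix (Fin n) (Fin n) ℝ)) :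
    normSq g K x = (s ^ 2)⁻¹ ^ 2 * ∑ i, ∑ j, K x i j ^ 2 := by
  unfold normSq
  simp only [ginv_apply hs hg]
  rw [Finset.mul_sum]
  refine Finset.sum_congr rfl fun i _ => ?_
  rw [Finset.mul_sum]
  refine Finset.sum_congr rfl fun j _ => ?_
  have : ∀ k l, (s ^ 2)⁻¹ * (if i = k then 1 else 0) * ((s ^ 2)⁻¹ * (if j = l then 1 else 0)) *
      K x i j * K x k l = if j = l then (if i = k then (s ^ 2)⁻¹ ^ 2 * (K x i j * K x k l) else 0)
        else 0 := by
    intro k l; split_ifs <;> ring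
  simp only [this, Finset.sum_ite_eq, Finset.mem_univ, if_true]
  ring

lemma momT_of {g K : Field n} {x : E n} {s : ℝ} (hs : s ≠ 0)
    (hg : g x = s ^ 2 • (1 : Matrix (Fin n) (Fin n) ℝ)) (i j : Fin n) :
    momT g K x i j = K x i j - (∑ k, K x k k) * (if i = j then 1 else 0) := by
  unfold momT
  rw [Matrix.sub_apply, Matrix.smul_apply, g_apply hg, tr_of hs hg, smul_eq_mul]
  field_simp


lemma pd_congr {f h : E n → ℝ} {x : E n} (hfh : f =ᶠ[𝓝 x] h) (i : Fin n) : pd i f x = pd i h x := by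
  unfold pd; rw [hfh.fderiv_eq]

lemma pd_add {f h : E n → ℝ} {x : E n} (hf : DifferentiableAt ℝ f x)
    (hh : DifferentiableAt ℝ h x) (i : Fin n) :
    pd i (fun y => f y + h y) x = pd i f x + pd i h x := by
  unfold pd; rw [fderiv_fun_add hf hh]; rfl

lemma pd_sub {f h : E n → ℝ} {x : E n} (hf : DifferentiableAt ℝ f x)
    (hh : DifferentiableAt ℝ h x) (i : Fin n) :
    pd i (fun y => f y - h y) x = pd i f x - pd i h x := by
  unfold pd; rw [fderiv_fun_sub hf hh]; rfl

lemma pd_mul {f h : E n → ℝ} {x : E n} (hf : DifferentiableAt ℝ f x)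
    (hh : DifferentiableAt ℝ h x) (i : Fin n) :
    pd i (fun y => f y * h y) x = f x * pd i h x + pd i f x * h x := by
  unfold pd; rw [fderiv_fun_mul hf hh]
  simp only [add_apply, smul_apply, smul_eq_mul, mul_comm]

lemma pd_const (c : ℝ) (x : E n) (i : Fin n) : pd i (fun _ => c) x = 0 := by
  unfold pd; simp

lemma pd_mul_const {f : E n → ℝ} {x : E n} (hf : DifferentiableAt ℝ f x) (c : ℝ) (i : Fin n) :
    pd i (fun y => f y * c) x = pd i f x * c := by
  rw [pd_mul hf (differentiableAt_const c), pd_const]; ring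

lemma pd_coord (i j : Fin n) (x : E n) : pd i (fun y => y j) x = if i = j then 1 else 0 := by
  unfold pd
  have h : HasFDerivAt (fun y : E n => y j) (EuclideanSpace.proj (𝕜 := ℝ) j) x :=
    (EuclideanSpace.proj (𝕜 := ℝ) j).hasFDerivAt
  rw [h.fderiv]
  simp [Pi.single_apply, eq_comm]

lemma pd_sum {ι : Type*} (s : Finset ι) {f : ι → E n → ℝ} {x : E n}
    (hf : ∀ a ∈ s, DifferentiableAt ℝ (f a) x) (i : Fin n) :
    pd i (fun y => ∑ a ∈ s, f a y) x = ∑ a ∈ s, pd i (f a) x := by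
  unfold pd
  rw [fderiv_fun_sum hf]
  simp only [sum_apply]

/-- Scalar curvature of a conformally flat metric, from the Christoffel symbols near `x`. -/
lemma scal_of {g : Field n} {x : E n} {s : ℝ} (hs : s ≠ 0) {L : Fin n → E n → ℝ}
    (hg : g x = s ^ 2 • (1 : Matrix (Fin n) (Fin n) ℝ))
    (hL : ∀ i, DifferentiableAt ℝ (L i) x)
    (hchr : ∀ k i j, chr g k i j =ᶠ[𝓝 x] fun y =>
      L i y * (if j = k then 1 else 0) + L j y * (if i = k then 1 else 0)
      - L k y * (if i = j then 1 else 0)) :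
    scal g x = -(s ^ 2)⁻¹ * (((n : ℝ) - 1) * (2 * ∑ i, pd i (L i) x +
      ((n : ℝ) - 2) * ∑ i, L i x ^ 2)) := by
  have hval : ∀ k i j, chr g k i j x = L i x * (if j = k then 1 else 0) +
      L j x * (if i = k then 1 else 0) - L k x * (if i = j then 1 else 0) :=
    fun k i j => (hchr k i j).self_of_nhds
  have hpd : ∀ m k i j, pd m (chr g k i j) x = pd m (L i) x * (if j = k then 1 else 0) +
      pd m (L j) x * (if i = k then 1 else 0) - pd m (L k) x * (if i = j then 1 else 0) := by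
    intro m k i j
    rw [pd_congr (hchr k i j)]
    have h1 := pd_sub (n := n) (x := x) (f := fun y => L i y * (if j = k then 1 else 0) +
      L j y * (if i = k then 1 else 0)) (h := fun y => L k y * (if i = j then 1 else 0))
      (((hL i).mul_const _).add ((hL j).mul_const _)) ((hL k).mul_const _) m
    rw [h1, pd_add ((hL i).mul_const _) ((hL j).mul_const _), pd_mul_const (hL i),
      pd_mul_const (hL j), pd_mul_const (hL k)]
  unfold scal
  have h0 : ∀ i j, (g x)⁻¹ i j * (∑ k, (pd k (chr g k i j) x - pd j (chr g k i k) x +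
      ∑ l, (chr g k k l x * chr g l i j x - chr g k j l x * chr g l i k x))) =
      if i = j then (s ^ 2)⁻¹ * (∑ k, (pd k (chr g k i j) x - pd j (chr g k i k) x +
      ∑ l, (chr g k k l x * chr g l i j x - chr g k j l x * chr g l i k x))) else 0 := by
    intro i j
    rw [ginv_apply hs hg]
    split_ifs <;> simp
  simp only [h0, Finset.sum_ite_eq, Finset.mem_univ, if_true]
  have h1 : ∀ i : Fin n, (∑ k, (pd k (chr g k i i) x - pd i (chr g k i k) x +
      ∑ l, (chr g k k l x * chr g l i i x - chr g k i l x * chr g l i k x))) =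
      (2 - (n : ℝ)) * pd i (L i) x - ∑ k, pd k (L k) x +
        ((n : ℝ) - 2) * (L i x ^ 2 - ∑ k, L k x ^ 2) := by
    intro i
    have ha : ∀ k, pd k (chr g k i i) x = (if i = k then 2 * pd k (L i) x else 0)
        - pd k (L k) x := by
      intro k; rw [hpd]
      rcases eq_or_ne i k with rfl | h
      · simp only [if_true]; ring
      · simp only [h, if_true, if_false]; ring
    have hb : ∀ k, pd i (chr g k i k) x = pd i (L i) x := by
      intro k; rw [hpd]; simp
    have hc : ∀ k l, chr g k k l x * chr g l i i x - chr g k i l x * chr g l i k x =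
        (if i = l then 2 * L l x * L i x else 0) - L l x ^ 2 -
        ((if k = l then L i x ^ 2 else 0) - (if i = k then L l x ^ 2 else 0) +
          (if i = k then (if i = l then 2 * L l x * L k x else 0) else 0) -
          (if i = l then L k x ^ 2 else 0)) := by
      intro k l
      rw [hval, hval, hval, hval]
      rcases eq_or_ne k l with rfl | hkl
      · rcases eq_or_ne i k with rfl | hik
        · simp only [if_true]; ring
        · simp only [hik, if_true, if_false]; ring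
      · rcases eq_or_ne i k with rfl | hik
        · simp only [hkl, hkl.symm, if_true, if_false]; ring
        · rcases eq_or_ne i l with rfl | hil
          · simp only [hik, hik.symm, if_true, if_false]; ring
          · simp only [hik, hil, hkl, hkl.symm, if_true, if_false]; ring
    simp only [ha, hb, hc]
    simp only [Finset.sum_add_distrib, Finset.sum_sub_distrib, Finset.sum_ite_eq,
      Finset.mem_univ, if_true, Finset.sum_const, Finset.card_univ, Fintype.card_fin, nsmul_eq_mul,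
      Finset.sum_ite_irrel, mul_zero]
    ring
  simp only [h1]
  rw [← Finset.mul_sum]
  simp only [Finset.sum_add_distrib, Finset.sum_sub_distrib, ← Finset.mul_sum, Finset.sum_const,
    Finset.card_univ, Fintype.card_fin, nsmul_eq_mul]
  ring


/-- `K - (Euclidean trace of K) δ`, componentwise. -/
def piE (K : Field n) (i j : Fin n) (x : E n) : ℝ :=
  K x i j - (∑ k, K x k k) * (if i = j then 1 else 0)

lemma piE_symm {K : Field n} {x : E n} (hK : (K x).IsSymm) (i j : Fin n) :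
    piE K i j x = piE K j i x := by
  unfold piE
  rw [hK.apply j i]
  congr 2
  simp [eq_comm]

/-- The momentum density of a conformally flat metric. -/
lemma mom_of {g K : Field n} {x : E n} {s : ℝ} (hs : s ≠ 0) {L : Fin n → ℝ}
    (hg : g x = s ^ 2 • (1 : Matrix (Fin n) (Fin n) ℝ)) (hK : (K x).IsSymm)
    (hchr : ∀ k i j, chr g k i j x =
      L i * (if j = k then 1 else 0) + L j * (if i = k then 1 else 0)
      - L k * (if i = j then 1 else 0))
    (hmom : ∀ i j, (fun y => momT g K y i j) =ᶠ[𝓝 x] piE K i j) (j : Fin n) :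
    s ^ 2 * mom g K j x = ∑ i, pd i (piE K i j) x + ((n : ℝ) - 2) * ∑ i, L i * piE K i j x
      - L j * ∑ i, piE K i i x := by
  have hval : ∀ i j, momT g K x i j = piE K i j x := fun i j => (hmom i j).self_of_nhds
  unfold mom
  have h0 : ∀ i k, (g x)⁻¹ i k * (pd k (fun y => momT g K y i j) x -
      ∑ l, (chr g l k i x * momT g K x l j + chr g l k j x * momT g K x i l)) =
      if i = k then (s ^ 2)⁻¹ * (pd k (piE K i j) x -
      ∑ l, (chr g l k i x * momT g K x l j + chr g l k j x * momT g K x i l)) else 0 := by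
    intro i k
    rw [ginv_apply hs hg, pd_congr (hmom i j)]
    split_ifs <;> simp
  simp only [h0, Finset.sum_ite_eq, Finset.mem_univ, if_true]
  rw [← Finset.mul_sum, ← mul_assoc, mul_inv_cancel₀ (pow_ne_zero 2 hs), one_mul]
  have h1 : ∀ i l, chr g l i i x * momT g K x l j + chr g l i j x * momT g K x i l =
      (if i = l then 2 * L i * piE K l j x else 0) - L l * piE K l j x +
      (if j = l then L i * piE K i l x else 0) + (if i = l then L j * piE K i l x else 0) -
      (if i = j then L l * piE K i l x else 0) := by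
    intro i l
    rw [hchr, hchr, hval, hval]
    simp only [if_true]
    split_ifs <;> ring
  simp only [h1]
  simp only [Finset.sum_add_distrib, Finset.sum_sub_distrib, Finset.sum_ite_eq,
      Finset.mem_univ, if_true, Finset.sum_const, Finset.card_univ, Fintype.card_fin, nsmul_eq_mul,
      Finset.sum_ite_irrel, mul_zero]
  rw [Finset.sum_ite_eq_of_mem' _ _ _ (Finset.mem_univ j)]
  have h2 : ∀ i, piE K j i x = piE K i j x := fun i => piE_symm hK j i
  simp only [h2]
  rw [← Finset.mul_sum]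
  have h3 : ∑ i, 2 * L i * piE K i j x = 2 * ∑ i, L i * piE K i j x := by
    rw [Finset.mul_sum]; exact Finset.sum_congr rfl fun i _ => by ring
  rw [h3]
  ring

end Vale.Agent.P366
end
end
end
end

section

section

section

open MeasureTheory Metric Filter Topology Set
open scoped ContDiff ENNReal

noncomputable section
namespace Vale.Agent.P366

variable {n : ℕ}

/-- Components of the radial unit vector. -/
def Nc (i : Fin n) (x : E n) : ℝ := x i / ‖x‖

lemma sum_Nc_sq {x : E n} (hx : x ≠ 0) : ∑ i, Nc i x ^ 2 = 1 := by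
  unfold Nc
  have h1 : ‖x‖ ^ 2 = ∑ i, x i ^ 2 := by
    rw [EuclideanSpace.norm_sq_eq]; simp only [Real.norm_eq_abs, sq_abs]
  have h2 : ‖x‖ ^ 2 ≠ 0 := pow_ne_zero 2 (norm_ne_zero_iff.mpr hx)
  simp only [div_pow]
  rw [← Finset.sum_div, ← h1, div_self h2]

lemma contDiffAt_Nc {m : WithTop ℕ∞} (i : Fin n) {x : E n} (hx : x ≠ 0) :
    ContDiffAt ℝ m (Nc i) x := by
  have h1 : ContDiffAt ℝ m (fun x : E n => x i) x :=
    (EuclideanSpace.proj (𝕜 := ℝ) i).contDiff.contDiffAt
  exact h1.div (contDiffAt_norm ℝ hx) (norm_ne_zero_iff.mpr hx)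

lemma ne_zero_of_lt {b : ℝ} (hb : 0 ≤ b) {x : E n} (hx : b < ‖x‖) : x ≠ 0 := by
  rintro rfl
  simp at hx
  exact absurd hx (not_lt.mpr hb)

lemma pd_norm {x : E n} (hx : x ≠ 0) (i : Fin n) : pd i (fun y : E n => ‖y‖) x = Nc i x := by
  have h := fderiv_comp_norm (χ := fun t => t) hx differentiableAt_id i
  simpa [Nc] using h

lemma pd_Nc {x : E n} (hx : x ≠ 0) (i j : Fin n) :
    pd i (Nc j) x = ((if i = j then 1 else 0) - Nc i x * Nc j x) / ‖x‖ := by
  have hn : ‖x‖ ≠ 0 := norm_ne_zero_iff.mpr hx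
  have h1 : DifferentiableAt ℝ (fun y : E n => ‖y‖) x :=
    (contDiffAt_norm ℝ hx (n := 1)).differentiableAt (by norm_num)
  have h2 : DifferentiableAt ℝ (Nc j) x :=
    (contDiffAt_Nc (m := 1) j hx).differentiableAt (by norm_num)
  -- y j = Nc j y * ‖y‖ near x
  have h3 : (fun y : E n => y j) =ᶠ[𝓝 x] fun y => Nc j y * ‖y‖ := by
    have : ∀ᶠ y in 𝓝 x, y ≠ 0 := isOpen_ne.mem_nhds hx
    filter_upwards [this] with y hy
    have : ‖y‖ ≠ 0 := norm_ne_zero_iff.mpr hy
    unfold Nc; (clear * - this; field_simp)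
  have h4 := pd_congr h3 i
  rw [pd_coord, pd_mul h2 h1, pd_norm hx] at h4
  rw [h4]
  field_simp
  ring

/-- Radial derivative data. -/
lemma pd_radial {f : ℝ → ℝ} {x : E n} (hx : x ≠ 0) (hf : DifferentiableAt ℝ f ‖x‖) (i : Fin n) :
    pd i (fun y => f ‖y‖) x = deriv f ‖x‖ * Nc i x := fderiv_comp_norm hx hf i

lemma differentiableAt_radial {f : ℝ → ℝ} {x : E n} (hx : x ≠ 0)
    (hf : DifferentiableAt ℝ f ‖x‖) : DifferentiableAt ℝ (fun y : E n => f ‖y‖) x :=
  hf.comp x ((contDiffAt_norm ℝ hx (n := 1)).differentiableAt (by norm_num))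

lemma sum_pd_radial {l : ℝ → ℝ} {x : E n} (hx : x ≠ 0) (hl : DifferentiableAt ℝ l ‖x‖) :
    ∑ i, pd i (fun y => l ‖y‖ * Nc i y) x = deriv l ‖x‖ + ((n : ℝ) - 1) * l ‖x‖ / ‖x‖ := by
  have hn : ‖x‖ ≠ 0 := norm_ne_zero_iff.mpr hx
  have h2 : ∀ i : Fin n, DifferentiableAt ℝ (Nc i) x := fun i =>
    (contDiffAt_Nc (m := 1) i hx).differentiableAt (by norm_num)
  have h1 : ∀ i : Fin n, pd i (fun y => l ‖y‖ * Nc i y) x =
      l ‖x‖ / ‖x‖ + (deriv l ‖x‖ - l ‖x‖ / ‖x‖) * Nc i x ^ 2 := by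
    intro i
    rw [pd_mul (differentiableAt_radial hx hl) (h2 i), pd_radial hx hl, pd_Nc hx]
    simp only [if_true]
    field_simp
    ring
  simp only [h1]
  rw [Finset.sum_add_distrib, ← Finset.mul_sum, sum_Nc_sq hx]
  simp only [Finset.sum_const, Finset.card_univ, Fintype.card_fin, nsmul_eq_mul, mul_one]
  field_simp
  ring

lemma subset_closure_outside {R : ℝ} (hR : 0 < R) :
    {x : E n | R ≤ ‖x‖} ⊆ closure {x : E n | R < ‖x‖} := by
  have h1 : {x : E n | R < ‖x‖} = (closedBall (0 : E n) R)ᶜ := by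
    ext x; simp only [mem_ofPred_eq, mem_compl_iff, mem_closedBall, dist_zero_right, not_le]
  rw [h1, closure_compl, interior_closedBall _ hR.ne']
  intro x hx
  simpa only [mem_compl_iff, mem_ball, dist_zero_right, not_lt, mem_ofPred_eq] using hx

lemma eqOn_closed {b R : ℝ} (hbR : b < R) (hR : 0 < R) {u v : E n → ℝ}
    (hu : ContinuousOn u {x | b < ‖x‖}) (hv : ContinuousOn v {x | b < ‖x‖})
    (h : ∀ x, R < ‖x‖ → u x = v x) : ∀ x, R ≤ ‖x‖ → u x = v x := by
  have hsub : {x : E n | R ≤ ‖x‖} ⊆ {x : E n | b < ‖x‖} := fun x hx => lt_of_lt_of_le hbR hx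
  have := Set.EqOn.of_subset_closure (s := {x : E n | R < ‖x‖}) (t := {x : E n | R ≤ ‖x‖})
    (f := u) (g := v) (fun x hx => h x hx) (hu.mono hsub) (hv.mono hsub)
    (fun x (hx : R < ‖x‖) => hx.le) (subset_closure_outside hR)
  intro x hx
  exact this hx

end Vale.Agent.P366
end
end
end
end

section

section

section

open MeasureTheory Metric Filter Topology Set
open scoped ContDiff ENNReal

noncomputable section
namespace Vale.Agent.P366

variable {n : ℕ}

/-- Working context: data that are smooth on `b < ‖x‖` and whose metric is `f(‖x‖)² δ` on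
`a ≤ ‖x‖`. -/
structure RotData (n : ℕ) where
  g : Field n
  K : Field n
  b : ℝ
  a : ℝ
  f : ℝ → ℝ
  hb : 0 ≤ b
  hba : b < a
  g_smooth : ∀ i j, ContDiffOn ℝ ∞ (fun x => g x i j) {x | b < ‖x‖}
  K_smooth : ∀ i j, ContDiffOn ℝ ∞ (fun x => K x i j) {x | b < ‖x‖}
  K_symm : ∀ x, b < ‖x‖ → (K x).IsSymm
  f_smooth : ContDiffOn ℝ ∞ f (Ioi b)
  f_pos : ∀ R, b < R → 0 < f R
  conf : ∀ x, a ≤ ‖x‖ → g x = (f ‖x‖) ^ 2 • (1 : Matrix (Fin n) (Fin n) ℝ)

namespace RotData

variable (d : RotData n)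

lemma a_pos : 0 < d.a := lt_of_le_of_lt d.hb d.hba

/-- logarithmic derivative of the conformal factor -/
def l (R : ℝ) : ℝ := deriv d.f R / d.f R

lemma f_diff {R : ℝ} (hR : d.b < R) : DifferentiableAt ℝ d.f R :=
  (d.f_smooth.differentiableOn (by norm_num)).differentiableAt (isOpen_Ioi.mem_nhds hR)

lemma deriv_f_smooth : ContDiffOn ℝ ∞ (deriv d.f) (Ioi d.b) :=
  ((contDiffOn_infty_iff_deriv_of_isOpen isOpen_Ioi).1 d.f_smooth).2

lemma l_smooth : ContDiffOn ℝ ∞ d.l (Ioi d.b) :=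
  d.deriv_f_smooth.div d.f_smooth (fun R hR => (d.f_pos R hR).ne')

lemma l_diff {R : ℝ} (hR : d.b < R) : DifferentiableAt ℝ d.l R :=
  (d.l_smooth.differentiableOn (by norm_num)).differentiableAt (isOpen_Ioi.mem_nhds hR)

lemma deriv_f {R : ℝ} (hR : d.b < R) : deriv d.f R = d.l R * d.f R := by
  unfold l; rw [div_mul_cancel₀ _ (d.f_pos R hR).ne']

lemma ne_zero {x : E n} (hx : d.b < ‖x‖) : x ≠ 0 := ne_zero_of_lt d.hb hx

lemma b_lt {x : E n} (hx : d.a ≤ ‖x‖) : d.b < ‖x‖ := lt_of_lt_of_le d.hba hx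

lemma contOn_radial {u : ℝ → ℝ} (hu : ContinuousOn u (Ioi d.b)) :
    ContinuousOn (fun x : E n => u ‖x‖) {x | d.b < ‖x‖} :=
  hu.comp continuous_norm.continuousOn (fun _ hx => hx)

lemma contOn_Nc (i : Fin n) : ContinuousOn (Nc i) {x : E n | d.b < ‖x‖} :=
  (contDiffOn_coord_div (m := 0) d.hb i).continuousOn

lemma contOn_pd {u : E n → ℝ} (hu : ContDiffOn ℝ 1 u {x | d.b < ‖x‖}) (i : Fin n) :
    ContinuousOn (pd i u) {x | d.b < ‖x‖} := by
  have := hu.continuousOn_fderiv_of_isOpen (isOpen_outside d.b) le_rfl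
  exact this.clm_apply continuousOn_const

lemma pd_g {x : E n} (hx : d.a ≤ ‖x‖) (i j k : Fin n) :
    pd i (fun y => d.g y j k) x =
      2 * d.f ‖x‖ ^ 2 * (d.l ‖x‖ * Nc i x) * (if j = k then 1 else 0) := by
  refine eqOn_closed d.hba d.a_pos
    (u := fun x => pd i (fun y => d.g y j k) x)
    (v := fun x => 2 * d.f ‖x‖ ^ 2 * (d.l ‖x‖ * Nc i x) * (if j = k then 1 else 0)) ?_ ?_ ?_ x hx
  · exact d.contOn_pd ((d.g_smooth j k).of_le (by norm_num)) i
  · have h1 := d.contOn_radial (d.f_smooth.continuousOn)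
    have h2 := d.contOn_radial (d.l_smooth.continuousOn)
    exact (((continuousOn_const.mul (h1.pow 2)).mul (h2.mul (d.contOn_Nc i))).mul
      continuousOn_const)
  · intro x hx
    have hxb : d.b < ‖x‖ := d.b_lt hx.le
    have hx0 := d.ne_zero hxb
    have h1 : (fun y => d.g y j k) =ᶠ[𝓝 x] fun y =>
        (d.f ‖y‖ * d.f ‖y‖) * (if j = k then 1 else 0) := by
      filter_upwards [(isOpen_outside d.a).mem_nhds hx] with y hy
      have hy' : d.a < ‖y‖ := hy
      rw [g_apply (d.conf y hy'.le)]; ring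
    have h2 := differentiableAt_radial hx0 (d.f_diff hxb)
    have h3 : DifferentiableAt ℝ (fun y : E n => d.f ‖y‖ * d.f ‖y‖) x := h2.mul h2
    rw [pd_congr h1, pd_mul_const h3, pd_mul h2 h2, pd_radial hx0 (d.f_diff hxb),
      d.deriv_f hxb]
    ring

lemma chr_val {x : E n} (hx : d.a ≤ ‖x‖) (k i j : Fin n) :
    chr d.g k i j x = d.l ‖x‖ * Nc i x * (if j = k then 1 else 0)
      + d.l ‖x‖ * Nc j x * (if i = k then 1 else 0)
      - d.l ‖x‖ * Nc k x * (if i = j then 1 else 0) :=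
  chr_of (L := fun i => d.l ‖x‖ * Nc i x) (d.f_pos _ (d.b_lt hx)).ne' (d.conf x hx)
    (fun i j k => d.pd_g hx i j k) k i j

lemma scal_val {x : E n} (hx : d.a < ‖x‖) :
    scal d.g x = -(d.f ‖x‖ ^ 2)⁻¹ * (((n : ℝ) - 1) * (2 * (deriv d.l ‖x‖ +
      ((n : ℝ) - 1) * d.l ‖x‖ / ‖x‖) + ((n : ℝ) - 2) * d.l ‖x‖ ^ 2)) := by
  have hxb : d.b < ‖x‖ := d.b_lt hx.le
  have hx0 := d.ne_zero hxb
  have hL : ∀ i : Fin n, DifferentiableAt ℝ (fun y : E n => d.l ‖y‖ * Nc i y) x := fun i =>
    (differentiableAt_radial hx0 (d.l_diff hxb)).mul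
      ((contDiffAt_Nc (m := 1) i hx0).differentiableAt (by norm_num))
  rw [scal_of (L := fun i y => d.l ‖y‖ * Nc i y) (d.f_pos _ hxb).ne' (d.conf x hx.le) hL]
  · rw [sum_pd_radial hx0 (d.l_diff hxb)]
    have : ∑ i, (d.l ‖x‖ * Nc i x) ^ 2 = d.l ‖x‖ ^ 2 := by
      simp only [mul_pow]
      rw [← Finset.mul_sum, sum_Nc_sq hx0, mul_one]
    rw [this]
  · intro k i j
    filter_upwards [(isOpen_outside d.a).mem_nhds hx] with y hy
    exact d.chr_val (le_of_lt hy) k i j

/-! ### decomposition of `K` -/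

/-- Euclidean trace of `K`. -/
def t (x : E n) : ℝ := ∑ i, d.K x i i

/-- Radial component `K(N, N)`. -/
def KNN (x : E n) : ℝ := ∑ i, ∑ j, d.K x i j * Nc i x * Nc j x

/-- Euclidean trace of `K` over the sphere. -/
def kE (x : E n) : ℝ := d.t x - d.KNN x

/-- The mixed component of `K`. -/
def Xc (i : Fin n) (x : E n) : ℝ := ∑ j, d.K x i j * Nc j x - d.KNN x * Nc i x

/-- The squared norm of the trace-free tangential part. -/
def Qc (x : E n) : ℝ :=
  ∑ i, ∑ j, d.K x i j ^ 2 - d.KNN x ^ 2 - 2 * ∑ i, d.Xc i x ^ 2 - d.kE x ^ 2 / ((n : ℝ) - 1)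

lemma Xc_tan {x : E n} (hx : d.b < ‖x‖) : ∑ i, Nc i x * d.Xc i x = 0 := by
  unfold Xc
  simp only [mul_sub, Finset.mul_sum]
  rw [Finset.sum_sub_distrib]
  have h1 : ∑ i, Nc i x * (d.KNN x * Nc i x) = d.KNN x := by
    have : ∀ i, Nc i x * (d.KNN x * Nc i x) = d.KNN x * Nc i x ^ 2 := fun i => by ring
    simp only [this]
    rw [← Finset.mul_sum, sum_Nc_sq (d.ne_zero hx), mul_one]
  rw [h1]
  unfold KNN
  rw [sub_eq_zero]
  refine Finset.sum_congr rfl fun i _ => Finset.sum_congr rfl fun j _ => by ring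

lemma Qc_nonneg (hn : 2 ≤ n) {x : E n} (hx : d.b < ‖x‖) : 0 ≤ d.Qc x := by
  have hx0 := d.ne_zero hx
  have hN := sum_Nc_sq hx0
  have hKs : ∀ i j, d.K x i j = d.K x j i := fun i j => by
    have := (d.K_symm x hx).apply i j; rw [this]
  have hn1 : (0 : ℝ) < (n : ℝ) - 1 := by
    have : (2 : ℝ) ≤ n := by exact_mod_cast hn
    linarith only [this]
  set q := d.kE x / ((n : ℝ) - 1) with hq
  set N := fun i => Nc i x with hNdef
  set X := fun i => d.Xc i x with hX
  set k0 := d.KNN x with hk0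
  have hXN : ∑ i, N i * X i = 0 := d.Xc_tan hx
  have hKN : ∀ i, ∑ j, d.K x i j * N j = X i + k0 * N i := fun i => by
    simp only [hX, Xc, hk0, hNdef]; ring
  -- the trace-free tangential part
  set B : Fin n → Fin n → ℝ := fun i j => d.K x i j - N i * X j - X i * N j - k0 * (N i * N j)
    - q * ((if i = j then 1 else 0) - N i * N j) with hB
  have hrow : ∀ i, ∑ j, B i j ^ 2 = ∑ j, d.K x i j ^ 2 + N i ^ 2 * (∑ j, X j ^ 2) - X i ^ 2
      + (k0 - q) ^ 2 * N i ^ 2 + q ^ 2 - 2 * (N i * ∑ j, d.K x i j * X j)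
      - 2 * k0 * (k0 - q) * N i ^ 2 - 2 * q * d.K x i i
      + (4 * q - 2 * k0) * (N i * X i)
      + 2 * q * (k0 - q) * N i ^ 2 := by
    intro i
    have hexp : ∀ j, B i j ^ 2 = d.K x i j ^ 2 + N i ^ 2 * X j ^ 2 + X i ^ 2 * N j ^ 2
        + (k0 - q) ^ 2 * N i ^ 2 * N j ^ 2 + (if i = j then q ^ 2 else 0)
        - 2 * N i * (d.K x i j * X j) - 2 * X i * (d.K x i j * N j)
        - 2 * (k0 - q) * N i * (d.K x i j * N j) - (if i = j then 2 * q * d.K x i j else 0)
        + 2 * N i * X i * (N j * X j) + 2 * (k0 - q) * N i ^ 2 * (N j * X j)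
        + (if i = j then 2 * q * N i * X j else 0)
        + 2 * (k0 - q) * N i * X i * N j ^ 2 + (if i = j then 2 * q * X i * N j else 0)
        + (if i = j then 2 * (k0 - q) * q * N i * N j else 0) := by
      intro j
      simp only [hB]
      split_ifs <;> ring
    simp only [hexp]
    simp only [Finset.sum_add_distrib, Finset.sum_sub_distrib, ← Finset.mul_sum,
      Finset.sum_ite_eq, Finset.mem_univ, if_true]
    rw [hKN, hXN, hN]
    ring
  have hsum : ∑ i, ∑ j, B i j ^ 2 = d.Qc x := by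
    simp only [hrow]
    have hNKX : ∑ i, N i * ∑ j, d.K x i j * X j = ∑ j, X j ^ 2 := by
      simp only [Finset.mul_sum]
      rw [Finset.sum_comm]
      have : ∀ j, ∑ i, N i * (d.K x i j * X j) = X j * (X j + k0 * N j) := by
        intro j
        rw [← hKN j, Finset.mul_sum]
        refine Finset.sum_congr rfl fun i _ => ?_
        rw [hKs i j]; ring
      simp only [this]
      have h2 : ∀ j, X j * (X j + k0 * N j) = X j ^ 2 + k0 * (N j * X j) := fun j => by ring
      simp only [h2]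
      rw [Finset.sum_add_distrib, ← Finset.mul_sum, hXN, mul_zero, add_zero]
    simp only [Finset.sum_add_distrib, Finset.sum_sub_distrib, ← Finset.mul_sum, ← Finset.sum_mul,
      Finset.sum_const, Finset.card_univ, Fintype.card_fin, nsmul_eq_mul]
    have hN' : ∑ i, N i ^ 2 = 1 := hN
    rw [hNKX, hXN, hN']
    have ht : ∑ i, d.K x i i = k0 + ((n : ℝ) - 1) * q := by
      rw [hq, mul_div_cancel₀ _ hn1.ne']; unfold kE t; ring
    rw [ht]
    have hkE : d.kE x ^ 2 / ((n : ℝ) - 1) = ((n : ℝ) - 1) * q ^ 2 := by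
      rw [hq]; (clear * - hn1; field_simp)
    unfold Qc
    rw [hkE]
    simp only [hX]
    ring
  rw [← hsum]
  exact Finset.sum_nonneg fun i _ => Finset.sum_nonneg fun j _ => sq_nonneg _

/-- The Hamiltonian constraint. -/
lemma mu_val (hn : 2 ≤ n) {x : E n} (hx : d.a < ‖x‖) :
    2 * mu d.g d.K x =
    -((n : ℝ) - 1) / (d.f ‖x‖) ^ 2 * (2 * (deriv d.l ‖x‖ + -(1 / ‖x‖ ^ 2))
      + 2 * (d.l ‖x‖ + 1 / ‖x‖) / ‖x‖
      + ((n : ℝ) - 2) * (d.l ‖x‖ + 1 / ‖x‖) ^ 2 - ((n : ℝ) - 2) / ‖x‖ ^ 2)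
    + 1 / (d.f ‖x‖) ^ 4 * (2 * d.KNN x * d.kE x
      + (((n : ℝ) - 2) / ((n : ℝ) - 1)) * (d.kE x) ^ 2
      - 2 * (∑ i, d.Xc i x ^ 2) - d.Qc x) := by
  have hxb : d.b < ‖x‖ := d.b_lt hx.le
  have hx0 := d.ne_zero hxb
  have hf := (d.f_pos _ hxb).ne'
  have hn0 : ‖x‖ ≠ 0 := norm_ne_zero_iff.mpr hx0
  have hn1 : (n : ℝ) - 1 ≠ 0 := by
    have : (2 : ℝ) ≤ n := by exact_mod_cast hn
    intro h; linarith only [h, this]
  have ht : d.t x = d.KNN x + d.kE x := by unfold kE; ring
  unfold mu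
  rw [d.scal_val hx, tr_of hf (d.conf x hx.le), normSq_of hf (d.conf x hx.le)]
  have h1 : ∑ i, d.K x i i = d.t x := rfl
  rw [h1, ht]
  have h2 : ∑ i, ∑ j, d.K x i j ^ 2 = d.Qc x + d.KNN x ^ 2 + 2 * ∑ i, d.Xc i x ^ 2
      + d.kE x ^ 2 / ((n : ℝ) - 1) := by unfold Qc; ring
  rw [h2]
  field_simp
  ring

lemma piE_smooth (i j : Fin n) : ContDiffOn ℝ ∞ (piE d.K i j) {x | d.b < ‖x‖} := by
  unfold piE
  exact (d.K_smooth i j).sub ((ContDiffOn.sum fun k _ => d.K_smooth k k).mul contDiffOn_const)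

lemma momT_near {x : E n} (hx : d.a < ‖x‖) (i j : Fin n) :
    (fun y => momT d.g d.K y i j) =ᶠ[𝓝 x] piE d.K i j := by
  filter_upwards [(isOpen_outside d.a).mem_nhds hx] with y hy
  exact momT_of (d.f_pos _ (d.b_lt (le_of_lt hy))).ne' (d.conf y (le_of_lt hy)) i j

lemma mom_val {x : E n} (hx : d.a < ‖x‖) (j : Fin n) :
    d.f ‖x‖ ^ 2 * mom d.g d.K j x = ∑ i, pd i (piE d.K i j) x
      + ((n : ℝ) - 2) * ∑ i, d.l ‖x‖ * Nc i x * piE d.K i j x
      - d.l ‖x‖ * Nc j x * ∑ i, piE d.K i i x :=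
  mom_of (L := fun i => d.l ‖x‖ * Nc i x) (d.f_pos _ (d.b_lt hx.le)).ne' (d.conf x hx.le)
    (d.K_symm x (d.b_lt hx.le)) (fun k i j => d.chr_val hx.le k i j)
    (fun i j => d.momT_near hx i j) j

/-- the weighted momentum tensor -/
def Sig (i j : Fin n) (x : E n) : ℝ := d.f ‖x‖ ^ (n - 2) * piE d.K i j x

lemma f_comp_smooth : ContDiffOn ℝ ∞ (fun x : E n => d.f ‖x‖) {x | d.b < ‖x‖} := by
  intro x hx
  have hx0 := d.ne_zero hx
  have h1 : ContDiffAt ℝ ∞ d.f ‖x‖ := d.f_smooth.contDiffAt (isOpen_Ioi.mem_nhds hx)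
  exact (h1.comp x (contDiffAt_norm ℝ hx0)).contDiffWithinAt

lemma Sig_smooth (i j : Fin n) : ContDiffOn ℝ ∞ (d.Sig i j) {x | d.b < ‖x‖} :=
  (d.f_comp_smooth.pow (n - 2)).mul (d.piE_smooth i j)

lemma diffAt_of_smooth {u : E n → ℝ} (hu : ContDiffOn ℝ ∞ u {x | d.b < ‖x‖}) {x : E n}
    (hx : d.b < ‖x‖) : DifferentiableAt ℝ u x :=
  (hu.differentiableOn (by norm_num)).differentiableAt ((isOpen_outside d.b).mem_nhds hx)

lemma pd_fpow {x : E n} (hx : d.b < ‖x‖) (m : ℕ) (i : Fin n) :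
    pd i (fun y => d.f ‖y‖ ^ m) x = (m : ℝ) * d.f ‖x‖ ^ m * d.l ‖x‖ * Nc i x := by
  have hx0 := d.ne_zero hx
  have hfd := d.f_diff hx
  have h1 : pd i (fun y => (fun R => d.f R ^ m) ‖y‖) x =
      deriv (fun R => d.f R ^ m) ‖x‖ * Nc i x := pd_radial hx0 (hfd.pow m) i
  have h2 : deriv (fun R => d.f R ^ m) ‖x‖ = (m : ℝ) * d.f ‖x‖ ^ m * d.l ‖x‖ := by
    have h3 : HasDerivAt (fun R => d.f R ^ m) ((m : ℝ) * d.f ‖x‖ ^ (m - 1) * deriv d.f ‖x‖) ‖x‖ :=
      hfd.hasDerivAt.pow m
    rw [h3.deriv, d.deriv_f hx]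
    rcases m with _ | m
    · simp
    · simp only [Nat.add_sub_cancel]; ring
  rw [h2] at h1
  exact h1

/-- Divergence of the weighted momentum tensor. -/
lemma div_Sig (hn : 2 ≤ n) {x : E n} (hx : d.a < ‖x‖) (j : Fin n) :
    ∑ i, pd i (d.Sig i j) x = d.f ‖x‖ ^ (n - 2) *
      (d.f ‖x‖ ^ 2 * mom d.g d.K j x + d.l ‖x‖ * Nc j x * ∑ i, piE d.K i i x) := by
  have hxb : d.b < ‖x‖ := d.b_lt hx.le
  have h1 : ∀ i, pd i (d.Sig i j) x = d.f ‖x‖ ^ (n - 2) * pd i (piE d.K i j) x +
      (((n - 2 : ℕ) : ℝ) * d.f ‖x‖ ^ (n - 2) * d.l ‖x‖ * Nc i x) * piE d.K i j x := by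
    intro i
    unfold Sig
    rw [pd_mul (d.diffAt_of_smooth (d.f_comp_smooth.pow (n - 2)) hxb)
      (d.diffAt_of_smooth (d.piE_smooth i j) hxb), d.pd_fpow hxb]
  rw [d.mom_val hx]
  simp only [h1]
  rw [Finset.sum_add_distrib, ← Finset.mul_sum]
  have h2 : ((n - 2 : ℕ) : ℝ) = (n : ℝ) - 2 := by
    rw [Nat.cast_sub hn]; norm_num
  rw [h2]
  have h3 : ∑ i, ((n : ℝ) - 2) * d.f ‖x‖ ^ (n - 2) * d.l ‖x‖ * Nc i x * piE d.K i j x =
      ((n : ℝ) - 2) * d.f ‖x‖ ^ (n - 2) * ∑ i, d.l ‖x‖ * Nc i x * piE d.K i j x := by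
    rw [Finset.mul_sum]; exact Finset.sum_congr rfl fun i _ => by ring
  rw [h3]
  ring

lemma sum_piE_diag {x : E n} : ∑ i, piE d.K i i x = -(((n : ℝ) - 1) * d.t x) := by
  unfold piE t
  simp only [if_true, mul_one, Finset.sum_sub_distrib, Finset.sum_const, Finset.card_univ,
    Fintype.card_fin, nsmul_eq_mul]
  ring

lemma sum_piE_N {x : E n} (i : Fin n) :
    ∑ j, piE d.K i j x * Nc j x = d.Xc i x - d.kE x * Nc i x := by
  unfold piE Xc kE t
  simp only [sub_mul, Finset.sum_sub_distrib, mul_assoc, ite_mul, one_mul, zero_mul]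
  simp only [mul_ite, mul_zero, Finset.sum_ite_eq, Finset.mem_univ, if_true]
  ring

end RotData

end Vale.Agent.P366
end
end
end
end

section

section

section

open MeasureTheory Metric Filter Topology Set
open scoped ContDiff ENNReal

noncomputable section
namespace Vale.Agent.P366

variable {n : ℕ}

section SphereIntegrals

variable {b R : ℝ}

lemma sphI_add (hb : 0 ≤ b) (hR : b < R) {u v : E n → ℝ}
    (hu : ContinuousOn u {x | b < ‖x‖}) (hv : ContinuousOn v {x | b < ‖x‖}) :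
    sphI (fun x => u x + v x) R = sphI u R + sphI v R :=
  integral_add (integrable_sph hb hR hu) (integrable_sph hb hR hv)

lemma sphI_sub (hb : 0 ≤ b) (hR : b < R) {u v : E n → ℝ}
    (hu : ContinuousOn u {x | b < ‖x‖}) (hv : ContinuousOn v {x | b < ‖x‖}) :
    sphI (fun x => u x - v x) R = sphI u R - sphI v R :=
  integral_sub (integrable_sph hb hR hu) (integrable_sph hb hR hv)

lemma sphI_congr (hR : 0 ≤ R) {u v : E n → ℝ} (h : ∀ x, ‖x‖ = R → u x = v x) :
    sphI u R = sphI v R := by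
  unfold sphI
  refine integral_congr_ae (Eventually.of_forall fun θ => ?_)
  exact h _ (norm_smul_sph hR θ)

lemma sphI_const_mul (c : ℝ) (u : E n → ℝ) : sphI (fun x => c * u x) R = c * sphI u R := by
  unfold sphI; rw [integral_const_mul]

/-- radial factors can be pulled out -/
lemma sphI_radial_mul (hR : 0 ≤ R) {w u v : E n → ℝ} {c : ℝ} (h : ∀ x, ‖x‖ = R → w x = c * u x) :
    sphI w R = c * sphI u R := by
  rw [← sphI_const_mul]; exact sphI_congr hR h

lemma sphI_const (c : ℝ) : sphI (fun _ : E n => c) R = c * omega n := by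
  unfold sphI omega
  rw [integral_const, measureReal_def, smul_eq_mul, mul_comm]

lemma Nc_smul (hR : 0 < R) (θ : sphere (0 : E n) 1) (i : Fin n) :
    Nc i (R • (θ : E n)) = (θ : E n) i := by
  unfold Nc
  rw [norm_smul_sph hR.le]
  simp only [PiLp.smul_apply, smul_eq_mul]
  field_simp

end SphereIntegrals

lemma omega_pos' [Nontrivial (E n)] : 0 < omega n := by
  unfold omega
  have h1 : (volume : Measure (E n)).toSphere univ ≠ 0 := by
    intro h
    exact Measure.toSphere_ne_zero (volume : Measure (E n)) (Measure.measure_univ_eq_zero.mp h)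
  exact ENNReal.toReal_pos h1 (measure_ne_top _ _)

/-- The first moments of the sphere vanish. -/
lemma sphI_Nc [Nontrivial (E n)] (hn : 2 ≤ n) (i : Fin n) {R : ℝ} (hR : 0 < R) :
    sphI (Nc i) R = 0 := by
  -- flux of the constant field `e_i`
  set W : Fin n → E n → ℝ := fun j _ => if j = i then 1 else 0 with hW
  have hWs : ∀ j, ContDiffOn ℝ 1 (W j) {x : E n | (0 : ℝ) < ‖x‖} := fun j => contDiffOn_const
  have hflux : ∀ r, flux W r = r ^ (n - 1) * sphI (Nc i) r := by
    intro r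
    unfold flux
    congr 2
    funext x
    simp only [hW, ite_mul, one_mul, zero_mul, Finset.sum_ite_eq', Finset.mem_univ, ↓reduceIte, Nc]
  have hsph : ∀ r, 0 < r → sphI (Nc i) r = sphI (Nc i) R := by
    intro r hr
    unfold sphI
    refine integral_congr_ae (Eventually.of_forall fun θ => ?_)
    simp only [Nc_smul hr, Nc_smul hR]
  have hdvg : dvg W = fun _ => 0 := by
    funext x
    unfold dvg
    simp only [hW, pd_const, Finset.sum_const_zero]
  have h1 := flux_hasDerivAt (le_refl (0 : ℝ)) hWs hR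
  have h2 : HasDerivAt (flux W) (((n - 1 : ℕ) : ℝ) * R ^ (n - 1 - 1) * sphI (Nc i) R) R := by
    have h3 : HasDerivAt (fun r : ℝ => r ^ (n - 1) * sphI (Nc i) R)
      (((n - 1 : ℕ) : ℝ) * R ^ (n - 1 - 1) * sphI (Nc i) R) R :=
      (hasDerivAt_pow (n - 1) R).mul_const _
    refine h3.congr_of_eventuallyEq ?_
    filter_upwards [isOpen_Ioi.mem_nhds hR] with r hr
    rw [hflux, hsph r hr]
  have h4 := h1.unique h2
  rw [hdvg] at h4
  simp only [sphI, integral_zero, mul_zero] at h4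
  have h5 : ((n - 1 : ℕ) : ℝ) * R ^ (n - 1 - 1) ≠ 0 := by
    apply mul_ne_zero
    · have : n - 1 ≠ 0 := by omega
      exact_mod_cast this
    · positivity
  rcases mul_eq_zero.mp h4.symm with h6 | h6
  · exact absurd h6 h5
  · exact h6

/-- The second moments of the sphere. -/
lemma sphI_Nc_Nc [Nontrivial (E n)] (hn : 2 ≤ n) (i j : Fin n) {R : ℝ} (hR : 0 < R) :
    sphI (fun x => Nc i x * Nc j x) R = (if i = j then 1 else 0) * omega n / n := by
  -- flux of the field `x_j e_i`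
  set W : Fin n → E n → ℝ := fun k x => if k = i then x j else 0 with hW
  have hcoord : ∀ j : Fin n, ContDiff ℝ 1 (fun x : E n => x j) := fun j =>
    (EuclideanSpace.proj (𝕜 := ℝ) j).contDiff
  have hWs : ∀ k, ContDiffOn ℝ 1 (W k) {x : E n | (0 : ℝ) < ‖x‖} := by
    intro k
    by_cases hk : k = i
    · simp only [hW, hk, if_true]; exact (hcoord j).contDiffOn
    · simp only [hW, hk, if_false]; exact contDiffOn_const
  have hsph : ∀ r, 0 < r → sphI (fun x => Nc i x * Nc j x) r = sphI (fun x => Nc i x * Nc j x) R := by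
    intro r hr
    unfold sphI
    refine integral_congr_ae (Eventually.of_forall fun θ => ?_)
    simp only [Nc_smul hr, Nc_smul hR]
  have hflux : ∀ r, 0 < r → flux W r = r ^ n * sphI (fun x => Nc i x * Nc j x) R := by
    intro r hr
    unfold flux
    have h1 : sphI (fun x : E n => ∑ k, W k x * (x k / ‖x‖)) r =
        r * sphI (fun x => Nc i x * Nc j x) r := by
      refine sphI_radial_mul (v := fun _ => 0) hr.le ?_
      intro x hx
      simp only [hW, ite_mul, zero_mul, Finset.sum_ite_eq', Finset.mem_univ, if_true, Nc]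
      rw [hx]; (clear * - hr; field_simp)
    rw [h1, hsph r hr, ← mul_assoc, ← pow_succ]
    congr 2; omega
  have hdvg : dvg W = fun _ => if i = j then 1 else 0 := by
    funext x
    unfold dvg
    have : ∀ k, pd k (W k) x = if k = i then (if i = j then 1 else 0) else 0 := by
      intro k
      by_cases hk : k = i
      · subst hk
        simp only [hW, if_true]
        exact pd_coord k j x
      · simp only [hW, hk, if_false]; exact pd_const _ _ _
    simp only [this, Finset.sum_ite_eq', Finset.mem_univ, if_true]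
  have h1 := flux_hasDerivAt (le_refl (0 : ℝ)) hWs hR
  have h2 : HasDerivAt (flux W) ((n : ℝ) * R ^ (n - 1) * sphI (fun x => Nc i x * Nc j x) R) R := by
    have h3 : HasDerivAt (fun r : ℝ => r ^ n * sphI (fun x : E n => Nc i x * Nc j x) R)
      ((n : ℝ) * R ^ (n - 1) * sphI (fun x => Nc i x * Nc j x) R) R :=
      (hasDerivAt_pow n R).mul_const _
    refine h3.congr_of_eventuallyEq ?_
    filter_upwards [isOpen_Ioi.mem_nhds hR] with r hr
    exact hflux r hr
  have h4 := h1.unique h2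
  rw [hdvg, sphI_const] at h4
  have hn0 : (n : ℝ) ≠ 0 := by positivity
  have hRn : R ^ (n - 1) ≠ 0 := by positivity
  field_simp
  have h5 : R ^ (n - 1) * ((n : ℝ) * sphI (fun x => Nc i x * Nc j x) R) =
      R ^ (n - 1) * ((if i = j then 1 else 0) * omega n) := by linarith only [h4]
  have h6 := mul_left_cancel₀ hRn h5
  linarith only [h6]

end Vale.Agent.P366
end
end
end
end

section

section

section

open MeasureTheory Metric Filter Topology Set
open scoped ContDiff ENNReal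

noncomputable section
namespace Vale.Agent.P366

variable {n : ℕ}

namespace RotData

variable (d : RotData n)

/-- The momentum density, as a continuous function on `b < ‖x‖`. -/
def Jx (j : Fin n) (x : E n) : ℝ :=
  (d.f ‖x‖ ^ 2)⁻¹ * (∑ i, pd i (piE d.K i j) x
      + ((n : ℝ) - 2) * ∑ i, d.l ‖x‖ * Nc i x * piE d.K i j x
      - d.l ‖x‖ * Nc j x * ∑ i, piE d.K i i x)

lemma mom_eq_Jx {x : E n} (hx : d.a < ‖x‖) (j : Fin n) : mom d.g d.K j x = d.Jx j x := by
  unfold Jx
  rw [← d.mom_val hx, ← mul_assoc, inv_mul_cancel₀, one_mul]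
  exact pow_ne_zero 2 (d.f_pos _ (d.b_lt hx.le)).ne'

lemma cont_f : ContinuousOn (fun x : E n => d.f ‖x‖) {x | d.b < ‖x‖} :=
  d.f_comp_smooth.continuousOn

lemma cont_l : ContinuousOn (fun x : E n => d.l ‖x‖) {x | d.b < ‖x‖} :=
  d.contOn_radial d.l_smooth.continuousOn

lemma cont_piE (i j : Fin n) : ContinuousOn (piE d.K i j) {x | d.b < ‖x‖} :=
  (d.piE_smooth i j).continuousOn

lemma Jx_cont (j : Fin n) : ContinuousOn (d.Jx j) {x | d.b < ‖x‖} := by
  unfold Jx
  refine ContinuousOn.mul ?_ (ContinuousOn.sub (ContinuousOn.add ?_ ?_) ?_)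
  · exact (d.cont_f.pow 2).inv₀ (fun x hx => pow_ne_zero 2 (d.f_pos _ hx).ne')
  · exact continuousOn_finsetSum _ fun i _ =>
      d.contOn_pd ((d.piE_smooth i j).of_le (by norm_num)) i
  · exact continuousOn_const.mul (continuousOn_finsetSum _ fun i _ =>
      (d.cont_l.mul (d.contOn_Nc i)).mul (d.cont_piE i j))
  · exact (d.cont_l.mul (d.contOn_Nc j)).mul (continuousOn_finsetSum _ fun i _ => d.cont_piE i i)

lemma KNN_cont : ContinuousOn d.KNN {x | d.b < ‖x‖} := by
  unfold KNN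
  exact continuousOn_finsetSum _ fun i _ => continuousOn_finsetSum _ fun j _ =>
    ((d.K_smooth i j).continuousOn.mul (d.contOn_Nc i)).mul (d.contOn_Nc j)

lemma t_cont : ContinuousOn d.t {x | d.b < ‖x‖} :=
  continuousOn_finsetSum _ fun i _ => (d.K_smooth i i).continuousOn

lemma kE_cont : ContinuousOn d.kE {x | d.b < ‖x‖} := d.t_cont.sub d.KNN_cont

lemma Xc_cont (i : Fin n) : ContinuousOn (d.Xc i) {x | d.b < ‖x‖} := by
  unfold Xc
  exact (continuousOn_finsetSum _ fun j _ =>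
    (d.K_smooth i j).continuousOn.mul (d.contOn_Nc j)).sub (d.KNN_cont.mul (d.contOn_Nc i))

lemma Nc_smooth (i : Fin n) : ContDiffOn ℝ ∞ (Nc i) {x : E n | d.b < ‖x‖} :=
  fun _ hx => (contDiffAt_Nc i (d.ne_zero hx)).contDiffWithinAt

/-- The divergence of the momentum tensor contracted with a vector field. -/
lemma dvg_Sig (hn : 2 ≤ n) {x : E n} (hx : d.a < ‖x‖) {X : Fin n → E n → ℝ}
    (hX : ∀ j, DifferentiableAt ℝ (X j) x) :
    dvg (fun i y => ∑ j, d.Sig i j y * X j y) x =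
      d.f ‖x‖ ^ (n - 2) * (∑ j, X j x * (d.f ‖x‖ ^ 2 * d.Jx j x
        - ((n : ℝ) - 1) * d.t x * (d.l ‖x‖ * Nc j x))
        + ∑ i, ∑ j, piE d.K i j x * pd i (X j) x) := by
  have hxb : d.b < ‖x‖ := d.b_lt hx.le
  have hS : ∀ i j, DifferentiableAt ℝ (d.Sig i j) x := fun i j =>
    d.diffAt_of_smooth (d.Sig_smooth i j) hxb
  unfold dvg
  have h1 : ∀ i, pd i (fun y => ∑ j, d.Sig i j y * X j y) x =
      ∑ j, (d.Sig i j x * pd i (X j) x + pd i (d.Sig i j) x * X j x) := by
    intro i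
    rw [pd_sum]
    · exact Finset.sum_congr rfl fun j _ => pd_mul (hS i j) (hX j) i
    · exact fun j _ => (hS i j).mul (hX j)
  simp only [h1, Finset.sum_add_distrib]
  rw [add_comm, mul_add]
  congr 1
  · rw [Finset.sum_comm, Finset.mul_sum]
    refine Finset.sum_congr rfl fun j _ => ?_
    rw [← Finset.sum_mul, d.div_Sig hn hx, d.sum_piE_diag, d.mom_eq_Jx hx]
    ring
  · rw [Finset.mul_sum]
    refine Finset.sum_congr rfl fun i _ => ?_
    rw [Finset.mul_sum]
    refine Finset.sum_congr rfl fun j _ => ?_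
    unfold Sig
    ring

/-- Normal component of the contracted momentum tensor. -/
lemma nrm_Sig {x : E n} (hx : d.b < ‖x‖) (X : Fin n → E n → ℝ) :
    ∑ i, (∑ j, d.Sig i j x * X j x) * (x i / ‖x‖) =
      d.f ‖x‖ ^ (n - 2) * ∑ j, (d.Xc j x - d.kE x * Nc j x) * X j x := by
  have h1 : ∀ j, ∑ i, piE d.K i j x * Nc i x = d.Xc j x - d.kE x * Nc j x := by
    intro j
    rw [← d.sum_piE_N j]
    exact Finset.sum_congr rfl fun i _ => by rw [piE_symm (d.K_symm x hx)]
  have h2 : ∀ i, (∑ j, d.Sig i j x * X j x) * (x i / ‖x‖) =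
      ∑ j, d.f ‖x‖ ^ (n - 2) * (piE d.K i j x * Nc i x) * X j x := by
    intro i
    rw [Finset.sum_mul]
    refine Finset.sum_congr rfl fun j _ => ?_
    unfold Sig Nc
    ring
  simp only [h2]
  rw [Finset.sum_comm, Finset.mul_sum]
  refine Finset.sum_congr rfl fun j _ => ?_
  rw [← h1 j, ← Finset.sum_mul, ← Finset.mul_sum]
  ring

end RotData

end Vale.Agent.P366
end
end
end
end

section

section

section

open MeasureTheory Metric Filter Topology Set
open scoped ContDiff ENNReal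

noncomputable section
namespace Vale.Agent.P366

variable {n : ℕ}

/-- Normalized sphere average. -/
def av (h : E n → ℝ) (R : ℝ) : ℝ := sphI h R / omega n

namespace RotData

variable (d : RotData n)

/-- average of the mixed component -/
def xm (m : Fin n) (R : ℝ) : ℝ := av (d.Xc m) R

/-- the radial derivative of `xm`, as given by the momentum constraint -/
def xm' (m : Fin n) (R : ℝ) : ℝ :=
  d.f R ^ 2 * av (d.Jx m) R - ((n : ℝ) - 1) * d.l R * av (fun x => d.KNN x * Nc m x) R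
    - (((n : ℝ) - 1) / R * d.xm m R + ((n : ℝ) - 2) * d.l R * d.xm m R)

variable {kap : ℝ → ℝ} (hk : ∀ x : E n, d.a ≤ ‖x‖ → d.kE x = kap ‖x‖)

include hk in
lemma sphI_t_Nc [Nontrivial (E n)] (hn : 2 ≤ n) (m : Fin n) {R : ℝ} (hR : d.a < R) :
    sphI (fun x => d.t x * Nc m x) R = sphI (fun x => d.KNN x * Nc m x) R := by
  have hR0 : 0 < R := d.a_pos.trans hR
  have hRb : d.b < R := d.hba.trans hR
  have h1 : sphI (fun x => d.t x * Nc m x) R =
      sphI (fun x => d.KNN x * Nc m x + kap R * Nc m x) R := by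
    refine sphI_congr hR0.le fun x hx => ?_
    have : d.t x = d.KNN x + kap R := by
      have := hk x (by rw [hx]; exact hR.le)
      rw [hx] at this
      rw [← this]; unfold kE; ring
    rw [this]; ring
  rw [h1, sphI_add (u := fun x => d.KNN x * Nc m x) (v := fun x => kap R * Nc m x) d.hb hRb
    (d.KNN_cont.mul (d.contOn_Nc m)) (continuousOn_const.mul (d.contOn_Nc m)), sphI_const_mul,
    sphI_Nc hn m hR0]
  ring

include hk in
lemma xm_hasDerivAt [Nontrivial (E n)] (hn : 2 ≤ n) (m : Fin n) {R : ℝ} (hR : d.a < R) :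
    HasDerivAt (d.xm m) (d.xm' m R) R := by
  have hR0 : 0 < R := d.a_pos.trans hR
  have hRb : d.b < R := d.hba.trans hR
  have hω : omega n ≠ 0 := omega_pos'.ne'
  set X : Fin n → E n → ℝ := fun j _ => if j = m then 1 else 0 with hX
  set W : Fin n → E n → ℝ := fun i y => ∑ j, d.Sig i j y * X j y with hW
  have hWs : ∀ i, ContDiffOn ℝ 1 (W i) {x | d.b < ‖x‖} := fun i =>
    ContDiffOn.sum fun j _ => ((d.Sig_smooth i j).of_le (by norm_num)).mul contDiffOn_const
  have hflux : ∀ r, d.a < r → flux W r = r ^ (n - 1) * d.f r ^ (n - 2) * omega n * d.xm m r := by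
    intro r hr
    have hr0 : 0 < r := d.a_pos.trans hr
    have hrb : d.b < r := d.hba.trans hr
    have h1 : sphI (fun x => ∑ i, W i x * (x i / ‖x‖)) r =
        d.f r ^ (n - 2) * sphI (fun x => d.Xc m x - kap r * Nc m x) r := by
      refine sphI_radial_mul (v := fun _ => 0) hr0.le fun x hx => ?_
      rw [d.nrm_Sig (by rw [hx]; exact hrb), hx]
      simp only [hX, mul_ite, mul_one, mul_zero, Finset.sum_ite_eq', Finset.mem_univ, if_true]
      rw [hk x (by rw [hx]; exact hr.le), hx]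
    unfold flux
    rw [h1, sphI_sub (u := d.Xc m) (v := fun x => kap r * Nc m x) d.hb hrb (d.Xc_cont m)
      (continuousOn_const.mul (d.contOn_Nc m)), sphI_const_mul, sphI_Nc hn m hr0]
    unfold xm av
    field_simp
    ring
  have hder := flux_hasDerivAt d.hb hWs hRb
  have hdvg : sphI (dvg W) R = d.f R ^ (n - 2) * (d.f R ^ 2 * sphI (d.Jx m) R
      - ((n : ℝ) - 1) * d.l R * sphI (fun x => d.KNN x * Nc m x) R) := by
    have h1 : sphI (dvg W) R = d.f R ^ (n - 2) * sphI (fun x => d.f R ^ 2 * d.Jx m x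
        - ((n : ℝ) - 1) * d.l R * (d.t x * Nc m x)) R := by
      refine sphI_radial_mul (v := fun _ => 0) hR0.le fun x hx => ?_
      have hxa : d.a < ‖x‖ := by rw [hx]; exact hR
      rw [d.dvg_Sig hn hxa (fun j => differentiableAt_const _)]
      simp only [hX, pd_const, mul_zero, Finset.sum_const_zero, add_zero, ite_mul, one_mul,
        zero_mul, Finset.sum_ite_eq', Finset.mem_univ, if_true]
      rw [hx]; ring
    rw [h1, sphI_sub (u := fun x => d.f R ^ 2 * d.Jx m x)
      (v := fun x => ((n : ℝ) - 1) * d.l R * (d.t x * Nc m x)) d.hb hRb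
      (continuousOn_const.mul (d.Jx_cont m))
      (continuousOn_const.mul (d.t_cont.mul (d.contOn_Nc m))), sphI_const_mul, sphI_const_mul,
      d.sphI_t_Nc hk hn m hR]
  rw [hdvg] at hder
  -- `xm = flux / (r^(n-1) f^(n-2) ω)`
  have hfR := d.f_pos R hRb
  have hA : HasDerivAt (fun r => r ^ (n - 1) * d.f r ^ (n - 2) * omega n)
      (((((n : ℝ) - 1) / R + ((n : ℝ) - 2) * d.l R)) * (R ^ (n - 1) * d.f R ^ (n - 2) * omega n))
      R := by
    have h1 : HasDerivAt (fun r : ℝ => r ^ (n - 1)) (((n - 1 : ℕ) : ℝ) * R ^ (n - 1 - 1)) R :=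
      hasDerivAt_pow _ _
    have h2 : HasDerivAt (fun r => d.f r ^ (n - 2))
        (((n - 2 : ℕ) : ℝ) * d.f R ^ (n - 2 - 1) * deriv d.f R) R :=
      (d.f_diff hRb).hasDerivAt.pow _
    have h3 := (h1.mul h2).mul_const (omega n)
    refine h3.congr_deriv ?_
    have e1 : ((n - 1 : ℕ) : ℝ) * R ^ (n - 1 - 1) = ((n : ℝ) - 1) / R * R ^ (n - 1) := by
      have : ((n - 1 : ℕ) : ℝ) = (n : ℝ) - 1 := by rw [Nat.cast_sub (by omega)]; norm_num
      rw [this]
      have h4 : R ^ (n - 1) = R ^ (n - 1 - 1) * R := by rw [← pow_succ]; congr 1; omega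
      rw [h4]; (clear * - hR0; field_simp)
    have e2 : ((n - 2 : ℕ) : ℝ) * d.f R ^ (n - 2 - 1) * deriv d.f R =
        ((n : ℝ) - 2) * d.l R * d.f R ^ (n - 2) := by
      rw [d.deriv_f hRb]
      have : ((n - 2 : ℕ) : ℝ) = (n : ℝ) - 2 := by rw [Nat.cast_sub hn]; norm_num
      rw [this]
      rcases Nat.lt_or_ge 2 n with h | h
      · have h4 : d.f R ^ (n - 2) = d.f R ^ (n - 2 - 1) * d.f R := by
          rw [← pow_succ]; congr 1; omega
        rw [h4]; ring
      · have : n = 2 := le_antisymm h hn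
        subst this
        norm_num
    rw [e1, e2]
    ring
  have hne : R ^ (n - 1) * d.f R ^ (n - 2) * omega n ≠ 0 := by (clear * - hR0 hfR hω; positivity)
  have hq := hder.div hA hne
  refine (hq.congr_deriv ?_).congr_of_eventuallyEq ?_
  · rw [hflux R hR]
    unfold xm' av
    have hf2 : d.f R ^ (n - 2) ≠ 0 := by positivity
    have hR2 : R ^ (n - 1) ≠ 0 := by positivity
    field_simp
  · filter_upwards [isOpen_Ioi.mem_nhds hR] with r hr
    have hr0 : 0 < r := d.a_pos.trans hr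
    have hfr := d.f_pos r (d.hba.trans hr)
    simp only [Pi.div_apply]
    rw [hflux r hr]
    (clear * - hr0 hfr hω; field_simp)

/-- The radial momentum density. -/
def JN (x : E n) : ℝ := ∑ j, Nc j x * d.Jx j x

lemma JN_cont : ContinuousOn d.JN {x | d.b < ‖x‖} :=
  continuousOn_finsetSum _ fun j _ => (d.contOn_Nc j).mul (d.Jx_cont j)

lemma coord_eq {x : E n} (hx : x ≠ 0) (j : Fin n) : x j = ‖x‖ * Nc j x := by
  unfold Nc; field_simp [norm_ne_zero_iff.mpr hx]

lemma contDiff_coord {m : WithTop ℕ∞} (j : Fin n) : ContDiff ℝ m (fun x : E n => x j) :=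
  (EuclideanSpace.proj (𝕜 := ℝ) j).contDiff

include hk in
/-- The first moment of the radial momentum constraint. -/
lemma momC [Nontrivial (E n)] (hn : 2 ≤ n) (m : Fin n) {R : ℝ} (hR : d.a < R) :
    (d.f R) ^ 2 * av (fun x => d.JN x * Nc m x) R =
    ((n : ℝ) - 1) * (d.l R + 1 / R) * av (fun x => d.KNN x * Nc m x) R - d.xm m R / R := by
  have hR0 : 0 < R := d.a_pos.trans hR
  have hRb : d.b < R := d.hba.trans hR
  have hω : omega n ≠ 0 := omega_pos'.ne'
  set X : Fin n → E n → ℝ := fun j x => x m * x j with hX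
  set W : Fin n → E n → ℝ := fun i y => ∑ j, d.Sig i j y * X j y with hW
  have hXs : ∀ j, ContDiff ℝ ∞ (X j) := fun j => (contDiff_coord m).mul (contDiff_coord j)
  have hWs : ∀ i, ContDiffOn ℝ 1 (W i) {x | d.b < ‖x‖} := fun i =>
    ContDiffOn.sum fun j _ => ((d.Sig_smooth i j).of_le (by norm_num)).mul
      ((hXs j).of_le (by norm_num)).contDiffOn
  have hflux : ∀ r, d.a < r → flux W r = 0 := by
    intro r hr
    have hr0 : 0 < r := d.a_pos.trans hr
    have hrb : d.b < r := d.hba.trans hr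
    have h1 : sphI (fun x => ∑ i, W i x * (x i / ‖x‖)) r =
        (-(d.f r ^ (n - 2) * r ^ 2 * kap r)) * sphI (Nc m) r := by
      refine sphI_radial_mul (v := fun _ => 0) hr0.le fun x hx => ?_
      have hxb : d.b < ‖x‖ := by rw [hx]; exact hrb
      have hx0 := d.ne_zero hxb
      rw [d.nrm_Sig hxb]
      have h2 : ∑ j, (d.Xc j x - d.kE x * Nc j x) * X j x = - (‖x‖ ^ 2 * d.kE x) * Nc m x := by
        have h3 : ∀ j, (d.Xc j x - d.kE x * Nc j x) * X j x =
            ‖x‖ ^ 2 * Nc m x * (Nc j x * d.Xc j x) - ‖x‖ ^ 2 * Nc m x * d.kE x * Nc j x ^ 2 := by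
          intro j
          simp only [hX]
          rw [coord_eq hx0 m, coord_eq hx0 j]
          ring
        simp only [h3]
        rw [Finset.sum_sub_distrib, ← Finset.mul_sum, ← Finset.mul_sum, d.Xc_tan hxb,
          sum_Nc_sq hx0]
        ring
      rw [h2, hk x (by rw [hx]; exact hr.le), hx]
      ring
    unfold flux
    rw [h1, sphI_Nc hn m hr0]
    ring
  have hder := flux_hasDerivAt d.hb hWs hRb
  have hder0 : HasDerivAt (flux W) 0 R := by
    refine (hasDerivAt_const R (0 : ℝ)).congr_of_eventuallyEq ?_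
    filter_upwards [isOpen_Ioi.mem_nhds hR] with r hr
    exact hflux r hr
  have h0 := hder.unique hder0
  have hRp : R ^ (n - 1) ≠ 0 := by positivity
  have h00 : sphI (dvg W) R = 0 := by
    rcases mul_eq_zero.mp h0 with h | h
    · exact absurd h hRp
    · exact h
  have hfR := d.f_pos R hRb
  have hdvg : sphI (dvg W) R = (d.f R ^ (n - 2) * R) * sphI (fun x =>
      R * d.f R ^ 2 * (d.JN x * Nc m x) + (d.Xc m x -
        (((n : ℝ) - 1) * (R * d.l R + 1)) * (d.t x * Nc m x) - kap R * Nc m x)) R := by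
    refine sphI_radial_mul (v := fun _ => 0) hR0.le fun x hx => ?_
    have hxa : d.a < ‖x‖ := by rw [hx]; exact hR
    have hxb : d.b < ‖x‖ := by rw [hx]; exact hRb
    have hx0 := d.ne_zero hxb
    rw [d.dvg_Sig hn hxa (fun j => (hXs j).differentiable (by norm_num) x)]
    have h1 : ∑ j, X j x * (d.f ‖x‖ ^ 2 * d.Jx j x
        - ((n : ℝ) - 1) * d.t x * (d.l ‖x‖ * Nc j x)) =
        ‖x‖ ^ 2 * Nc m x * d.f ‖x‖ ^ 2 * d.JN x
        - ‖x‖ ^ 2 * Nc m x * (((n : ℝ) - 1) * d.t x * d.l ‖x‖) := by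
      have h3 : ∀ j, X j x * (d.f ‖x‖ ^ 2 * d.Jx j x
        - ((n : ℝ) - 1) * d.t x * (d.l ‖x‖ * Nc j x)) =
          (‖x‖ ^ 2 * Nc m x * d.f ‖x‖ ^ 2) * (Nc j x * d.Jx j x) -
          (‖x‖ ^ 2 * Nc m x * (((n : ℝ) - 1) * d.t x * d.l ‖x‖)) * Nc j x ^ 2 := by
        intro j
        simp only [hX]
        rw [coord_eq hx0 m, coord_eq hx0 j]
        ring
      simp only [h3]
      rw [Finset.sum_sub_distrib, ← Finset.mul_sum, ← Finset.mul_sum, sum_Nc_sq hx0]
      unfold JN
      ring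
    have h2 : ∑ i, ∑ j, piE d.K i j x * pd i (X j) x =
        ‖x‖ * (d.Xc m x - d.kE x * Nc m x) - ‖x‖ * Nc m x * (((n : ℝ) - 1) * d.t x) := by
      have h3 : ∀ i j, piE d.K i j x * pd i (X j) x =
          (if i = j then x m * piE d.K i j x else 0) +
          (if i = m then piE d.K i j x * x j else 0) := by
        intro i j
        simp only [hX]
        rw [pd_mul ((contDiff_coord (m := 1) m).differentiable (by norm_num) x)
          ((contDiff_coord (m := 1) j).differentiable (by norm_num) x), pd_coord, pd_coord]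
        split_ifs <;> ring
      simp only [h3, Finset.sum_add_distrib]
      rw [Finset.sum_comm (f := fun i j => if i = m then piE d.K i j x * x j else 0)]
      simp only [Finset.sum_ite_eq, Finset.mem_univ, if_true, Finset.sum_ite_eq']
      rw [← Finset.mul_sum, d.sum_piE_diag, coord_eq hx0 m]
      have h4 : ∑ j, piE d.K m j x * x j = ‖x‖ * ∑ j, piE d.K m j x * Nc j x := by
        rw [Finset.mul_sum]
        exact Finset.sum_congr rfl fun j _ => by rw [coord_eq hx0 j]; ring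
      rw [h4, d.sum_piE_N m]
      ring
    rw [h1, h2, hk x (by rw [hx]; exact hR.le), hx]
    ring
  rw [h00] at hdvg
  have h5 := mul_eq_zero.mp hdvg.symm
  have h6 : sphI (fun x =>
      R * d.f R ^ 2 * (d.JN x * Nc m x) + (d.Xc m x -
        (((n : ℝ) - 1) * (R * d.l R + 1)) * (d.t x * Nc m x) - kap R * Nc m x)) R = 0 := by
    rcases h5 with h | h
    · exact absurd h (by (clear * - hfR hR0; positivity))
    · exact h
  have c1 : ContinuousOn (fun x => d.JN x * Nc m x) {x | d.b < ‖x‖} :=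
    d.JN_cont.mul (d.contOn_Nc m)
  have c2 : ContinuousOn (fun x => d.t x * Nc m x) {x | d.b < ‖x‖} :=
    d.t_cont.mul (d.contOn_Nc m)
  rw [sphI_add (u := fun x => R * d.f R ^ 2 * (d.JN x * Nc m x))
    (v := fun x => d.Xc m x - (((n : ℝ) - 1) * (R * d.l R + 1)) * (d.t x * Nc m x) - kap R * Nc m x)
    d.hb hRb (continuousOn_const.mul c1)
    (((d.Xc_cont m).sub (continuousOn_const.mul c2)).sub (continuousOn_const.mul (d.contOn_Nc m))),
    sphI_sub (u := fun x => d.Xc m x - (((n : ℝ) - 1) * (R * d.l R + 1)) * (d.t x * Nc m x))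
      (v := fun x => kap R * Nc m x) d.hb hRb ((d.Xc_cont m).sub (continuousOn_const.mul c2))
      (continuousOn_const.mul (d.contOn_Nc m)),
    sphI_sub (u := d.Xc m) (v := fun x => (((n : ℝ) - 1) * (R * d.l R + 1)) * (d.t x * Nc m x))
      d.hb hRb (d.Xc_cont m) (continuousOn_const.mul c2),
    sphI_const_mul, sphI_const_mul, sphI_const_mul, sphI_Nc hn m hR0, d.sphI_t_Nc hk hn m hR] at h6
  unfold xm av
  field_simp
  linarith only [h6]

include hk in
/-- The averaged radial momentum constraint. -/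
lemma momB [Nontrivial (E n)] (hn : 2 ≤ n) {R : ℝ} (hR : d.a < R)
    (hkd : ∀ r, d.a < r → DifferentiableAt ℝ kap r) :
    (d.f R) ^ 2 * av d.JN R =
    ((n : ℝ) - 1) * (d.l R + 1 / R) * av d.KNN R - (1 / R - d.l R) * kap R - deriv kap R := by
  have hR0 : 0 < R := d.a_pos.trans hR
  have hRb : d.b < R := d.hba.trans hR
  have hω : omega n ≠ 0 := omega_pos'.ne'
  set X : Fin n → E n → ℝ := fun j x => x j with hX
  set W : Fin n → E n → ℝ := fun i y => ∑ j, d.Sig i j y * X j y with hW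
  have hXs : ∀ j, ContDiff ℝ ∞ (X j) := fun j => contDiff_coord j
  have hWs : ∀ i, ContDiffOn ℝ 1 (W i) {x | d.b < ‖x‖} := fun i =>
    ContDiffOn.sum fun j _ => ((d.Sig_smooth i j).of_le (by norm_num)).mul
      ((hXs j).of_le (by norm_num)).contDiffOn
  have hflux : ∀ r, d.a < r → flux W r = -(omega n * (r ^ n * d.f r ^ (n - 2) * kap r)) := by
    intro r hr
    have hr0 : 0 < r := d.a_pos.trans hr
    have hrb : d.b < r := d.hba.trans hr
    have h1 : sphI (fun x => ∑ i, W i x * (x i / ‖x‖)) r =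
        sphI (fun _ : E n => -(d.f r ^ (n - 2) * r * kap r)) r := by
      refine sphI_congr hr0.le fun x hx => ?_
      have hxb : d.b < ‖x‖ := by rw [hx]; exact hrb
      have hx0 := d.ne_zero hxb
      rw [d.nrm_Sig hxb]
      have h2 : ∑ j, (d.Xc j x - d.kE x * Nc j x) * X j x = - (‖x‖ * d.kE x) := by
        have h3 : ∀ j, (d.Xc j x - d.kE x * Nc j x) * X j x =
            ‖x‖ * (Nc j x * d.Xc j x) - ‖x‖ * d.kE x * Nc j x ^ 2 := by
          intro j
          simp only [hX]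
          rw [coord_eq hx0 j]
          ring
        simp only [h3]
        rw [Finset.sum_sub_distrib, ← Finset.mul_sum, ← Finset.mul_sum, d.Xc_tan hxb,
          sum_Nc_sq hx0]
        ring
      rw [h2, hk x (by rw [hx]; exact hr.le), hx]
      ring
    unfold flux
    rw [h1, sphI_const]
    have : r ^ n = r ^ (n - 1) * r := by rw [← pow_succ]; congr 1; omega
    rw [this]
    ring
  have hder := flux_hasDerivAt d.hb hWs hRb
  have hfR := d.f_pos R hRb
  have hdvg : sphI (dvg W) R = (d.f R ^ (n - 2)) * sphI (fun x =>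
      R * d.f R ^ 2 * d.JN x - (((n : ℝ) - 1) * (R * d.l R + 1)) * (d.KNN x + kap R)) R := by
    refine sphI_radial_mul (v := fun _ => 0) hR0.le fun x hx => ?_
    have hxa : d.a < ‖x‖ := by rw [hx]; exact hR
    have hxb : d.b < ‖x‖ := by rw [hx]; exact hRb
    have hx0 := d.ne_zero hxb
    rw [d.dvg_Sig hn hxa (fun j => (hXs j).differentiable (by norm_num) x)]
    have h1 : ∑ j, X j x * (d.f ‖x‖ ^ 2 * d.Jx j x
        - ((n : ℝ) - 1) * d.t x * (d.l ‖x‖ * Nc j x)) =
        ‖x‖ * d.f ‖x‖ ^ 2 * d.JN x - ‖x‖ * (((n : ℝ) - 1) * d.t x * d.l ‖x‖) := by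
      have h3 : ∀ j, X j x * (d.f ‖x‖ ^ 2 * d.Jx j x
        - ((n : ℝ) - 1) * d.t x * (d.l ‖x‖ * Nc j x)) =
          (‖x‖ * d.f ‖x‖ ^ 2) * (Nc j x * d.Jx j x) -
          (‖x‖ * (((n : ℝ) - 1) * d.t x * d.l ‖x‖)) * Nc j x ^ 2 := by
        intro j
        simp only [hX]
        rw [coord_eq hx0 j]
        ring
      simp only [h3]
      rw [Finset.sum_sub_distrib, ← Finset.mul_sum, ← Finset.mul_sum, sum_Nc_sq hx0]
      unfold JN
      ring
    have h2 : ∑ i, ∑ j, piE d.K i j x * pd i (X j) x = -(((n : ℝ) - 1) * d.t x) := by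
      have h3 : ∀ i j, piE d.K i j x * pd i (X j) x = (if i = j then piE d.K i j x else 0) := by
        intro i j
        simp only [hX]
        rw [pd_coord]
        split_ifs <;> ring
      simp only [h3, Finset.sum_ite_eq, Finset.mem_univ, if_true]
      exact d.sum_piE_diag
    have ht : d.t x = d.KNN x + kap R := by
      have := hk x (by rw [hx]; exact hR.le)
      rw [hx] at this
      rw [← this]; unfold kE; ring
    rw [h1, h2, ht, hx]
    ring
  have c3 : ContinuousOn (fun x : E n => d.KNN x + kap R) {x | d.b < ‖x‖} :=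
    d.KNN_cont.add continuousOn_const
  rw [sphI_sub (u := fun x => R * d.f R ^ 2 * d.JN x)
    (v := fun x => (((n : ℝ) - 1) * (R * d.l R + 1)) * (d.KNN x + kap R)) d.hb hRb
    (continuousOn_const.mul d.JN_cont) (continuousOn_const.mul c3), sphI_const_mul, sphI_const_mul,
    sphI_add (u := d.KNN) (v := fun _ => kap R) d.hb hRb d.KNN_cont continuousOn_const,
    sphI_const] at hdvg
  rw [hdvg] at hder
  -- derivative of the explicit flux
  have hA : HasDerivAt (fun r => -(omega n * (r ^ n * d.f r ^ (n - 2) * kap r)))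
      (-(omega n * (R ^ (n - 1) * d.f R ^ (n - 2) *
        (((n : ℝ) + ((n : ℝ) - 2) * (R * d.l R)) * kap R + R * deriv kap R)))) R := by
    have h1 : HasDerivAt (fun r : ℝ => r ^ n) ((n : ℝ) * R ^ (n - 1)) R := hasDerivAt_pow _ _
    have h2 : HasDerivAt (fun r => d.f r ^ (n - 2))
        (((n - 2 : ℕ) : ℝ) * d.f R ^ (n - 2 - 1) * deriv d.f R) R :=
      (d.f_diff hRb).hasDerivAt.pow _
    have h3 := (((h1.mul h2).mul (hkd R hR).hasDerivAt).const_mul (omega n)).neg
    refine h3.congr_deriv ?_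
    have e2 : ((n - 2 : ℕ) : ℝ) * d.f R ^ (n - 2 - 1) * deriv d.f R =
        ((n : ℝ) - 2) * d.l R * d.f R ^ (n - 2) := by
      rw [d.deriv_f hRb]
      have : ((n - 2 : ℕ) : ℝ) = (n : ℝ) - 2 := by rw [Nat.cast_sub hn]; norm_num
      rw [this]
      rcases Nat.lt_or_ge 2 n with h | h
      · have h4 : d.f R ^ (n - 2) = d.f R ^ (n - 2 - 1) * d.f R := by
          rw [← pow_succ]; congr 1; omega
        rw [h4]; ring
      · have : n = 2 := le_antisymm h hn
        subst this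
        norm_num
    have e3 : R ^ n = R ^ (n - 1) * R := by rw [← pow_succ]; congr 1; omega
    simp only [Pi.mul_apply]
    rw [e2, e3]
    ring
  have hder2 : HasDerivAt (flux W) (-(omega n * (R ^ (n - 1) * d.f R ^ (n - 2) *
        (((n : ℝ) + ((n : ℝ) - 2) * (R * d.l R)) * kap R + R * deriv kap R)))) R := by
    refine hA.congr_of_eventuallyEq ?_
    filter_upwards [isOpen_Ioi.mem_nhds hR] with r hr
    exact hflux r hr
  have h4 := hder.unique hder2
  have hRp : R ^ (n - 1) * d.f R ^ (n - 2) ≠ 0 := by (clear * - hR0 hfR; positivity)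
  have h5 : R ^ (n - 1) * d.f R ^ (n - 2) * (R * d.f R ^ 2 * sphI d.JN R -
      (((n : ℝ) - 1) * (R * d.l R + 1)) * (sphI d.KNN R + kap R * omega n)) =
      R ^ (n - 1) * d.f R ^ (n - 2) * (-(omega n * (((n : ℝ) + ((n : ℝ) - 2) * (R * d.l R)) * kap R
        + R * deriv kap R))) := by linarith only [h4]
  have h6 := mul_left_cancel₀ hRp h5
  unfold av
  field_simp
  linarith only [h6]

end RotData

end Vale.Agent.P366
end
end
end
end

section

section

section

open Set Function Filter Topology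

namespace Vale.Agent.P366

/-- Abstract normalized sphere average: a positive unital linear functional on `C(S,ℝ)`
with coordinate functions `N i`. -/
structure SphAvg (n : ℕ) (S : Type*) [TopologicalSpace S] where
  avg : C(S, ℝ) →ₗ[ℝ] ℝ
  avg_nonneg : ∀ g : C(S, ℝ), (∀ s, 0 ≤ g s) → 0 ≤ avg g
  avg_one : avg 1 = 1
  N : Fin n → C(S, ℝ)
  N_sq : ∀ s, ∑ i, N i s ^ 2 = 1
  avg_N : ∀ i, avg (N i) = 0
  avg_NN : ∀ i j, avg (N i * N j) = if i = j then (1 / (n : ℝ)) else 0
  anti : C(S, S)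
  avg_anti : ∀ g : C(S, ℝ), avg (g.comp anti) = avg g
  N_anti : ∀ i s, N i (anti s) = - N i s

/-- The data of a rotationally symmetric metric `f(|x|)^2 δ` and a symmetric tensor `K` with
constant sphere trace `kap`, reduced to spheres; `a` is the inner radius. -/
structure ReducedData (n : ℕ) (S : Type*) [TopologicalSpace S] (D : SphAvg n S) where
  a : ℝ
  f : ℝ → ℝ
  l : ℝ → ℝ
  l' : ℝ → ℝ
  kap : ℝ → ℝ
  kap' : ℝ → ℝ
  x : Fin n → ℝ → ℝ
  x' : Fin n → ℝ → ℝ
  mu : ℝ → C(S, ℝ)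
  KNN : ℝ → C(S, ℝ)
  Q : ℝ → C(S, ℝ)
  J : ℝ → Fin n → C(S, ℝ)
  X : ℝ → Fin n → C(S, ℝ)
  a_pos : 0 < a
  f_pos : ∀ R, a ≤ R → 0 < f R
  f_deriv : ∀ R, a < R → HasDerivAt f (l R * f R) R
  l_deriv : ∀ R, a < R → HasDerivAt l (l' R) R
  kap_deriv : ∀ R, a < R → HasDerivAt kap (kap' R) R
  x_deriv : ∀ i R, a < R → HasDerivAt (x i) (x' i R) R
  f_cont : ContinuousOn f (Ici a)
  l_cont : ContinuousOn l (Ici a)
  kap_cont : ContinuousOn kap (Ici a)
  x_cont : ∀ i, ContinuousOn (x i) (Ici a)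
  x_eq : ∀ i R, a < R → x i R = D.avg (X R i)
  X_tan : ∀ R, a < R → ∀ s, ∑ i, D.N i s * X R i s = 0
  Q_nonneg : ∀ R, a < R → ∀ s, 0 ≤ Q R s
  /-- Hamiltonian constraint -/
  ham : ∀ R, a < R → ∀ s, 2 * mu R s =
    -((n : ℝ) - 1) / (f R) ^ 2 * (2 * (l' R + -(1 / R ^ 2)) + 2 * (l R + 1 / R) / R
      + ((n : ℝ) - 2) * (l R + 1 / R) ^ 2 - ((n : ℝ) - 2) / R ^ 2)
    + 1 / (f R) ^ 4 * (2 * KNN R s * kap R + (((n : ℝ) - 2) / ((n : ℝ) - 1)) * (kap R) ^ 2
      - 2 * (∑ i, X R i s ^ 2) - Q R s)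
  /-- averaged radial momentum constraint -/
  momB : ∀ R, a < R → (f R) ^ 2 * D.avg (∑ i, D.N i * J R i) =
    ((n : ℝ) - 1) * (l R + 1 / R) * D.avg (KNN R) - (1 / R - l R) * kap R - kap' R
  /-- first moment of the radial momentum constraint -/
  momC : ∀ R, a < R → ∀ i, (f R) ^ 2 * D.avg ((∑ j, D.N j * J R j) * D.N i) =
    ((n : ℝ) - 1) * (l R + 1 / R) * D.avg (KNN R * D.N i) - x i R / R
  /-- averaged Cartesian momentum constraint -/
  momD : ∀ R, a < R → ∀ i, (f R) ^ 2 * D.avg (J R i) =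
    x' i R + ((n : ℝ) - 1) / R * x i R + ((n : ℝ) - 2) * l R * x i R
      + ((n : ℝ) - 1) * l R * D.avg (KNN R * D.N i)
  mu_nonneg : ∀ R, a < R → ∀ s, 0 ≤ mu R s
  /-- dominant energy condition `|J|_E ≤ f μ` -/
  dec : ∀ R, a < R → ∀ s, ∑ i, J R i s ^ 2 ≤ (f R * mu R s) ^ 2
  /-- at each radius: `f' ≤ 0`, or `kap = 0`, or `J = 0` -/
  alt : ∀ R, a < R → l R ≤ 0 ∨ kap R = 0 ∨ (∀ i s, J R i s = 0)
  /-- the inner sphere is weakly future trapped: `θ₊ ≤ 0` -/
  trapped : (l a + 1 / a) + kap a / (((n : ℝ) - 1) * f a) ≤ 0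
  lim_l : Tendsto (fun R => R * l R) atTop (𝓝 0)
  lim_kap : Tendsto (fun R => R * kap R) atTop (𝓝 0)
  lim_f : Tendsto f atTop (𝓝 1)

namespace ReducedData

variable {n : ℕ} {S : Type*} [TopologicalSpace S] {D : SphAvg n S} (d : ReducedData n S D)

noncomputable def h (R : ℝ) : ℝ := d.l R + 1 / R
noncomputable def c (R : ℝ) : ℝ := d.kap R / (((n : ℝ) - 1) * d.f R)
end ReducedData

end Vale.Agent.P366
end
end
end

section

section

section

open MeasureTheory Metric Filter Topology Set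
open scoped BigOperators ENNReal ContDiff Pointwise

noncomputable section
namespace Vale.Agent.P366

variable {n : ℕ}

/-- the unit sphere -/
abbrev Sph (n : ℕ) := sphere (0 : E n) 1

theorem integrable_cont (g : C(Sph n, ℝ)) : Integrable (fun θ => g θ) (sphM n) :=
  g.continuous.integrable_of_hasCompactSupport (HasCompactSupport.of_compactSpace _)

theorem omega_pos (hn : 0 < n) : 0 < omega n := by
  have : Nonempty (Fin n) := ⟨⟨0, hn⟩⟩
  have : Nontrivial (E n) := inferInstance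
  unfold omega
  rw [ENNReal.toReal_pos_iff]
  constructor
  · have h1 : (volume : Measure (E n)).toSphere ≠ 0 := Measure.toSphere_ne_zero _
    exact Measure.measure_univ_pos.mpr h1
  · exact measure_lt_top _ _

theorem sphM_map_neg : (sphM n).map (fun θ : Sph n => -θ) = sphM n := by
  ext s hs
  have hm : Measurable (fun θ : Sph n => -θ) := continuous_neg.measurable
  rw [Measure.map_apply hm hs]
  have e1 := (volume : Measure (E n)).toSphere_apply' (hs.preimage hm)
  have e2 := (volume : Measure (E n)).toSphere_apply' hs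
  change (volume : Measure (E n)).toSphere _ = (volume : Measure (E n)).toSphere _
  rw [e1, e2]
  congr 1
  have e3 : Ioo (0 : ℝ) 1 • ((↑) '' ((fun θ : Sph n => -θ) ⁻¹' s) : Set (E n)) =
      -(Ioo (0 : ℝ) 1 • ((↑) '' s : Set (E n))) := by
    ext x
    simp only [Set.mem_smul, Set.mem_neg, Set.mem_image, Set.mem_preimage]
    constructor
    · rintro ⟨t, ht, y, ⟨θ, hθ, rfl⟩, rfl⟩
      exact ⟨t, ht, _, ⟨-θ, hθ, rfl⟩, by simp only [coe_neg_sphere, smul_neg]⟩
    · rintro ⟨t, ht, y, ⟨θ, hθ, rfl⟩, hx⟩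
      refine ⟨t, ht, _, ⟨-θ, by simpa using hθ, rfl⟩, ?_⟩
      have : x = -(t • (θ : E n)) := by rw [hx]; simp
      rw [this]; simp only [coe_neg_sphere, smul_neg]
  rw [e3, Measure.measure_neg]

/-- the antipodal map -/
def antip (n : ℕ) : C(Sph n, Sph n) := ⟨fun θ => -θ, continuous_neg⟩

theorem integral_antip (g : C(Sph n, ℝ)) :
    ∫ θ, g (-θ) ∂(sphM n) = ∫ θ, g θ ∂(sphM n) := by
  have hm : Measurable (fun θ : Sph n => -θ) := continuous_neg.measurable
  conv_rhs => rw [← sphM_map_neg]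
  rw [integral_map hm.aemeasurable]
  rw [sphM_map_neg]
  exact g.continuous.aestronglyMeasurable

/-- coordinate functions on the sphere -/
def coordN (i : Fin n) : C(Sph n, ℝ) :=
  ⟨fun θ => (θ : E n) i, by fun_prop⟩

/-- normalized average as a linear functional -/
def avgL (n : ℕ) : C(Sph n, ℝ) →ₗ[ℝ] ℝ where
  toFun g := (omega n)⁻¹ * ∫ θ, g θ ∂(sphM n)
  map_add' g g' := by
    simp only [ContinuousMap.coe_add, Pi.add_apply]
    rw [integral_add (integrable_cont g) (integrable_cont g')]; ring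
  map_smul' r g := by
    simp only [ContinuousMap.coe_smul, Pi.smul_apply, smul_eq_mul, RingHom.id_apply]
    rw [integral_const_mul]; ring

theorem avgL_apply (g : C(Sph n, ℝ)) : avgL n g = (omega n)⁻¹ * ∫ θ, g θ ∂(sphM n) := rfl

theorem coordN_sq (θ : Sph n) : ∑ i, coordN i θ ^ 2 = 1 := by
  have h1 : ‖(θ : E n)‖ = 1 := norm_sph θ
  have h2 := EuclideanSpace.real_norm_sq_eq (θ : E n)
  rw [h1] at h2
  simp only [coordN, ContinuousMap.coe_mk]
  linarith only [h2]

theorem avgL_anti (g : C(Sph n, ℝ)) : avgL n (g.comp (antip n)) = avgL n g := by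
  rw [avgL_apply, avgL_apply, ← integral_antip g]
  rfl

theorem avgL_coordN (i : Fin n) : avgL n (coordN i) = 0 := by
  have h1 := avgL_anti (coordN i)
  have h2 : (coordN i).comp (antip n) = -(coordN i : C(Sph n, ℝ)) := by
    ext θ; simp only [coordN, antip, ContinuousMap.comp_apply, ContinuousMap.coe_mk, coe_neg_sphere, PiLp.neg_apply, ContinuousMap.neg_apply]
  rw [h2, map_neg] at h1
  linarith only [h1]

theorem integral_coord_mul (hn : 0 < n) (i j : Fin n) :
    ∫ θ : Sph n, (θ : E n) i * (θ : E n) j ∂(sphM n) = if i = j then omega n / n else 0 := by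
  have : Nonempty (Fin n) := ⟨⟨0, hn⟩⟩
  have : Nontrivial (E n) := inferInstance
  set c := ∫ θ : Sph n, (θ : E n) i * (θ : E n) j ∂(sphM n) with hc
  set W : Fin n → E n → ℝ := fun k x => if k = i then x j else 0 with hW
  have hWs : ∀ k, ContDiffOn ℝ 1 (W k) {x | (0 : ℝ) < ‖x‖} := by
    intro k
    by_cases hk : k = i
    · have : W k = fun x => x j := by funext x; simp [hW, hk]
      rw [this]
      exact ((EuclideanSpace.proj (𝕜 := ℝ) j).contDiff (n := 1)).contDiffOn
    · have : W k = fun _ => 0 := by funext x; simp [hW, hk]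
      rw [this]; exact contDiffOn_const
  have h1 := flux_hasDerivAt le_rfl hWs one_pos
  have hflux : ∀ r : ℝ, 0 < r → flux W r = r ^ n * c := by
    intro r hr
    unfold flux sphI
    have e1 : ∀ θ : Sph n, (∑ k, W k (r • (θ : E n)) * ((r • (θ : E n)) k / ‖r • (θ : E n)‖)) =
        r * ((θ : E n) i * (θ : E n) j) := by
      intro θ
      rw [norm_smul_sph hr.le]
      simp only [hW, ite_mul, zero_mul, Finset.sum_ite_eq', Finset.mem_univ, if_true,
        PiLp.smul_apply, smul_eq_mul]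
      (clear * - hr; field_simp)
    simp only [e1]
    rw [integral_const_mul, ← hc]
    have : r ^ n = r ^ (n - 1) * r := by
      conv_lhs => rw [show n = (n - 1) + 1 by omega, pow_succ]
    rw [this]; ring
  have h2 : HasDerivAt (fun r : ℝ => r ^ n * c) ((n : ℝ) * 1 ^ (n - 1) * c) 1 :=
    (hasDerivAt_pow n 1).mul_const c
  have h3 : HasDerivAt (flux W) ((n : ℝ) * 1 ^ (n - 1) * c) 1 := by
    refine h2.congr_of_eventuallyEq ?_
    filter_upwards [lt_mem_nhds (zero_lt_one' ℝ)] with r hr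
    exact hflux r hr
  have h4 := h1.unique h3
  have h5 : sphI (dvg W) 1 = if i = j then omega n else 0 := by
    unfold sphI
    have e2 : ∀ x : E n, dvg W x = if i = j then 1 else 0 := by
      intro x
      unfold dvg pd
      have : ∀ k, fderiv ℝ (W k) x (EuclideanSpace.single k 1) =
          if k = i then (if i = j then 1 else 0) else 0 := by
        intro k
        by_cases hk : k = i
        · have hWk : W k = fun x => x j := by funext x; simp [hW, hk]
          rw [hWk]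
          have : fderiv ℝ (fun x : E n => x j) x = EuclideanSpace.proj (𝕜 := ℝ) j :=
            (EuclideanSpace.proj (𝕜 := ℝ) j).fderiv
          rw [this]
          subst hk
          simp [eq_comm]
        · have hWk : W k = fun _ => 0 := by funext x; simp [hW, hk]
          rw [hWk]; simp [hk]
      simp only [this, Finset.sum_ite_eq', Finset.mem_univ, if_true]
    simp only [e2]
    by_cases hij : i = j
    · simp only [hij, if_true]
      rw [integral_const]
      simp only [Measure.real, Measure.toSphere_apply_univ, finrank_euclideanSpace, Fintype.card_fin, ENNReal.toReal_mul, ENNReal.toReal_natCast, smul_eq_mul, mul_one, omega]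
    · simp [hij]
  rw [h5] at h4
  simp only [one_pow, one_mul, mul_one] at h4
  have hn0 : (n : ℝ) ≠ 0 := by positivity
  by_cases hij : i = j
  · simp only [hij, if_true] at h4 ⊢
    rw [h4]
    (clear * - hn0; field_simp)
  · simp only [hij, if_false] at h4 ⊢
    have := (mul_eq_zero.mp h4.symm).resolve_left hn0
    exact this

/-- The concrete sphere average. -/
def sphAvg (n : ℕ) (hn : 0 < n) : SphAvg n (Sph n) where
  avg := avgL n
  avg_nonneg g hg := by
    rw [avgL_apply]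
    exact mul_nonneg (inv_nonneg.mpr (omega_pos hn).le) (integral_nonneg hg)
  avg_one := by
    rw [avgL_apply]
    simp only [ContinuousMap.coe_one, Pi.one_apply, integral_const, smul_eq_mul, mul_one]
    have := (omega_pos hn).ne'
    have e : (sphM n).real univ = omega n := rfl
    rw [e]; field_simp
  N := coordN
  N_sq := coordN_sq
  avg_N := avgL_coordN
  avg_NN i j := by
    rw [avgL_apply]
    have e : (fun θ => (coordN i * coordN j : C(Sph n, ℝ)) θ) =
        fun θ : Sph n => (θ : E n) i * (θ : E n) j := by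
      funext θ; simp [coordN]
    rw [e, integral_coord_mul hn]
    have h0 := (omega_pos hn).ne'
    split_ifs with h
    · field_simp
    · simp
  anti := antip n
  avg_anti := avgL_anti
  N_anti i θ := by simp [coordN, antip]

end Vale.Agent.P366
end
end
end
end

section

section

section

open Set Function Filter Topology

namespace Vale.Agent.P366

namespace SphAvg

variable {n : ℕ} {S : Type*} [TopologicalSpace S] (D : SphAvg n S)

theorem avg_mono {g g' : C(S, ℝ)} (hg : ∀ s, g s ≤ g' s) : D.avg g ≤ D.avg g' := by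
  have := D.avg_nonneg (g' - g) (fun s => by simpa only [ContinuousMap.sub_apply, sub_nonneg] using hg s)
  rw [map_sub] at this
  linarith

theorem avg_const (r : ℝ) : D.avg (ContinuousMap.const S r) = r := by
  have : ContinuousMap.const S r = r • (1 : C(S, ℝ)) := by
    ext s; simp only [ContinuousMap.const_apply, ContinuousMap.coe_smul, ContinuousMap.coe_one, Pi.smul_apply, Pi.one_apply, smul_eq_mul, mul_one]
  rw [this, map_smul, D.avg_one]; simp

/-- the function `P·N` on the sphere -/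
noncomputable def q (P : Fin n → ℝ) : C(S, ℝ) := ∑ i, P i • D.N i

theorem q_apply (P : Fin n → ℝ) (s : S) : D.q P s = ∑ i, P i * D.N i s := by
  simp only [q, ContinuousMap.coe_sum, ContinuousMap.coe_smul, Finset.sum_apply, Pi.smul_apply, smul_eq_mul]

theorem q_anti (P : Fin n → ℝ) (s : S) : D.q P (D.anti s) = - D.q P s := by
  simp only [q_apply, D.N_anti, mul_neg, Finset.sum_neg_distrib]

theorem q_sq_le (P : Fin n → ℝ) (s : S) : (D.q P s) ^ 2 ≤ ∑ i, P i ^ 2 := by
  rw [q_apply]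
  have := Finset.sum_mul_sq_le_sq_mul_sq Finset.univ P (fun i => D.N i s)
  rw [D.N_sq s, mul_one] at this
  exact this

theorem avg_q_sq (P : Fin n → ℝ) : D.avg (D.q P ^ 2) = (∑ i, P i ^ 2) / n := by
  have h1 : (D.q P) ^ 2 = ∑ i, ∑ j, (P i * P j) • (D.N i * D.N j) := by
    ext s
    simp only [q_apply, sq, ContinuousMap.coe_sum,
      Finset.sum_apply, ContinuousMap.coe_smul, Pi.smul_apply, ContinuousMap.coe_mul,
      Pi.mul_apply, smul_eq_mul]
    rw [Finset.sum_mul_sum]
    refine Finset.sum_congr rfl fun i _ => Finset.sum_congr rfl fun j _ => by ring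
  rw [h1]
  simp only [map_sum, map_smul, D.avg_NN, smul_eq_mul]
  simp only [mul_ite, mul_zero, Finset.sum_ite_eq, Finset.mem_univ, if_true]
  rw [Finset.sum_div]
  refine Finset.sum_congr rfl fun i _ => by ring

end SphAvg

variable {n : ℕ} {S : Type*} [TopologicalSpace S] (D : SphAvg n S)

/-- pointwise inverse of a nowhere vanishing continuous function -/
noncomputable def cinv (W : C(S, ℝ)) (hW : ∀ s, W s ≠ 0) : C(S, ℝ) :=
  ⟨fun s => (W s)⁻¹, W.continuous.inv₀ hW⟩

theorem tang_sq (P : Fin n → ℝ) (s : S) (p : ℝ) (hpdef : p = ∑ i, P i ^ 2) :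
    ∑ i, (P i - D.q P s * D.N i s) ^ 2 = p - (D.q P s) ^ 2 := by
  have h1 : ∑ i, (P i - D.q P s * D.N i s) ^ 2 = ∑ i, P i ^ 2 - 2 * D.q P s * ∑ i, P i * D.N i s
      + (D.q P s) ^ 2 * ∑ i, D.N i s ^ 2 := by
    rw [Finset.mul_sum, Finset.mul_sum, ← Finset.sum_sub_distrib, ← Finset.sum_add_distrib]
    refine Finset.sum_congr rfl fun i _ => by ring
  rw [h1, D.N_sq, ← D.q_apply, hpdef]; ring

theorem X_pointwise (P : Fin n → ℝ) (X : Fin n → ℝ) (s : S) (w lam p : ℝ) (hw : 0 < w)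
    (hpdef : p = ∑ i, P i ^ 2) (hX : ∑ i, D.N i s * X i = 0) :
    2 * lam * (∑ i, X i * P i) - lam ^ 2 * ((p - (D.q P s) ^ 2) * w⁻¹) ≤ w * ∑ i, X i ^ 2 := by
  have h0 : 0 ≤ ∑ i, (w * X i - lam * (P i - D.q P s * D.N i s)) ^ 2 :=
    Finset.sum_nonneg fun i _ => sq_nonneg _
  have h1 : ∑ i, (w * X i - lam * (P i - D.q P s * D.N i s)) ^ 2 =
      w ^ 2 * ∑ i, X i ^ 2 - 2 * lam * w * (∑ i, X i * P i)
        + 2 * lam * w * D.q P s * (∑ i, D.N i s * X i)
        + lam ^ 2 * ∑ i, (P i - D.q P s * D.N i s) ^ 2 := by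
    simp only [Finset.mul_sum]
    rw [← Finset.sum_sub_distrib, ← Finset.sum_add_distrib, ← Finset.sum_add_distrib]
    refine Finset.sum_congr rfl fun i _ => by ring
  rw [h1, hX, tang_sq D P s p hpdef] at h0
  have h2 : w * ∑ i, X i ^ 2 - (2 * lam * (∑ i, X i * P i) -
      lam ^ 2 * ((p - (D.q P s) ^ 2) * w⁻¹)) =
      w⁻¹ * (w ^ 2 * ∑ i, X i ^ 2 - 2 * lam * w * (∑ i, X i * P i)
        + 2 * lam * w * D.q P s * 0 + lam ^ 2 * (p - (D.q P s) ^ 2)) := by
    field_simp
    ring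
  have h3 := mul_nonneg (inv_pos.mpr hw).le h0
  linarith only [h3, h2]

theorem key_setup (hn : 3 ≤ n) (P x : Fin n → ℝ) (R f h c l T M A p Ns : ℝ)
    (hpdef : p = ∑ i, P i ^ 2)
    (hR : 0 < R) (hf : 0 < f) (hh : 0 < h) (hM : 0 < M) (hT : 0 < T)
    (hc : c ^ 2 < h ^ 2) (hAdef : A = M + p / T) (hl : l = h - 1 / R)
    (hNs : Ns = R ^ 2 * (h ^ 2 - c ^ 2)) (hMT : 2 * (M / T) = 1 - Ns)
    (hF : 0 ≤ M ^ 2 - Ns * p)
    (hP : ∀ i, P i = T * R / f * x i / ((n : ℝ) - 1)) :
    0 ≤ p ∧ 0 < A ∧ Ns ≤ 1 ∧ 0 ≤ Ns ∧ p ≤ A ^ 2 ∧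
    Ns * ((l / h) * (h + 1 / R)) = c ^ 2 / h - 2 * (M / T) * h ∧
    ∑ i, P i * x i = ((n : ℝ) - 1) * f * p / (T * R) := by
  have hn' : (3 : ℝ) ≤ n := by exact_mod_cast hn
  have hn1 : (0 : ℝ) < (n : ℝ) - 1 := by linarith only [hn']
  have hnpos : (0 : ℝ) < n := by linarith only [hn1]
  have hp0 : 0 ≤ p := by rw [hpdef]; exact Finset.sum_nonneg fun i _ => sq_nonneg _
  have hA : 0 < A := by rw [hAdef]; (clear * - hM hp0 hT; positivity)
  have hNs1 : Ns ≤ 1 := by
    have : 0 < 2 * (M / T) := by positivity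
    linarith only [this, hMT]
  have hNs0 : 0 ≤ Ns := by
    rw [hNs]; exact mul_nonneg (sq_nonneg _) (by linarith only [hc])
  have hpA : p ≤ A ^ 2 := by
    have e : A ^ 2 = (M ^ 2 - Ns * p) + p + (p / T) ^ 2 := by
      have : Ns = 1 - 2 * (M / T) := by linarith only [hMT]
      rw [hAdef, this]; ring
    rw [e]; (refine le_of_not_gt fun hng_ => ?_; linarith only [mul_nonneg (le_of_lt (sub_pos.2 hng_)) (sq_nonneg (p / T)), mul_nonneg hF (le_of_lt (sub_pos.2 hng_)), mul_pos (sub_pos.2 hng_) (sub_pos.2 hng_)])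
  -- the coefficient identity
  have hcoef : Ns * ((l / h) * (h + 1 / R)) = c ^ 2 / h - 2 * (M / T) * h := by
    rw [hMT, hl, hNs]; field_simp; ring
  -- the sum over i
  have hPx : ∑ i, P i * x i = ((n : ℝ) - 1) * f * p / (T * R) := by
    have : ∀ i, x i = ((n : ℝ) - 1) * f / (T * R) * P i := by
      intro i
      rw [hP i]; (clear * - hn1 hf hT hR; field_simp)
    simp only [this]
    rw [hpdef, Finset.mul_sum, Finset.sum_div]
    refine Finset.sum_congr rfl fun i _ => by ring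
  exact ⟨hp0, hA, hNs1, hNs0, hpA, hcoef, hPx⟩

theorem key_sum (P : Fin n → ℝ) (R f h l T p : ℝ)
    (hpdef : p = ∑ i, P i ^ 2) (JN : C(S, ℝ)) (J : Fin n → C(S, ℝ)) :
    ∑ i, P i * (-(l / h) * (h + 1 / R) * P i
        + (T * R * f / ((n : ℝ) - 1)) * (D.avg (J i) - (l / h) * D.avg (JN * D.N i))) =
      -((l / h) * (h + 1 / R)) * p + (T * R * f / ((n : ℝ) - 1)) *
        (D.avg (∑ i, P i • J i) - (l / h) * D.avg (D.q P * JN)) := by
  have hb1' : D.avg (∑ i, P i • J i) = ∑ i, P i * D.avg (J i) := by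
    rw [map_sum]; simp only [map_smul, smul_eq_mul]
  have hb2' : D.avg (D.q P * JN) = ∑ i, P i * D.avg (JN * D.N i) := by
    have : D.q P * JN = ∑ i, P i • (JN * D.N i) := by
      ext s
      simp only [ContinuousMap.coe_mul, Pi.mul_apply, D.q_apply, ContinuousMap.coe_sum,
        Finset.sum_apply, ContinuousMap.coe_smul, Pi.smul_apply, smul_eq_mul]
      rw [Finset.sum_mul]
      refine Finset.sum_congr rfl fun i _ => by ring
    rw [this, map_sum]; simp only [map_smul, smul_eq_mul]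
  rw [hb1', hb2', hpdef]
  simp only [Finset.mul_sum]
  rw [← Finset.sum_sub_distrib, Finset.mul_sum, ← Finset.sum_add_distrib]
  refine Finset.sum_congr rfl fun i _ => by ring

end Vale.Agent.P366
end
end
end

section

section

section

open Set Function Filter Topology

namespace Vale.Agent.P366

namespace ReducedData

variable {n : ℕ} {S : Type*} [TopologicalSpace S] {D : SphAvg n S} (d : ReducedData n S D)

noncomputable def JN (R : ℝ) : C(S, ℝ) := ∑ i, D.N i * d.J R i

/-- the averaged energy combination -/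
noncomputable def B (R : ℝ) : C(S, ℝ) :=
  d.h R • d.mu R - (d.c R / d.f R) • d.JN R
    + (d.h R / d.f R ^ 4) • (∑ i, d.X R i ^ 2 + (1 / 2 : ℝ) • d.Q R)

end ReducedData

end Vale.Agent.P366
end
end
end

section

section

section

open Set Function Filter Topology

namespace Vale.Agent.P366

/-- A function whose derivative is nonnegative wherever the function is nonnegative, and which
starts at a positive value, never drops below its initial value. -/
theorem bootstrap_mono (F : ℝ → ℝ) (b : ℝ) (hcont : ContinuousOn F (Ici b)) (hb : 0 < F b)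
    (hd : ∀ R, b < R → 0 ≤ F R → ∃ F', HasDerivAt F F' R ∧ 0 ≤ F') :
    ∀ R, b ≤ R → F b ≤ F R := by
  intro R3 hR3
  by_contra hlt
  push Not at hlt
  have hcI : ContinuousOn F (Icc b R3) := hcont.mono Icc_subset_Ici_self
  set A : Set ℝ := Icc b R3 ∩ F ⁻¹' (Ici (F b)) with hA
  have hAclosed : IsClosed A := hcI.preimage_isClosed_of_isClosed isClosed_Icc isClosed_Ici
  have hAne : A.Nonempty := ⟨b, ⟨le_rfl, hR3⟩, mem_preimage.mpr (mem_Ici.mpr le_rfl)⟩
  have hAbdd : BddAbove A := ⟨R3, fun x hx => hx.1.2⟩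
  have hmem : sSup A ∈ A := hAclosed.csSup_mem hAne hAbdd
  set Rs := sSup A with hRs
  have hRsb : b ≤ Rs := hmem.1.1
  have hRsR3 : Rs < R3 := by
    rcases lt_or_eq_of_le hmem.1.2 with h | h
    · exact h
    · exfalso
      have : F b ≤ F Rs := hmem.2
      rw [h] at this; linarith only [this, hlt]
  have hFRs : F b ≤ F Rs := hmem.2
  have hcw : ContinuousWithinAt F (Ici b) Rs := hcont Rs hRsb
  have hev : ∀ᶠ R in 𝓝[Ici b] Rs, 0 < F R :=
    hcw.eventually (lt_mem_nhds (lt_of_lt_of_le hb hFRs))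
  rw [eventually_nhdsWithin_iff, Metric.eventually_nhds_iff] at hev
  obtain ⟨ε, hε, hball⟩ := hev
  set δ := min (ε / 2) (R3 - Rs) with hδ
  have hδpos : 0 < δ := lt_min (by linarith only [hε]) (by linarith only [hRsR3])
  have hpos : ∀ R ∈ Icc Rs (Rs + δ), 0 < F R := by
    intro R hR
    apply hball _ (le_trans hRsb hR.1)
    rw [Real.dist_eq, abs_of_nonneg (by linarith only [hR.1])]
    have : δ ≤ ε / 2 := min_le_left _ _
    linarith only [hR.2, hδpos, this]
  have hmono : MonotoneOn F (Icc Rs (Rs + δ)) := by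
    apply monotoneOn_of_deriv_nonneg (convex_Icc _ _)
    · exact hcont.mono (fun x hx => le_trans hRsb hx.1)
    · intro x hx
      rw [interior_Icc] at hx
      obtain ⟨F', h1, _⟩ := hd x (lt_of_le_of_lt hRsb hx.1) (hpos x ⟨hx.1.le, hx.2.le⟩).le
      exact h1.differentiableAt.differentiableWithinAt
    · intro x hx
      rw [interior_Icc] at hx
      obtain ⟨F', h1, h2⟩ := hd x (lt_of_le_of_lt hRsb hx.1) (hpos x ⟨hx.1.le, hx.2.le⟩).le
      rw [h1.deriv]; exact h2
  have h1 : F Rs ≤ F (Rs + δ) :=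
    hmono ⟨le_rfl, by linarith only [hδpos]⟩ ⟨by linarith only [hδpos], le_rfl⟩ (by linarith only [hδpos])
  have h2 : Rs + δ ∈ A := by
    refine ⟨⟨by linarith only [hδpos, hRsb], ?_⟩, ?_⟩
    · have : δ ≤ R3 - Rs := min_le_right _ _
      linarith only [this]
    · exact le_trans hFRs h1
  have h3 : Rs + δ ≤ Rs := le_csSup hAbdd h2
  linarith only [h3, hδpos]

namespace ReducedData

variable {n : ℕ} {S : Type*} [TopologicalSpace S] {D : SphAvg n S} (d : ReducedData n S D)

end ReducedData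

end Vale.Agent.P366
end
end
end

section

section

section

open MeasureTheory Metric Filter Topology Set
open scoped ContDiff ENNReal

noncomputable section
namespace Vale.Agent.P366

variable {n : ℕ}

/-- The restriction of `h` to the sphere of radius `R` as a continuous function on the unit
sphere (zero if the restriction is not continuous). -/
def mkC (h : E n → ℝ) (R : ℝ) : C(Sph n, ℝ) := by
  classical exact
  if hc : Continuous (fun θ : Sph n => h (R • (θ : E n))) then ⟨_, hc⟩ else 0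

lemma mkC_apply {h : E n → ℝ} {b R : ℝ} (hb : 0 ≤ b) (hR : b < R)
    (hh : ContinuousOn h {x | b < ‖x‖}) (θ : Sph n) : mkC h R θ = h (R • (θ : E n)) := by
  have hc : Continuous (fun θ : Sph n => h (R • (θ : E n))) := by
    refine hh.comp_continuous (by fun_prop) fun θ => ?_
    change b < ‖R • (θ : E n)‖
    rw [norm_smul_sph (hb.trans hR.le)]
    exact hR
  unfold mkC
  rw [dif_pos hc]
  rfl

lemma avg_eq_av {h : E n → ℝ} {R : ℝ} {g : C(Sph n, ℝ)} (hg : ∀ θ, g θ = h (R • (θ : E n))) :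
    avgL n g = av h R := by
  rw [avgL_apply]
  unfold av sphI
  simp only [hg]
  rw [div_eq_inv_mul]

namespace RotData

variable (d : RotData n)

/-- The energy density, as a continuous function on `b < ‖x‖`. -/
def muC (x : E n) : ℝ := (1 / 2) *
    (-((n : ℝ) - 1) / (d.f ‖x‖) ^ 2 * (2 * (deriv d.l ‖x‖ + -(1 / ‖x‖ ^ 2))
      + 2 * (d.l ‖x‖ + 1 / ‖x‖) / ‖x‖
      + ((n : ℝ) - 2) * (d.l ‖x‖ + 1 / ‖x‖) ^ 2 - ((n : ℝ) - 2) / ‖x‖ ^ 2)
    + 1 / (d.f ‖x‖) ^ 4 * (2 * d.KNN x * d.kE x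
      + (((n : ℝ) - 2) / ((n : ℝ) - 1)) * (d.kE x) ^ 2
      - 2 * (∑ i, d.Xc i x ^ 2) - d.Qc x))

lemma muC_eq (hn : 2 ≤ n) {x : E n} (hx : d.a < ‖x‖) : d.muC x = mu d.g d.K x := by
  have := d.mu_val hn hx
  unfold muC
  linarith

lemma Qc_cont : ContinuousOn d.Qc {x | d.b < ‖x‖} := by
  unfold Qc
  refine (((continuousOn_finsetSum _ fun i _ => continuousOn_finsetSum _ fun j _ =>
    (d.K_smooth i j).continuousOn.pow 2).sub (d.KNN_cont.pow 2)).sub
    (continuousOn_const.mul (continuousOn_finsetSum _ fun i _ => (d.Xc_cont i).pow 2))).sub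
    ((d.kE_cont.pow 2).div_const _)

lemma muC_cont : ContinuousOn d.muC {x | d.b < ‖x‖} := by
  have hnorm : ContinuousOn (fun x : E n => ‖x‖) {x | d.b < ‖x‖} := continuous_norm.continuousOn
  have hne : ∀ x ∈ {x : E n | d.b < ‖x‖}, ‖x‖ ≠ 0 := fun x hx =>
    norm_ne_zero_iff.mpr (d.ne_zero hx)
  have hfne : ∀ x ∈ {x : E n | d.b < ‖x‖}, d.f ‖x‖ ≠ 0 := fun x hx => (d.f_pos _ hx).ne'
  have hl' : ContinuousOn (fun x : E n => deriv d.l ‖x‖) {x | d.b < ‖x‖} :=
    d.contOn_radial (((contDiffOn_infty_iff_deriv_of_isOpen isOpen_Ioi).1 d.l_smooth).2).continuousOn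
  have h1 : ContinuousOn (fun x : E n => 1 / ‖x‖) {x | d.b < ‖x‖} :=
    continuousOn_const.div hnorm hne
  have h2 : ContinuousOn (fun x : E n => d.l ‖x‖ + 1 / ‖x‖) {x | d.b < ‖x‖} := d.cont_l.add h1
  have h3 : ContinuousOn (fun x : E n => 1 / ‖x‖ ^ 2) {x | d.b < ‖x‖} :=
    continuousOn_const.div (hnorm.pow 2) (fun x hx => pow_ne_zero 2 (hne x hx))
  have h4 : ContinuousOn (fun x : E n => ((n : ℝ) - 2) / ‖x‖ ^ 2) {x | d.b < ‖x‖} :=
    continuousOn_const.div (hnorm.pow 2) (fun x hx => pow_ne_zero 2 (hne x hx))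
  have h5 : ContinuousOn (fun x : E n => -((n : ℝ) - 1) / (d.f ‖x‖) ^ 2) {x | d.b < ‖x‖} :=
    continuousOn_const.div (d.cont_f.pow 2) (fun x hx => pow_ne_zero 2 (hfne x hx))
  have h6 : ContinuousOn (fun x : E n => 1 / (d.f ‖x‖) ^ 4) {x | d.b < ‖x‖} :=
    continuousOn_const.div (d.cont_f.pow 4) (fun x hx => pow_ne_zero 4 (hfne x hx))
  unfold muC
  refine continuousOn_const.mul (ContinuousOn.add (h5.mul ?_) (h6.mul ?_))
  · exact (((continuousOn_const.mul (hl'.add h3.neg)).add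
      ((continuousOn_const.mul h2).div hnorm hne)).add (continuousOn_const.mul (h2.pow 2))).sub h4
  · exact ((((continuousOn_const.mul d.KNN_cont).mul d.kE_cont).add
      (continuousOn_const.mul (d.kE_cont.pow 2))).sub
      (continuousOn_const.mul (continuousOn_finsetSum _ fun i _ => (d.Xc_cont i).pow 2))).sub
      d.Qc_cont

lemma momNorm_sq {x : E n} (hx : d.a ≤ ‖x‖) :
    momNorm d.g d.K x ^ 2 = (d.f ‖x‖ ^ 2)⁻¹ * ∑ j, mom d.g d.K j x ^ 2 := by
  have hf := (d.f_pos _ (d.b_lt hx)).ne'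
  have h1 : ∑ i, ∑ j, (d.g x)⁻¹ i j * mom d.g d.K i x * mom d.g d.K j x =
      (d.f ‖x‖ ^ 2)⁻¹ * ∑ j, mom d.g d.K j x ^ 2 := by
    rw [Finset.mul_sum]
    refine Finset.sum_congr rfl fun i _ => ?_
    rw [Finset.sum_eq_single i]
    · rw [ginv_apply hf (d.conf x hx)]; simp only [↓reduceIte, mul_one]; ring
    · intro j _ hj
      rw [ginv_apply hf (d.conf x hx)]; simp [hj.symm]
    · simp only [Finset.mem_univ, not_true_eq_false, mul_eq_zero, or_self_right, IsEmpty.forall_iff]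
  unfold momNorm
  rw [h1, Real.sq_sqrt]
  (clear * - hf; positivity)

end RotData

end Vale.Agent.P366
end
end
end
end

section

section

section

open MeasureTheory Metric Filter Topology Set
open scoped ContDiff ENNReal

noncomputable section
namespace Vale.Agent.P366

variable {n : ℕ}

lemma dNorm_norm {g : Field n} {x : E n} {s : ℝ} (hs : 0 < s) (hx : x ≠ 0)
    (hg : g x = s ^ 2 • (1 : Matrix (Fin n) (Fin n) ℝ)) :
    dNorm g norm x = s⁻¹ := by
  unfold dNorm
  have h1 : ∑ i, ∑ j, (g x)⁻¹ i j * pd i norm x * pd j norm x = (s ^ 2)⁻¹ := by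
    have : ∀ i : Fin n, ∑ j, (g x)⁻¹ i j * pd i norm x * pd j norm x =
        (s ^ 2)⁻¹ * Nc i x ^ 2 := by
      intro i
      rw [Finset.sum_eq_single i]
      · rw [ginv_apply hs.ne' hg]
        have : pd i (norm : E n → ℝ) x = Nc i x := pd_norm hx i
        rw [this]; simp only [↓reduceIte, mul_one]; ring
      · intro j _ hj
        rw [ginv_apply hs.ne' hg]; simp [hj.symm]
      · simp only [Finset.mem_univ, not_true_eq_false, mul_eq_zero, or_self_right, IsEmpty.forall_iff]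
    simp only [this]
    rw [← Finset.mul_sum, sum_Nc_sq hx, mul_one]
  rw [h1, ← inv_pow, Real.sqrt_sq (inv_nonneg.mpr hs.le)]

lemma nrm_norm {g : Field n} {x : E n} {s : ℝ} (hs : 0 < s) (hx : x ≠ 0)
    (hg : g x = s ^ 2 • (1 : Matrix (Fin n) (Fin n) ℝ)) (i : Fin n) :
    nrm g norm i x = Nc i x / s := by
  unfold nrm
  rw [dNorm_norm hs hx hg, Finset.sum_eq_single i]
  · rw [ginv_apply hs.ne' hg]
    have : pd i (norm : E n → ℝ) x = Nc i x := pd_norm hx i
    rw [this]
    field_simp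
    simp
  · intro j _ hj
    rw [ginv_apply hs.ne' hg]; simp [hj.symm]
  · simp only [Finset.mem_univ, not_true_eq_false, mul_eq_zero, IsEmpty.forall_iff]

namespace RotData

variable (d : RotData n)

lemma trS_norm {x : E n} (hx : d.a ≤ ‖x‖) :
    trS d.g d.K norm x = (d.f ‖x‖ ^ 2)⁻¹ * d.kE x := by
  have hf := d.f_pos _ (d.b_lt hx)
  have hx0 := d.ne_zero (d.b_lt hx)
  unfold trS
  rw [tr_of hf.ne' (d.conf x hx)]
  simp only [nrm_norm hf hx0 (d.conf x hx)]
  have h1 : ∑ i, ∑ j, d.K x i j * (Nc i x / d.f ‖x‖) * (Nc j x / d.f ‖x‖) =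
      (d.f ‖x‖ ^ 2)⁻¹ * d.KNN x := by
    unfold KNN
    rw [Finset.mul_sum]
    refine Finset.sum_congr rfl fun i _ => ?_
    rw [Finset.mul_sum]
    refine Finset.sum_congr rfl fun j _ => ?_
    field_simp
  rw [h1]
  unfold kE t
  ring

end RotData

end Vale.Agent.P366
end
end
end
end

section

section

section

open MeasureTheory Metric Filter Topology Set
open scoped BigOperators ENNReal ContDiff

noncomputable section
namespace Vale.Agent.P366

variable {n : ℕ}

/-- second derivative test: necessary condition -/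
theorem second_deriv_nonneg {φ : ℝ → ℝ} (hmin : IsLocalMin φ 0) (hc : ContinuousAt φ 0) :
    0 ≤ deriv (deriv φ) 0 := by
  by_contra hlt
  push Not at hlt
  have h1 : deriv φ 0 = 0 := hmin.deriv_eq_zero
  have hmax := isLocalMax_of_deriv_deriv_neg hlt h1 hc
  have hconst : φ =ᶠ[𝓝 0] fun _ => φ 0 := by
    filter_upwards [hmin, hmax] with t h2 h3
    exact le_antisymm h3 h2
  have h4 : deriv φ =ᶠ[𝓝 0] fun _ => 0 := by
    have := hconst.deriv
    refine this.trans ?_
    filter_upwards with t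
    simp
  have h5 := h4.deriv_eq
  simp at h5
  linarith only [h5, hlt]

theorem hess_along_circle {F : E n → ℝ} {V : Set (E n)} (hV : IsOpen V)
    (hF : ContDiffOn ℝ ∞ F V) {x0 w : E n} (hx0 : x0 ∈ V) {R1 : ℝ} (hR1 : 0 < R1)
    (hn0 : ‖x0‖ = R1) (hnw : ‖w‖ = R1) (horth : inner ℝ x0 w = 0)
    (hmin : ∀ x ∈ V, R1 ≤ ‖x‖ → F x0 ≤ F x) :
    fderiv ℝ F x0 x0 ≤ fderiv ℝ (fderiv ℝ F) x0 w w := by
  set γ : ℝ → E n := fun t => Real.cos t • x0 + Real.sin t • w with hγ
  set γ' : ℝ → E n := fun t => -Real.sin t • x0 + Real.cos t • w with hγ'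
  have hγd : ∀ t, HasDerivAt γ (γ' t) t := by
    intro t
    exact ((Real.hasDerivAt_cos t).smul_const x0).add ((Real.hasDerivAt_sin t).smul_const w)
  have hγ'd : ∀ t, HasDerivAt γ' (-Real.cos t • x0 + (-Real.sin t) • w) t := by
    intro t
    exact ((Real.hasDerivAt_sin t).neg.smul_const x0).add
      ((Real.hasDerivAt_cos t).smul_const w)
  have hγ0 : γ 0 = x0 := by simp [hγ]
  have hγcont : Continuous γ := by fun_prop
  have hnorm : ∀ t, ‖γ t‖ = R1 := by
    intro t
    have h1 : ‖γ t‖ ^ 2 = R1 ^ 2 := by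
      rw [hγ]
      simp only
      rw [@norm_add_sq_real]
      rw [norm_smul, norm_smul, inner_smul_left, inner_smul_right, horth, hn0, hnw]
      simp only [Real.norm_eq_abs, mul_zero, add_zero, mul_pow, sq_abs]
      have := Real.cos_sq_add_sin_sq t
      nlinarith only [this]
    have h2 : (0 : ℝ) ≤ ‖γ t‖ := norm_nonneg _
    nlinarith only [h1, hR1, h2]
  have hVt : ∀ᶠ t in 𝓝 (0 : ℝ), γ t ∈ V := by
    apply hγcont.continuousAt.preimage_mem_nhds
    rw [hγ0]; exact hV.mem_nhds hx0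
  have hlm : IsLocalMin (F ∘ γ) 0 := by
    filter_upwards [hVt] with t ht
    simp only [Function.comp, hγ0]
    exact hmin _ ht (hnorm t).ge
  have hFd : ∀ x ∈ V, HasFDerivAt F (fderiv ℝ F x) x := by
    intro x hx
    exact ((hF.differentiableOn (by norm_num)).differentiableAt (hV.mem_nhds hx)).hasFDerivAt
  have hd1 : ∀ᶠ t in 𝓝 (0 : ℝ), deriv (F ∘ γ) t = fderiv ℝ F (γ t) (γ' t) := by
    filter_upwards [hVt] with t ht
    exact ((hFd _ ht).comp_hasDerivAt t (hγd t)).deriv
  have hF2 : HasFDerivAt (fderiv ℝ F) (fderiv ℝ (fderiv ℝ F) x0) x0 := by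
    have h1 : ContDiffOn ℝ 1 (fderiv ℝ F) V :=
      hF.fderiv_of_isOpen hV (by norm_cast)
    exact ((h1.differentiableOn (by norm_num)).differentiableAt (hV.mem_nhds hx0)).hasFDerivAt
  have hd2 : HasDerivAt (fun t => fderiv ℝ F (γ t) (γ' t))
      (fderiv ℝ (fderiv ℝ F) x0 w w - fderiv ℝ F x0 x0) 0 := by
    have h1 : HasDerivAt (fun t => fderiv ℝ F (γ t)) (fderiv ℝ (fderiv ℝ F) x0 w) 0 := by
      have h2 := hγd 0
      have h3 : γ' 0 = w := by simp only [hγ', neg_smul, Real.sin_zero, zero_smul, neg_zero, Real.cos_zero, one_smul, zero_add]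
      rw [h3] at h2
      have h4 : HasFDerivAt (fderiv ℝ F) (fderiv ℝ (fderiv ℝ F) x0) (γ 0) := by
        rw [hγ0]; exact hF2
      exact h4.comp_hasDerivAt 0 h2
    have h5 := h1.clm_apply (hγ'd 0)
    refine h5.congr_deriv ?_
    simp only [hγ', neg_smul, Real.sin_zero, zero_smul, neg_zero, Real.cos_zero, one_smul, zero_add, hγ0, add_zero, map_neg]
    ring
  have h3 : deriv (deriv (F ∘ γ)) 0 = fderiv ℝ (fderiv ℝ F) x0 w w - fderiv ℝ F x0 x0 := by
    have h4 : deriv (F ∘ γ) =ᶠ[𝓝 0] fun t => fderiv ℝ F (γ t) (γ' t) := hd1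
    rw [h4.deriv_eq]
    exact hd2.deriv
  have hcont : ContinuousAt (F ∘ γ) 0 := by
    apply ContinuousAt.comp _ hγcont.continuousAt
    rw [hγ0]; exact (hFd _ hx0).continuousAt
  have h5 := second_deriv_nonneg hlm hcont
  rw [h3] at h5
  linarith only [h5]

theorem hess_tangential {F : E n → ℝ} {V : Set (E n)} (hV : IsOpen V)
    (hF : ContDiffOn ℝ ∞ F V) {x0 v : E n} (hx0 : x0 ∈ V) {R1 : ℝ} (hR1 : 0 < R1)
    (hn0 : ‖x0‖ = R1) (horth : inner ℝ x0 v = 0)
    (hmin : ∀ x ∈ V, R1 ≤ ‖x‖ → F x0 ≤ F x) :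
    ‖v‖ ^ 2 / R1 ^ 2 * fderiv ℝ F x0 x0 ≤ fderiv ℝ (fderiv ℝ F) x0 v v := by
  rcases eq_or_ne v 0 with h0 | h0
  · subst h0; simp
  · have hv : 0 < ‖v‖ := norm_pos_iff.mpr h0
    set w : E n := (R1 / ‖v‖) • v with hw
    have hnw : ‖w‖ = R1 := by
      rw [hw, norm_smul, Real.norm_eq_abs, abs_of_pos (by positivity)]
      field_simp
    have horth' : inner ℝ x0 w = 0 := by rw [hw, inner_smul_right, horth, mul_zero]
    have h1 := hess_along_circle hV hF hx0 hR1 hn0 hnw horth' hmin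
    have h2 : fderiv ℝ (fderiv ℝ F) x0 w w = (R1 / ‖v‖) ^ 2 * fderiv ℝ (fderiv ℝ F) x0 v v := by
      rw [hw]; simp; ring
    rw [h2] at h1
    have h3 : ‖v‖ ^ 2 / R1 ^ 2 * fderiv ℝ F x0 x0 ≤
        ‖v‖ ^ 2 / R1 ^ 2 * ((R1 / ‖v‖) ^ 2 * fderiv ℝ (fderiv ℝ F) x0 v v) :=
      mul_le_mul_of_nonneg_left h1 (by positivity)
    have h4 : ‖v‖ ^ 2 / R1 ^ 2 * ((R1 / ‖v‖) ^ 2 * fderiv ℝ (fderiv ℝ F) x0 v v) =
        fderiv ℝ (fderiv ℝ F) x0 v v := by
      field_simp
    linarith only [h4, h3]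

theorem grad_tangential {F : E n → ℝ} {V : Set (E n)} (hV : IsOpen V)
    (hF : ContDiffOn ℝ ∞ F V) {x0 v : E n} (hx0 : x0 ∈ V) {R1 : ℝ} (hR1 : 0 < R1)
    (hn0 : ‖x0‖ = R1) (horth : inner ℝ x0 v = 0)
    (hmin : ∀ x ∈ V, R1 ≤ ‖x‖ → F x0 ≤ F x) : fderiv ℝ F x0 v = 0 := by
  set γ : ℝ → E n := fun t => x0 + t • v with hγ
  have hγd : HasDerivAt γ v 0 := by
    exact (((hasDerivAt_id (0 : ℝ)).smul_const v).const_add x0).congr_deriv (one_smul _ _)
  have hγ0 : γ 0 = x0 := by simp [hγ]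
  have hγcont : Continuous γ := by fun_prop
  have hVt : ∀ᶠ t in 𝓝 (0 : ℝ), γ t ∈ V := by
    apply hγcont.continuousAt.preimage_mem_nhds
    rw [hγ0]; exact hV.mem_nhds hx0
  have hnorm : ∀ t, R1 ≤ ‖γ t‖ := by
    intro t
    have h1 : ‖γ t‖ ^ 2 = R1 ^ 2 + t ^ 2 * ‖v‖ ^ 2 := by
      rw [hγ]
      simp only
      rw [@norm_add_sq_real, inner_smul_right, horth, norm_smul, hn0]
      simp only [Real.norm_eq_abs, mul_zero, add_zero, mul_pow, sq_abs]
    have h2 : (0 : ℝ) ≤ ‖γ t‖ := norm_nonneg _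
    (refine le_of_not_gt fun hng_ => ?_; linarith only [mul_nonneg h2 (le_of_lt (sub_pos.2 hng_)), mul_pos (sub_pos.2 hng_) (sub_pos.2 hng_), mul_nonneg (sq_nonneg (t)) (sq_nonneg (‖v‖)), h1])
  have hlm : IsLocalMin (F ∘ γ) 0 := by
    filter_upwards [hVt] with t ht
    simp only [Function.comp, hγ0]
    exact hmin _ ht (hnorm t)
  have hFd : HasFDerivAt F (fderiv ℝ F x0) (γ 0) := by
    rw [hγ0]
    exact ((hF.differentiableOn (by norm_num)).differentiableAt (hV.mem_nhds hx0)).hasFDerivAt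
  have h1 := (hFd.comp_hasDerivAt 0 hγd)
  exact hlm.hasDerivAt_eq_zero h1

theorem grad_radial_nonneg {F : E n → ℝ} {V : Set (E n)} (hV : IsOpen V)
    (hF : ContDiffOn ℝ ∞ F V) {x0 : E n} (hx0 : x0 ∈ V) {R1 : ℝ} (hR1 : 0 < R1)
    (hn0 : ‖x0‖ = R1)
    (hmin : ∀ x ∈ V, R1 ≤ ‖x‖ → F x0 ≤ F x) : 0 ≤ fderiv ℝ F x0 x0 := by
  set γ : ℝ → E n := fun t => x0 + t • x0 with hγ
  have hγd : HasDerivAt γ x0 0 := by
    exact (((hasDerivAt_id (0 : ℝ)).smul_const x0).const_add x0).congr_deriv (one_smul _ _)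
  have hγ0 : γ 0 = x0 := by simp [hγ]
  have hγcont : Continuous γ := by fun_prop
  have hVt : ∀ᶠ t in 𝓝 (0 : ℝ), γ t ∈ V := by
    apply hγcont.continuousAt.preimage_mem_nhds
    rw [hγ0]; exact hV.mem_nhds hx0
  have hnorm : ∀ t, 0 ≤ t → R1 ≤ ‖γ t‖ := by
    intro t ht
    have h1 : γ t = (1 + t) • x0 := by rw [hγ]; simp only; rw [add_smul, one_smul]
    rw [h1, norm_smul, Real.norm_eq_abs, abs_of_nonneg (by linarith only [ht]), hn0]
    linarith only [mul_nonneg (le_of_lt hR1) ht]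
  have hFd : HasFDerivAt F (fderiv ℝ F x0) (γ 0) := by
    rw [hγ0]
    exact ((hF.differentiableOn (by norm_num)).differentiableAt (hV.mem_nhds hx0)).hasFDerivAt
  have h1 := (hFd.comp_hasDerivAt 0 hγd)
  have h2 := h1.tendsto_slope_zero_right
  refine ge_of_tendsto h2 ?_
  have h3 : ∀ᶠ t in 𝓝[>] (0 : ℝ), γ t ∈ V := nhdsWithin_le_nhds hVt
  filter_upwards [h3, self_mem_nhdsWithin] with t ht ht0
  simp only [Function.comp, zero_add, hγ0, smul_eq_mul]
  have ht0' : (0 : ℝ) < t := ht0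
  have h4 := hmin _ ht (hnorm t ht0'.le)
  have h5 : 0 ≤ t⁻¹ := (inv_pos.mpr ht0').le
  exact mul_nonneg h5 (by linarith only [h4])

/-- the gradient of a function minimized at `x0` on the outside of the ball is radial -/
theorem grad_formula {F : E n → ℝ} {V : Set (E n)} (hV : IsOpen V)
    (hF : ContDiffOn ℝ ∞ F V) {x0 : E n} (hx0 : x0 ∈ V) {R1 : ℝ} (hR1 : 0 < R1)
    (hn0 : ‖x0‖ = R1) (hmin : ∀ x ∈ V, R1 ≤ ‖x‖ → F x0 ≤ F x) (v : E n) :
    fderiv ℝ F x0 v = fderiv ℝ F x0 x0 / R1 ^ 2 * inner ℝ x0 v := by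
  have h1 : inner ℝ x0 (v - (inner ℝ x0 v / R1 ^ 2) • x0) = 0 := by
    rw [inner_sub_right, inner_smul_right, real_inner_self_eq_norm_sq, hn0]
    field_simp
    ring
  have h2 := grad_tangential hV hF hx0 hR1 hn0 h1 hmin
  rw [map_sub, map_smul, smul_eq_mul] at h2
  have h3 : fderiv ℝ F x0 v = inner ℝ x0 v / R1 ^ 2 * fderiv ℝ F x0 x0 := by linarith only [h2]
  rw [h3]; ring

/-- trace of the Hessian over the tangent space of the sphere -/
theorem hess_trace {F : E n → ℝ} {V : Set (E n)} (hV : IsOpen V)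
    (hF : ContDiffOn ℝ ∞ F V) {x0 : E n} (hx0 : x0 ∈ V) {R1 : ℝ} (hR1 : 0 < R1)
    (hn0 : ‖x0‖ = R1) (hmin : ∀ x ∈ V, R1 ≤ ‖x‖ → F x0 ≤ F x) :
    ((n : ℝ) - 1) / R1 ^ 2 * fderiv ℝ F x0 x0 ≤
      ∑ i, fderiv ℝ (fderiv ℝ F) x0 (EuclideanSpace.single i 1) (EuclideanSpace.single i 1)
      - ∑ i, ∑ j, (x0 i / R1) * (x0 j / R1) *
        fderiv ℝ (fderiv ℝ F) x0 (EuclideanSpace.single i 1) (EuclideanSpace.single j 1) := by
  set B := fderiv ℝ (fderiv ℝ F) x0 with hB
  set e : Fin n → E n := fun i => EuclideanSpace.single i (1 : ℝ) with he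
  set N : E n := (1 / R1) • x0 with hN
  have hNi : ∀ i, N i = x0 i / R1 := by intro i; simp only [hN, one_div, PiLp.smul_apply, smul_eq_mul]; ring
  have hNsum : N = ∑ i, N i • e i := by
    ext j; simp only [he, WithLp.ofLp_sum, WithLp.ofLp_smul, PiLp.ofLp_single, Finset.sum_apply, Pi.smul_apply, Pi.single_apply, smul_eq_mul, mul_ite, mul_one, mul_zero, Finset.sum_ite_eq, Finset.mem_univ, ↓reduceIte]
  have hNN : ∑ i, N i ^ 2 = 1 := by
    have h1 := EuclideanSpace.real_norm_sq_eq N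
    have h2 : ‖N‖ = 1 := by
      rw [hN, norm_smul, hn0, Real.norm_eq_abs, abs_of_pos (by positivity)]; field_simp
    rw [h2] at h1; linarith only [h1]
  set v : Fin n → E n := fun i => e i - N i • N with hv
  have hvorth : ∀ i, inner ℝ x0 (v i) = 0 := by
    intro i
    have h1 : inner ℝ x0 (e i) = x0 i := by
      rw [he]; simp only; rw [EuclideanSpace.inner_single_right]; simp
    have h2 : inner ℝ x0 N = R1 := by
      rw [hN, inner_smul_right, real_inner_self_eq_norm_sq, hn0]; field_simp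
    rw [hv]; simp only
    rw [inner_sub_right, inner_smul_right, h1, h2, hNi]; field_simp; ring
  have hvnorm : ∀ i, ‖v i‖ ^ 2 = 1 - N i ^ 2 := by
    intro i
    have h1 : inner ℝ (e i) N = N i := by
      rw [he]; simp only; rw [EuclideanSpace.inner_single_left]; simp
    have h2 : ‖N‖ = 1 := by
      rw [hN, norm_smul, hn0, Real.norm_eq_abs, abs_of_pos (by positivity)]; field_simp
    have h3 : ‖e i‖ = 1 := by rw [he]; simp
    rw [hv]; simp only
    rw [@norm_sub_sq_real, inner_smul_right, h1, norm_smul, h2, h3, Real.norm_eq_abs, mul_one,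
      sq_abs]
    ring
  have hineq : ∀ i, (1 - N i ^ 2) / R1 ^ 2 * fderiv ℝ F x0 x0 ≤ B (v i) (v i) := by
    intro i
    have := hess_tangential hV hF hx0 hR1 hn0 (hvorth i) hmin
    rwa [hvnorm i] at this
  have hsumL : ∑ i, (1 - N i ^ 2) / R1 ^ 2 * fderiv ℝ F x0 x0 =
      ((n : ℝ) - 1) / R1 ^ 2 * fderiv ℝ F x0 x0 := by
    rw [← Finset.sum_mul, ← Finset.sum_div, Finset.sum_sub_distrib, hNN]
    simp only [Finset.sum_const, Finset.card_univ, Fintype.card_fin, nsmul_eq_mul, mul_one]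
  have hsumR : ∑ i, B (v i) (v i) = ∑ i, B (e i) (e i) - ∑ i, ∑ j, N i * N j * B (e i) (e j) := by
    have h1 : ∀ i, B (v i) (v i) = B (e i) (e i) - N i * B (e i) N - N i * B N (e i)
        + N i ^ 2 * B N N := by
      intro i
      rw [hv]; simp; ring
    have h2 : ∑ i, N i * B (e i) N = B N N := by
      have h5 : B N N = B (∑ i, N i • e i) N := by rw [← hNsum]
      rw [h5, map_sum]
      simp only [map_smul, sum_apply, smul_apply, smul_eq_mul]
    have h3 : ∑ i, N i * B N (e i) = B N N := by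
      have : B N N = B N (∑ i, N i • e i) := by rw [← hNsum]
      rw [this, map_sum]
      simp only [map_smul, smul_eq_mul]
    have h4 : ∑ i, ∑ j, N i * N j * B (e i) (e j) = B N N := by
      rw [← h2]
      refine Finset.sum_congr rfl fun i _ => ?_
      have : B (e i) N = B (e i) (∑ j, N j • e j) := by rw [← hNsum]
      rw [this, map_sum, Finset.mul_sum]
      refine Finset.sum_congr rfl fun j _ => ?_
      simp only [map_smul, smul_eq_mul]; ring
    simp only [h1]
    rw [Finset.sum_add_distrib, Finset.sum_sub_distrib, Finset.sum_sub_distrib, h2, h3, h4,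
      ← Finset.sum_mul, hNN]
    ring
  have hfin := Finset.sum_le_sum fun i (_ : i ∈ Finset.univ) => hineq i
  rw [hsumL, hsumR] at hfin
  simp only [hNi] at hfin
  exact hfin

end Vale.Agent.P366
end
end
end
end

section

section

section

open MeasureTheory Metric Filter Topology Set
open scoped BigOperators ENNReal ContDiff

noncomputable section
namespace Vale.Agent.P366

variable {n : ℕ}

namespace RotData

variable (d : RotData n)

/-- Pointwise null expansion of a surface touching the sphere of radius `a` from inside. -/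
theorem theta_touch (hn : 2 ≤ n) {x0 : E n} (hx0 : ‖x0‖ = d.a) {V : Set (E n)} (hV : IsOpen V)
    (hx0V : x0 ∈ V) {F : E n → ℝ} (hF : ContDiffOn ℝ ∞ F V) (hdF : fderiv ℝ F x0 ≠ 0)
    (hmin : ∀ x ∈ V, d.a ≤ ‖x‖ → F x0 ≤ F x)
    (hth : thetaPlus d.g d.K F x0 ≤ 0) :
    (d.l d.a + 1 / d.a) + d.kE x0 / (((n : ℝ) - 1) * d.f d.a) ≤ 0 := by
  have ha := d.a_pos
  have hfa : 0 < d.f d.a := d.f_pos _ d.hba
  have hn1 : (0 : ℝ) < (n : ℝ) - 1 := by
    have : (2 : ℝ) ≤ n := by exact_mod_cast hn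
    linarith only [this]
  have hx0ne : x0 ≠ 0 := by
    intro h; rw [h, norm_zero] at hx0; linarith only [ha, hx0]
  have hxa : d.a ≤ ‖x0‖ := hx0.ge
  have hconf := d.conf x0 hxa
  rw [hx0] at hconf
  have hfne : d.f d.a ≠ 0 := hfa.ne'
  have hginv := fun i j => ginv_apply hfne hconf (i := i) (j := j)
  have hNc : ∀ i, Nc i x0 = x0 i / d.a := fun i => by unfold Nc; rw [hx0]
  have hN2 : ∑ i, Nc i x0 ^ 2 = 1 := sum_Nc_sq hx0ne
  -- gradient
  have hgrad := fun v => grad_formula hV hF hx0V ha hx0 hmin v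
  have hrad := grad_radial_nonneg hV hF hx0V ha hx0 hmin
  set lam : ℝ := fderiv ℝ F x0 x0 / d.a with hlam
  have hlam0 : 0 < lam := by
    rcases hrad.eq_or_lt with h | h
    · exfalso
      apply hdF
      ext v
      rw [hgrad v, ← h]
      simp
    · exact div_pos h ha
  have hpd : ∀ i, pd i F x0 = lam * Nc i x0 := by
    intro i
    unfold pd
    rw [hgrad, EuclideanSpace.inner_single_right, hNc]
    simp only [hlam, one_mul, conj_trivial]
    (clear * - ha; field_simp)
  -- norm of the gradient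
  have hdn : dNorm d.g F x0 = lam / d.f d.a := by
    unfold dNorm
    have h1 : ∑ i, ∑ j, (d.g x0)⁻¹ i j * pd i F x0 * pd j F x0 = (lam / d.f d.a) ^ 2 := by
      have h2 : ∀ i, ∑ j, (d.g x0)⁻¹ i j * pd i F x0 * pd j F x0 =
          (lam / d.f d.a) ^ 2 * Nc i x0 ^ 2 := by
        intro i
        have h3 : ∀ j, (d.g x0)⁻¹ i j * pd i F x0 * pd j F x0 =
            if i = j then (d.f d.a ^ 2)⁻¹ * (lam * Nc i x0) * (lam * Nc j x0) else 0 := by
          intro j
          rw [hginv, hpd, hpd]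
          split_ifs <;> ring
        simp only [h3, Finset.sum_ite_eq, Finset.mem_univ, if_true]
        (clear * - hlam0 hfne; field_simp)
      simp only [h2]
      rw [← Finset.mul_sum, hN2, mul_one]
    rw [h1, Real.sqrt_sq (by (clear * - hlam0 hfa; positivity))]
  have hnrm : ∀ i, nrm d.g F i x0 = Nc i x0 / d.f d.a := by
    intro i
    unfold nrm
    have h3 : ∀ j, (d.g x0)⁻¹ i j * pd j F x0 =
        if i = j then (d.f d.a ^ 2)⁻¹ * (lam * Nc j x0) else 0 := by
      intro j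
      rw [hginv, hpd]
      split_ifs <;> ring
    simp only [h3, Finset.sum_ite_eq, Finset.mem_univ, if_true]
    rw [hdn]
    (clear * - hlam0 hfne; field_simp)
  have htrS : ∀ A : Field n, trS d.g A F x0 =
      (d.f d.a ^ 2)⁻¹ * (∑ i, A x0 i i - ∑ i, ∑ j, A x0 i j * Nc i x0 * Nc j x0) := by
    intro A
    unfold trS
    rw [tr_of hfne hconf, mul_sub, Finset.mul_sum, Finset.mul_sum]
    congr 1
    refine Finset.sum_congr rfl fun i _ => ?_
    rw [Finset.mul_sum]
    refine Finset.sum_congr rfl fun j _ => ?_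
    rw [hnrm, hnrm]
    (clear * - hfne; field_simp)
  -- the second derivatives
  have hpd2 : ∀ i j, pd i (pd j F) x0 =
      fderiv ℝ (fderiv ℝ F) x0 (EuclideanSpace.single i 1) (EuclideanSpace.single j 1) := by
    intro i j
    have hF2 : HasFDerivAt (fderiv ℝ F) (fderiv ℝ (fderiv ℝ F) x0) x0 := by
      have h1 : ContDiffOn ℝ 1 (fderiv ℝ F) V :=
        hF.fderiv_of_isOpen hV (by norm_cast)
      exact ((h1.differentiableOn (by norm_num)).differentiableAt
        (hV.mem_nhds hx0V)).hasFDerivAt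
    have h2 : pd j F = fun y => fderiv ℝ F y (EuclideanSpace.single j 1) := rfl
    have h3 : HasFDerivAt (fun y => fderiv ℝ F y (EuclideanSpace.single j 1))
        ((fderiv ℝ (fderiv ℝ F) x0).flip (EuclideanSpace.single j 1)) x0 :=
      by simpa using hF2.clm_apply (hasFDerivAt_const (EuclideanSpace.single j (1 : ℝ)) x0)
    unfold pd
    rw [h3.fderiv]
    rfl
  set H : Fin n → Fin n → ℝ := fun i j =>
    fderiv ℝ (fderiv ℝ F) x0 (EuclideanSpace.single i 1) (EuclideanSpace.single j 1) with hH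
  have hhess : ∀ i j, hess d.g F x0 i j = H i j - lam * d.l d.a *
      (2 * (Nc i x0 * Nc j x0) - if i = j then 1 else 0) := by
    intro i j
    unfold hess
    rw [Matrix.of_apply, hpd2]
    congr 1
    have h3 : ∀ k, chr d.g k i j x0 * pd k F x0 =
        (if j = k then lam * d.l d.a * (Nc i x0 * Nc k x0) else 0)
        + (if i = k then lam * d.l d.a * (Nc j x0 * Nc k x0) else 0)
        - (lam * d.l d.a * (if i = j then 1 else 0)) * Nc k x0 ^ 2 := by
      intro k
      rw [d.chr_val hxa, hpd, hx0]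
      split_ifs <;> ring
    simp only [h3]
    rw [Finset.sum_sub_distrib, Finset.sum_add_distrib, ← Finset.mul_sum, hN2]
    simp only [Finset.sum_ite_eq, Finset.mem_univ, if_true]
    ring
  have htrH : trS d.g (hess d.g F) F x0 = (d.f d.a ^ 2)⁻¹ *
      ((∑ i, H i i - ∑ i, ∑ j, Nc i x0 * Nc j x0 * H i j) + lam * d.l d.a * ((n : ℝ) - 1)) := by
    rw [htrS]
    congr 1
    have h1 : ∑ i, hess d.g F x0 i i = ∑ i, H i i - lam * d.l d.a * (2 - n) := by
      have : ∀ i, hess d.g F x0 i i = H i i - (lam * d.l d.a * 2 * Nc i x0 ^ 2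
          - lam * d.l d.a) := by
        intro i; rw [hhess]; simp only [if_true]; ring
      simp only [this]
      rw [Finset.sum_sub_distrib, Finset.sum_sub_distrib, ← Finset.mul_sum, hN2]
      simp only [mul_one, Finset.sum_const, Finset.card_univ, Fintype.card_fin, nsmul_eq_mul, sub_right_inj]
      ring
    have h2 : ∑ i, ∑ j, hess d.g F x0 i j * Nc i x0 * Nc j x0 =
        ∑ i, ∑ j, Nc i x0 * Nc j x0 * H i j - lam * d.l d.a := by
      have h3 : ∀ i j, hess d.g F x0 i j * Nc i x0 * Nc j x0 = Nc i x0 * Nc j x0 * H i j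
          - lam * d.l d.a * 2 * Nc i x0 ^ 2 * Nc j x0 ^ 2
          + (if i = j then lam * d.l d.a * Nc i x0 * Nc j x0 else 0) := by
        intro i j
        rw [hhess]
        split_ifs <;> ring
      simp only [h3, Finset.sum_add_distrib, Finset.sum_sub_distrib, ← Finset.mul_sum, hN2,
        Finset.sum_ite_eq, Finset.mem_univ, if_true]
      have h4 : ∑ i, lam * d.l d.a * Nc i x0 * Nc i x0 = lam * d.l d.a := by
        have : ∀ i, lam * d.l d.a * Nc i x0 * Nc i x0 = lam * d.l d.a * Nc i x0 ^ 2 := by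
          intro i; ring
        simp only [this]
        rw [← Finset.mul_sum, hN2, mul_one]
      rw [h4]
      simp only [mul_one]
      rw [← Finset.mul_sum, hN2]
      ring
    rw [h1, h2]
    ring
  have htrace := hess_trace hV hF hx0V ha hx0 hmin
  have htr2 : ((n : ℝ) - 1) * lam / d.a ≤ ∑ i, H i i - ∑ i, ∑ j, Nc i x0 * Nc j x0 * H i j := by
    have h1 : ((n : ℝ) - 1) / d.a ^ 2 * fderiv ℝ F x0 x0 = ((n : ℝ) - 1) * lam / d.a := by
      rw [hlam]; (clear * - ha hn1; field_simp)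
    rw [h1] at htrace
    simpa only [hNc] using htrace
  have hmc : ((n : ℝ) - 1) * (1 / d.a + d.l d.a) / d.f d.a ≤ meanCurv d.g F x0 := by
    unfold meanCurv
    rw [htrH, hdn, le_div_iff₀ (by positivity)]
    have h1 : ((n : ℝ) - 1) * (1 / d.a + d.l d.a) / d.f d.a * (lam / d.f d.a) =
        (d.f d.a ^ 2)⁻¹ * (((n : ℝ) - 1) * lam / d.a + lam * d.l d.a * ((n : ℝ) - 1)) := by
      (clear * - ha hlam0 hfne hn1; field_simp)
    rw [h1]
    exact mul_le_mul_of_nonneg_left (by linarith only [htr2]) (by positivity)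
  have hkE : trS d.g d.K F x0 = (d.f d.a ^ 2)⁻¹ * d.kE x0 := by
    rw [htrS]; rfl
  unfold thetaPlus at hth
  rw [hkE] at hth
  have h5 : ((n : ℝ) - 1) * (1 / d.a + d.l d.a) / d.f d.a + (d.f d.a ^ 2)⁻¹ * d.kE x0 ≤ 0 := by
    linarith only [hmc, hth]
  have h6 : (d.l d.a + 1 / d.a) + d.kE x0 / (((n : ℝ) - 1) * d.f d.a) =
      d.f d.a / ((n : ℝ) - 1) *
      (((n : ℝ) - 1) * (1 / d.a + d.l d.a) / d.f d.a + (d.f d.a ^ 2)⁻¹ * d.kE x0) := by
    field_simp
    ring
  rw [h6]
  exact mul_nonpos_of_nonneg_of_nonpos (by (clear * - hfa hn1; positivity)) h5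

end RotData

/-- At a boundary point of a set that contains everything outside a ball, a defining function has
a minimum on the outside of the ball. -/
theorem localDef_min {Ω : Set (E n)} {x0 : E n} {R1 : ℝ} (hx0 : ‖x0‖ = R1)
    (hout : {x : E n | R1 ≤ ‖x‖} ⊆ Ω) (hfr : x0 ∈ frontier Ω) {V : Set (E n)} (hV : IsOpen V)
    (hx0V : x0 ∈ V) {F : E n → ℝ} (hF : ContDiffOn ℝ ∞ F V)
    (hΩV : Ω ∩ V = {x ∈ V | 0 ≤ F x}) :
    ∀ x ∈ V, R1 ≤ ‖x‖ → F x0 ≤ F x := by
  have hF0 : F x0 ≤ 0 := by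
    by_contra h
    push Not at h
    have hcont : ContinuousAt F x0 :=
      (hF.continuousOn).continuousAt (hV.mem_nhds hx0V)
    have h1 : ∀ᶠ x in 𝓝 x0, 0 < F x := hcont.eventually (lt_mem_nhds h)
    have h2 : Ω ∈ 𝓝 x0 := by
      filter_upwards [h1, hV.mem_nhds hx0V] with x hx hxV
      have : x ∈ Ω ∩ V := by rw [hΩV]; exact ⟨hxV, hx.le⟩
      exact this.1
    exact hfr.2 (mem_interior_iff_mem_nhds.mpr h2)
  intro x hxV hx
  have : x ∈ Ω ∩ V := ⟨hout hx, hxV⟩
  rw [hΩV] at this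
  exact hF0.trans this.2

namespace RotData

/-- The barrier inequality at the outermost point of a weakly future trapped boundary. -/
theorem touch (d : RotData n) (hn : 2 ≤ n) {Ω : Set (E n)} {x0 : E n} (hx0 : ‖x0‖ = d.a)
    (hfr : x0 ∈ frontier Ω) (hout : {x : E n | d.a ≤ ‖x‖} ⊆ Ω) {F : E n → ℝ}
    (hF : LocalDef Ω x0 F) (hth : thetaPlus d.g d.K F x0 ≤ 0) :
    (d.l d.a + 1 / d.a) + d.kE x0 / (((n : ℝ) - 1) * d.f d.a) ≤ 0 := by
  obtain ⟨V, hV, hx0V, hFs, hdF, hΩV⟩ := hF
  exact d.theta_touch hn hx0 hV hx0V hFs hdF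
    (localDef_min hx0 hout hfr hV hx0V hFs hΩV) hth

end RotData

end Vale.Agent.P366
end
end
end
end

section

section

section

open MeasureTheory Metric Filter Topology Set
open scoped BigOperators ENNReal ContDiff

noncomputable section
namespace Vale.Agent.P366

variable {n : ℕ}

lemma one_lt_rank_E (hn : 2 ≤ n) : 1 < Module.rank ℝ (E n) := by
  have h1 : Module.rank ℝ (E n) = n := by
    rw [← Module.finrank_eq_rank ℝ (E n)]
    simp only [finrank_euclideanSpace, Fintype.card_fin]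
  rw [h1]
  exact_mod_cast hn

lemma isConnected_image_polar (hn : 2 ≤ n) {T : Set ℝ} (hT : IsConnected T) :
    IsConnected ((fun p : E n × ℝ => p.2 • p.1) '' (sphere (0 : E n) 1 ×ˢ T)) := by
  have h1 : IsConnected (sphere (0 : E n) 1) :=
    isConnected_sphere (one_lt_rank_E hn) 0 (by norm_num)
  exact (h1.prod hT).image _ (by fun_prop)

lemma outside_eq_image {R : ℝ} (hR : 0 ≤ R) :
    {x : E n | R < ‖x‖} = (fun p : E n × ℝ => p.2 • p.1) '' (sphere (0 : E n) 1 ×ˢ Ioi R) := by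
  ext x
  constructor
  · intro hx
    have hx' : R < ‖x‖ := hx
    have h0 : 0 < ‖x‖ := lt_of_le_of_lt hR hx'
    refine ⟨((‖x‖)⁻¹ • x, ‖x‖), ⟨?_, hx'⟩, ?_⟩
    · simp only [mem_sphere_iff_norm, sub_zero, norm_smul, norm_inv, norm_norm]
      exact inv_mul_cancel₀ h0.ne'
    · simp only [smul_smul]
      rw [mul_inv_cancel₀ h0.ne', one_smul]
  · rintro ⟨⟨θ, r⟩, ⟨hθ, hr⟩, rfl⟩
    have hθ' : ‖θ‖ = 1 := by simpa only [mem_sphere_iff_norm, sub_zero] using hθ
    have hr' : R < r := hr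
    show R < ‖r • θ‖
    rw [norm_smul, hθ', mul_one, Real.norm_eq_abs]
    exact lt_of_lt_of_le hr' (le_abs_self r)

lemma outside_closed_eq_image {R : ℝ} (hR : 0 < R) :
    {x : E n | R ≤ ‖x‖} = (fun p : E n × ℝ => p.2 • p.1) '' (sphere (0 : E n) 1 ×ˢ Ici R) := by
  ext x
  constructor
  · intro hx
    have hx' : R ≤ ‖x‖ := hx
    have h0 : 0 < ‖x‖ := lt_of_lt_of_le hR hx'
    refine ⟨((‖x‖)⁻¹ • x, ‖x‖), ⟨?_, hx'⟩, ?_⟩
    · simp only [mem_sphere_iff_norm, sub_zero, norm_smul, norm_inv, norm_norm]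
      exact inv_mul_cancel₀ h0.ne'
    · simp only [smul_smul]
      rw [mul_inv_cancel₀ h0.ne', one_smul]
  · rintro ⟨⟨θ, r⟩, ⟨hθ, hr⟩, rfl⟩
    have hθ' : ‖θ‖ = 1 := by simpa only [mem_sphere_iff_norm, sub_zero] using hθ
    have hr' : R ≤ r := hr
    show R ≤ ‖r • θ‖
    rw [norm_smul, hθ', mul_one, Real.norm_eq_abs]
    exact le_trans hr' (le_abs_self r)

lemma isConnected_outside (hn : 2 ≤ n) {R : ℝ} (hR : 0 ≤ R) :
    IsConnected {x : E n | R < ‖x‖} := by
  rw [outside_eq_image hR]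
  exact isConnected_image_polar hn isConnected_Ioi

lemma isConnected_outside_closed (hn : 2 ≤ n) {R : ℝ} (hR : 0 < R) :
    IsConnected {x : E n | R ≤ ‖x‖} := by
  rw [outside_closed_eq_image hR]
  exact isConnected_image_polar hn isConnected_Ici

/-- The outside of a round ball is an exterior domain. -/
theorem isExtDomain_outside (hn : 2 ≤ n) {R : ℝ} (hR : 0 < R) :
    IsExtDomain {x : E n | R ≤ ‖x‖} where
  closed := isClosed_le continuous_const continuous_norm
  connected := isConnected_outside_closed hn hR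
  smooth := by
    intro p hp
    have hpR : R = ‖p‖ := frontier_le_subset_eq continuous_const continuous_norm hp
    have hp0 : p ≠ 0 := by
      intro h; rw [h, norm_zero] at hpR; linarith only [hpR, hR]
    refine ⟨fun x => ‖x‖ ^ 2 - R ^ 2, univ, isOpen_univ, mem_univ _, ?_, ?_, ?_⟩
    · exact ((contDiff_norm_sq ℝ).sub contDiff_const).contDiffOn
    · have h1 : HasFDerivAt (fun x : E n => ‖x‖ ^ 2 - R ^ 2) (2 • innerSL ℝ p) p := by
        have := (hasStrictFDerivAt_norm_sq p).hasFDerivAt.sub_const (R ^ 2)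
        simpa only [hasFDerivAt_sub_const_iff] using this
      rw [h1.fderiv]
      intro h
      have h2 : (2 • innerSL ℝ p) p = 0 := by rw [h]; rfl
      simp at h2
      exact hp0 h2
    · ext x
      simp only [inter_univ, mem_ofPred_eq, mem_univ, sub_nonneg, true_and]
      constructor
      · intro h; exact pow_le_pow_left₀ hR.le h 2
      · intro h; exact (abs_le_of_sq_le_sq' h (norm_nonneg x)).2
  atInfinity := ⟨R, fun x (hx : R < ‖x‖) => hx.le⟩

namespace Exterior

variable (D : Exterior n)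

lemma outside_subset (hn : 2 ≤ n) {R1 : ℝ} (h : ∀ x ∈ frontier D.Ω, ‖x‖ ≤ R1)
    (hR1 : 0 ≤ R1) : {x : E n | R1 < ‖x‖} ⊆ D.Ω := by
  have hconn := (isConnected_outside hn hR1).isPreconnected
  have hopen1 : IsOpen (interior D.Ω) := isOpen_interior
  have hopen2 : IsOpen (D.Ω)ᶜ := D.dom.closed.isOpen_compl
  have hcover : {x : E n | R1 < ‖x‖} ⊆ interior D.Ω ∪ (D.Ω)ᶜ := by
    intro x hx
    by_cases hxΩ : x ∈ D.Ω
    · left
      by_contra hni
      have : x ∈ frontier D.Ω := ⟨subset_closure hxΩ, hni⟩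
      exact absurd (h x this) (not_le.mpr hx)
    · right; exact hxΩ
  obtain ⟨R, hR⟩ := D.dom.atInfinity
  have hne : ({x : E n | R1 < ‖x‖} ∩ interior D.Ω).Nonempty := by
    have hn0 : 0 < n := by omega
    set v : E n := EuclideanSpace.single ⟨0, hn0⟩ (1 : ℝ) with hv
    have hvn : ‖v‖ = 1 := by rw [hv]; simp
    set s : ℝ := max (R1 + 1) (R + 1) with hs
    have hs1 : R1 < s := lt_of_lt_of_le (by linarith only []) (le_max_left _ _)
    have hs2 : R < s := lt_of_lt_of_le (by linarith only []) (le_max_right _ _)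
    have hsn : ‖s • v‖ = s := by
      rw [norm_smul, hvn, mul_one, Real.norm_eq_abs, abs_of_pos (lt_of_le_of_lt hR1 hs1)]
    refine ⟨s • v, ?_, ?_⟩
    · show R1 < ‖s • v‖
      rw [hsn]; exact hs1
    · rw [mem_interior]
      refine ⟨{x | R < ‖x‖}, hR, isOpen_outside R, ?_⟩
      show R < ‖s • v‖
      rw [hsn]; exact hs2
  have hdisj : Disjoint (interior D.Ω) (D.Ω)ᶜ :=
    disjoint_compl_right_iff_subset.mpr interior_subset
  have := hconn.subset_left_of_subset_union hopen1 hopen2 hdisj hcover hne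
  exact this.trans interior_subset

lemma R1_pos (hn : 2 ≤ n) {R1 : ℝ} (h : IsGreatest (norm '' frontier D.Ω) R1) : 0 < R1 := by
  obtain ⟨⟨p, hp, hpR⟩, hub⟩ := h
  have hR1 : 0 ≤ R1 := by rw [← hpR]; exact norm_nonneg p
  rcases hR1.eq_or_lt with h0 | h0
  · exfalso
    have hle : ∀ x ∈ frontier D.Ω, ‖x‖ ≤ 0 := fun x hx => by
      have := hub ⟨x, hx, rfl⟩
      rwa [← h0] at this
    have hsub := D.outside_subset hn hle le_rfl
    have : Nontrivial (E n) := by
      have hn0 : 0 < n := by omega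
      have : Nonempty (Fin n) := ⟨⟨0, hn0⟩⟩
      infer_instance
    have hcl : closure {x : E n | 0 < ‖x‖} ⊆ D.Ω :=
      closure_minimal hsub D.dom.closed
    have h1 : {x : E n | 0 < ‖x‖} = {(0 : E n)}ᶜ := by
      ext x; simp only [norm_pos_iff, ne_eq, mem_ofPred_eq, mem_compl_iff, mem_singleton_iff]
    rw [h1] at hcl
    have : (𝓝[≠] (0 : E n)).NeBot := Module.punctured_nhds_neBot ℝ (E n) 0
    rw [closure_compl_singleton] at hcl
    have huniv : D.Ω = univ := univ_subset_iff.mp hcl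
    rw [huniv, frontier_univ] at hp
    exact hp
  · exact h0

lemma outside_closed_subset (hn : 2 ≤ n) {R1 : ℝ} (h : IsGreatest (norm '' frontier D.Ω) R1) :
    {x : E n | R1 ≤ ‖x‖} ⊆ D.Ω := by
  have hR1 := D.R1_pos hn h
  have h1 := D.outside_subset hn (fun x hx => h.2 ⟨x, hx, rfl⟩) hR1.le
  exact (subset_closure_outside hR1).trans (closure_minimal h1 D.dom.closed)

/-- a neighbourhood of the sphere is contained in `U` -/
lemma exists_b (hn : 2 ≤ n) {R1 : ℝ} (h : IsGreatest (norm '' frontier D.Ω) R1) :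
    ∃ b, 0 ≤ b ∧ b < R1 ∧ {x : E n | b < ‖x‖} ⊆ D.U := by
  have hR1 := D.R1_pos hn h
  have hout := (D.outside_closed_subset hn h).trans D.sub
  have hsph : sphere (0 : E n) R1 ⊆ D.U := fun x hx => hout (by
    have : ‖x‖ = R1 := by simpa only [mem_sphere_iff_norm, sub_zero] using hx
    exact this.ge)
  obtain ⟨δ, hδ, hth⟩ := (isCompact_sphere (0 : E n) R1).exists_thickening_subset_open
    D.isOpen_U hsph
  refine ⟨max 0 (R1 - δ), le_max_left _ _, max_lt hR1 (by linarith only [hδ]), ?_⟩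
  intro x hx
  have hx' : max 0 (R1 - δ) < ‖x‖ := hx
  have hx0 : 0 < ‖x‖ := lt_of_le_of_lt (le_max_left _ _) hx'
  have hx1 : R1 - δ < ‖x‖ := lt_of_le_of_lt (le_max_right _ _) hx'
  rcases le_or_gt R1 ‖x‖ with h1 | h1
  · exact hout h1
  · apply hth
    rw [mem_thickening_iff]
    refine ⟨(R1 / ‖x‖) • x, ?_, ?_⟩
    · simp only [mem_sphere_iff_norm, sub_zero, norm_smul, norm_div, Real.norm_eq_abs,
        abs_of_pos hR1, abs_of_pos hx0]
      (clear * - hx0 hR1; field_simp)
    · rw [dist_eq_norm]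
      have h2 : x - (R1 / ‖x‖) • x = (1 - R1 / ‖x‖) • x := by rw [sub_smul, one_smul]
      rw [h2, norm_smul, Real.norm_eq_abs]
      have h3 : 1 - R1 / ‖x‖ ≤ 0 := by
        rw [sub_nonpos, le_div_iff₀ hx0]; linarith only [h1]
      rw [abs_of_nonpos h3]
      have h4 : -(1 - R1 / ‖x‖) * ‖x‖ = R1 - ‖x‖ := by field_simp; ring
      rw [h4]; linarith only [hx1]

/-- round cuts -/
lemma round_cut (hn : 2 ≤ n) {R1 R2 : ℝ} (h : IsGreatest (norm '' frontier D.Ω) R1)
    (hR : R1 ≤ R2) : IsExtDomain {x : E n | R2 ≤ ‖x‖} ∧ {x : E n | R2 ≤ ‖x‖} ⊆ D.Ω :=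
  ⟨isExtDomain_outside hn (lt_of_lt_of_le (D.R1_pos hn h) hR),
    fun x (hx : R2 ≤ ‖x‖) => D.outside_closed_subset hn h (hR.trans hx)⟩

end Exterior

end Vale.Agent.P366
end
end
end
end

section

section

section

open MeasureTheory Metric Filter Topology Set
open scoped BigOperators ENNReal ContDiff

noncomputable section
namespace Vale.Agent.P366

variable {n : ℕ}

lemma dvg_continuousOn {b : ℝ} {W : Fin n → E n → ℝ}
    (hW : ∀ i, ContDiffOn ℝ 1 (W i) {x | b < ‖x‖}) : ContinuousOn (dvg W) {x | b < ‖x‖} := by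
  unfold dvg
  refine continuousOn_finsetSum _ fun i _ => ?_
  have := (hW i).continuousOn_fderiv_of_isOpen (isOpen_outside b) le_rfl
  exact this.clm_apply continuousOn_const

/-- The divergence theorem on the outside of a ball for compactly supported fields. -/
theorem integral_dvg_outside [Nontrivial (E n)] {b : ℝ} (hb : 0 ≤ b) {W : Fin n → E n → ℝ}
    (hW : ∀ i, ContDiffOn ℝ 1 (W i) {x | b < ‖x‖}) {C : ℝ}
    (hC : ∀ i x, C < ‖x‖ → W i x = 0) {R : ℝ} (hR : b < R) :
    ∫ x in {x : E n | R < ‖x‖}, dvg W x = - flux W R := by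
  have hR0 : 0 < R := lt_of_le_of_lt hb hR
  set C' : ℝ := max C (R + 1) with hC'
  have hCC' : C ≤ C' := le_max_left _ _
  have hRC' : R < C' := lt_of_lt_of_le (by linarith only []) (le_max_right _ _)
  have hdc := dvg_continuousOn hW
  have hdz : ∀ x, C' < ‖x‖ → dvg W x = 0 := by
    intro x hx
    unfold dvg
    refine Finset.sum_eq_zero fun i _ => ?_
    have h1 : W i =ᶠ[𝓝 x] fun _ => 0 := by
      filter_upwards [(isOpen_outside C').mem_nhds hx] with y hy
      exact hC i y (lt_of_le_of_lt hCC' hy)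
    unfold pd
    rw [h1.fderiv_eq]
    simp
  have hopenR : MeasurableSet {x : E n | R < ‖x‖} := (isOpen_outside R).measurableSet
  have hint : IntegrableOn (dvg W) {x : E n | R < ‖x‖} := by
    have hcomp : IsCompact (closedBall (0 : E n) C' ∩ {x : E n | R ≤ ‖x‖}) :=
      (isCompact_closedBall _ _).inter_right (isClosed_le continuous_const continuous_norm)
    have h1 : IntegrableOn (dvg W) (closedBall (0 : E n) C' ∩ {x : E n | R ≤ ‖x‖}) := by
      refine (hdc.mono ?_).integrableOn_compact hcomp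
      intro x hx
      exact lt_of_lt_of_le hR hx.2
    have h2 : IntegrableOn (dvg W) {x : E n | C' < ‖x‖} := by
      have : IntegrableOn (fun _ : E n => (0 : ℝ)) {x : E n | C' < ‖x‖} := integrableOn_zero
      refine this.congr_fun ?_ (isOpen_outside C').measurableSet
      intro x hx
      exact (hdz x hx).symm
    refine (h1.union h2).mono_set ?_
    intro x hx
    have hx' : R < ‖x‖ := hx
    rcases le_or_gt ‖x‖ C' with h | h
    · left; exact ⟨by simpa only [mem_closedBall, dist_zero_right] using h, hx'.le⟩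
    · right; exact h
  set h : E n → ℝ := indicator {x : E n | R < ‖x‖} (dvg W) with hh
  have hhint : Integrable h := (integrable_indicator_iff hopenR).mpr hint
  have h1 : ∫ x in {x : E n | R < ‖x‖}, dvg W x = ∫ x, h x := (integral_indicator hopenR).symm
  have h2 : ∀ r ∈ Ioi (0 : ℝ), r ^ (n - 1) * sphI h r =
      indicator (Ioi R) (fun r => r ^ (n - 1) * sphI (dvg W) r) r := by
    intro r hr
    have hr' : 0 ≤ r := le_of_lt hr
    by_cases hRr : R < r
    · rw [indicator_of_mem (show r ∈ Ioi R from hRr)]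
      congr 1
      unfold sphI
      refine integral_congr_ae (Eventually.of_forall fun θ => ?_)
      simp only [hh]
      rw [indicator_of_mem]
      show R < ‖r • (θ : E n)‖
      rw [norm_smul_sph hr']; exact hRr
    · rw [indicator_of_notMem (show r ∉ Ioi R from hRr)]
      have : sphI h r = 0 := by
        unfold sphI
        have h3 : ∀ θ : sphere (0 : E n) 1, h (r • (θ : E n)) = 0 := by
          intro θ
          simp only [hh]
          rw [indicator_of_notMem]
          show ¬ R < ‖r • (θ : E n)‖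
          rw [norm_smul_sph hr']; exact hRr
        simp [h3]
      rw [this, mul_zero]
  have hcontf : ContinuousOn (fun r => r ^ (n - 1) * sphI (dvg W) r) (Ioi b) :=
    (continuousOn_id.pow (n - 1)).mul (sphI_continuousOn hb hdc)
  have hfint : IntegrableOn (fun r => r ^ (n - 1) * sphI (dvg W) r) (Ioi R) := by
    have h3 : IntegrableOn (fun r => r ^ (n - 1) * sphI (dvg W) r) (Icc R C') := by
      refine (hcontf.mono ?_).integrableOn_compact isCompact_Icc
      intro x hx
      exact lt_of_lt_of_le hR hx.1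
    have h4 : IntegrableOn (fun r => r ^ (n - 1) * sphI (dvg W) r) (Ioi C') := by
      have : IntegrableOn (fun _ : ℝ => (0 : ℝ)) (Ioi C') := integrableOn_zero
      refine this.congr_fun ?_ measurableSet_Ioi
      intro r hr
      have hr0 : 0 ≤ r := le_trans (hR0.le.trans hRC'.le) (le_of_lt hr)
      have : sphI (dvg W) r = 0 := by
        unfold sphI
        have h5 : ∀ θ : sphere (0 : E n) 1, dvg W (r • (θ : E n)) = 0 := by
          intro θ
          apply hdz
          rw [norm_smul_sph hr0]; exact hr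
        simp [h5]
      simp only [this, mul_zero]
    refine (h3.union h4).mono_set ?_
    intro r hr
    rcases le_or_gt r C' with h | h
    · left; exact ⟨le_of_lt hr, h⟩
    · right; exact h
  have hlim : Tendsto (flux W) atTop (𝓝 0) := by
    refine Tendsto.congr' ?_ tendsto_const_nhds
    filter_upwards [eventually_gt_atTop (max C 0)] with r hr
    have hr0 : 0 ≤ r := ((le_max_right _ _).trans_lt hr).le
    have hrC : C < r := (le_max_left _ _).trans_lt hr
    unfold flux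
    have : sphI (fun x => ∑ i, W i x * (x i / ‖x‖)) r = 0 := by
      unfold sphI
      have h5 : ∀ θ : sphere (0 : E n) 1,
          (∑ i, W i (r • (θ : E n)) * ((r • (θ : E n)) i / ‖r • (θ : E n)‖)) = 0 := by
        intro θ
        refine Finset.sum_eq_zero fun i _ => ?_
        rw [hC i _ (by rw [norm_smul_sph hr0]; exact hrC), zero_mul]
      simp only [h5]
      simp
    rw [this, mul_zero]
  rw [h1, polar h hhint, setIntegral_congr_fun measurableSet_Ioi h2,
    setIntegral_indicator measurableSet_Ioi]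
  have h3 : Ioi (0 : ℝ) ∩ Ioi R = Ioi R := by
    rw [Ioi_inter_Ioi, max_eq_right hR0.le]
  rw [h3]
  have h4 := integral_Ioi_of_hasDerivAt_of_tendsto (f := flux W)
    (f' := fun r => r ^ (n - 1) * sphI (dvg W) r) (a := R) (m := 0)
    (flux_hasDerivAt hb hW hR).continuousAt.continuousWithinAt
    (fun r hr => flux_hasDerivAt hb hW (hR.trans hr)) hfint hlim
  rw [h4]; ring

namespace RotData

variable (d : RotData n)

lemma sqrt_det_val {x : E n} (hx : d.a ≤ ‖x‖) : √((d.g x).det) = d.f ‖x‖ ^ n := by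
  rw [d.conf x hx, Matrix.det_smul, Matrix.det_one, mul_one, Fintype.card_fin, ← pow_mul,
    mul_comm 2 n, pow_mul, Real.sqrt_sq (pow_nonneg (d.f_pos _ (d.b_lt hx)).le n)]

/-- Upper bound for the flux of admissible test fields through round spheres. -/
theorem test_integral_le (hn : 2 ≤ n) {X : E n → E n} (hX : ContDiff ℝ ∞ X)
    (hXc : HasCompactSupport X) {R : ℝ} (hR : d.a ≤ R)
    (hXb : ∀ x : E n, ‖x‖ = R → ∑ i, ∑ j, d.g x i j * X x i * X x j ≤ 1) :
    ∫ x in {x : E n | R ≤ ‖x‖}, ∑ i, pd i (fun y => √((d.g y).det) * X y i) x ≤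
      omega n * (d.f R * R) ^ (n - 1) := by
  have hn0 : 0 < n := by omega
  have : Nonempty (Fin n) := ⟨⟨0, hn0⟩⟩
  have : Nontrivial (E n) := inferInstance
  have hbR : d.b < R := d.hba.trans_le hR
  have hR0 : 0 < R := d.a_pos.trans_le hR
  have hfR : 0 < d.f R := d.f_pos R hbR
  set W : Fin n → E n → ℝ := fun i x => d.f ‖x‖ ^ n * X x i with hW
  have hWs : ∀ i, ContDiffOn ℝ 1 (W i) {x | d.b < ‖x‖} := by
    intro i
    have h1 : ContDiff ℝ ∞ (fun x => X x i) :=
      (EuclideanSpace.proj (𝕜 := ℝ) i).contDiff.comp hX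
    exact ((d.f_comp_smooth.pow n).mul h1.contDiffOn).of_le (by norm_cast)
  obtain ⟨C, hC⟩ := hXc.isCompact.isBounded.subset_closedBall (0 : E n)
  have hWz : ∀ i x, C < ‖x‖ → W i x = 0 := by
    intro i x hx
    have h1 : x ∉ tsupport X := by
      intro h
      have := hC h
      simp only [mem_closedBall, dist_zero_right] at this
      linarith only [this, hx]
    simp only [hW]
    rw [image_eq_zero_of_notMem_tsupport h1]
    simp
  have hsphere : (volume : Measure (E n)) (sphere (0 : E n) R) = 0 :=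
    Measure.addHaar_sphere_of_ne_zero volume (0 : E n) hR0.ne'
  have hae : ({x : E n | R ≤ ‖x‖} : Set (E n)) =ᵐ[volume] ({x : E n | R < ‖x‖} : Set (E n)) := by
    have h1 : {x : E n | R < ‖x‖} ⊆ {x : E n | R ≤ ‖x‖} := fun x (hx : R < ‖x‖) => hx.le
    refine (LE.le.eventuallyLE h1).antisymm ?_ |>.symm
    rw [ae_le_set]
    refine measure_mono_null ?_ hsphere
    intro x hx
    have h2 : R ≤ ‖x‖ := hx.1
    have h3 : ¬ R < ‖x‖ := hx.2
    simp only [mem_sphere_iff_norm, sub_zero]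
    linarith only [h2, h3]
  rw [setIntegral_congr_set hae]
  have h1 : ∫ x in {x : E n | R < ‖x‖}, ∑ i, pd i (fun y => √((d.g y).det) * X y i) x =
      ∫ x in {x : E n | R < ‖x‖}, dvg W x := by
    refine setIntegral_congr_fun (isOpen_outside R).measurableSet ?_
    intro x hx
    have hx' : R < ‖x‖ := hx
    simp only [dvg]
    refine Finset.sum_congr rfl fun i _ => ?_
    apply pd_congr
    filter_upwards [(isOpen_outside R).mem_nhds hx'] with y hy
    have hy' : R < ‖y‖ := hy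
    simp only [hW]
    rw [d.sqrt_det_val (hR.trans hy'.le)]
  rw [h1, integral_dvg_outside d.hb hWs hWz hbR]
  unfold flux
  have h2 : -(R ^ (n - 1) * sphI (fun x => ∑ i, W i x * (x i / ‖x‖)) R) =
      R ^ (n - 1) * ∫ θ : sphere (0 : E n) 1,
        (-(∑ i, W i (R • (θ : E n)) * ((R • (θ : E n)) i / ‖R • (θ : E n)‖))) ∂(sphM n) := by
    unfold sphI
    rw [integral_neg]; ring
  rw [h2]
  have hpt : ∀ θ : sphere (0 : E n) 1,
      (-(∑ i, W i (R • (θ : E n)) * ((R • (θ : E n)) i / ‖R • (θ : E n)‖))) ≤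
        d.f R ^ (n - 1) := by
    intro θ
    have hθn : ‖R • (θ : E n)‖ = R := norm_smul_sph hR0.le θ
    have h3 : ∀ i, W i (R • (θ : E n)) * ((R • (θ : E n)) i / ‖R • (θ : E n)‖) =
        d.f R ^ n * (X (R • (θ : E n)) i * (θ : E n) i) := by
      intro i
      simp only [hW]
      rw [hθn]
      simp only [PiLp.smul_apply, smul_eq_mul]
      (clear * - hR0 hfR; field_simp)
    simp only [h3]
    rw [← Finset.mul_sum]
    set Y := X (R • (θ : E n)) with hY
    have hYn : d.f R * ‖Y‖ ≤ 1 := by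
      have h4 := hXb (R • (θ : E n)) hθn
      have hc := d.conf (R • (θ : E n)) (by rw [hθn]; exact hR)
      rw [hθn] at hc
      have h5 : ∑ i, ∑ j, d.g (R • (θ : E n)) i j * X (R • (θ : E n)) i * X (R • (θ : E n)) j =
          (d.f R * ‖Y‖) ^ 2 := by
        have h6 : ∀ i, ∑ j, d.g (R • (θ : E n)) i j * X (R • (θ : E n)) i *
            X (R • (θ : E n)) j = d.f R ^ 2 * Y i ^ 2 := by
          intro i
          have h7 : ∀ j, d.g (R • (θ : E n)) i j * X (R • (θ : E n)) i * X (R • (θ : E n)) j =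
              if i = j then d.f R ^ 2 * Y i * Y j else 0 := by
            intro j
            rw [g_apply hc]
            split_ifs <;> simp [hY]
          simp only [h7, Finset.sum_ite_eq, Finset.mem_univ, if_true]
          ring
        simp only [h6]
        rw [← Finset.mul_sum, mul_pow, EuclideanSpace.real_norm_sq_eq]
      rw [h5] at h4
      (refine le_of_not_gt fun hng_ => ?_; linarith only [mul_nonneg (le_of_lt (sub_pos.2 hng_)) (mul_nonneg hfR.le (norm_nonneg Y)), mul_pos (sub_pos.2 hng_) (sub_pos.2 hng_), mul_nonneg (le_of_lt (sub_pos.2 hng_)) (sq_nonneg (d.f R * ‖Y‖ - 1)), mul_nonneg (sub_nonneg.2 h4) (mul_nonneg hfR.le (norm_nonneg Y))])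
    have h8 : -(∑ i, Y i * (θ : E n) i) ≤ ‖Y‖ := by
      have h9 : ∑ i, Y i * (θ : E n) i = inner ℝ Y (θ : E n) := by
        rw [PiLp.inner_apply]
        refine Finset.sum_congr rfl fun i _ => ?_
        simp [mul_comm]
      rw [h9]
      have h10 := abs_real_inner_le_norm Y (θ : E n)
      rw [norm_sph, mul_one] at h10
      linarith only [(neg_abs_le (inner ℝ Y (θ : E n))), h10]
    have h11 : d.f R ^ n = d.f R ^ (n - 1) * d.f R := by
      rw [← pow_succ]; congr 1; omega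
    calc -(d.f R ^ n * ∑ i, Y i * (θ : E n) i)
        = d.f R ^ n * -(∑ i, Y i * (θ : E n) i) := by ring
      _ ≤ d.f R ^ n * ‖Y‖ := mul_le_mul_of_nonneg_left h8 (by positivity)
      _ = d.f R ^ (n - 1) * (d.f R * ‖Y‖) := by rw [h11]; ring
      _ ≤ d.f R ^ (n - 1) * 1 := mul_le_mul_of_nonneg_left hYn (by positivity)
      _ = d.f R ^ (n - 1) := mul_one _
  have hle : ∫ θ : sphere (0 : E n) 1,
        (-(∑ i, W i (R • (θ : E n)) * ((R • (θ : E n)) i / ‖R • (θ : E n)‖))) ∂(sphM n) ≤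
      ∫ θ : sphere (0 : E n) 1, d.f R ^ (n - 1) ∂(sphM n) := by
    refine integral_mono ?_ (integrable_const _) hpt
    refine (integrable_sph d.hb hbR
      (h := fun x => ∑ i, W i x * (x i / ‖x‖)) ?_).neg
    refine continuousOn_finsetSum _ fun i _ => ?_
    exact (hWs i).continuousOn.mul (contDiffOn_coord_div (m := 0) d.hb i).continuousOn
  have hconst : ∫ θ : sphere (0 : E n) 1, d.f R ^ (n - 1) ∂(sphM n) =
      omega n * d.f R ^ (n - 1) := by
    rw [integral_const, smul_eq_mul]; rfl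
  rw [hconst] at hle
  calc R ^ (n - 1) * ∫ θ : sphere (0 : E n) 1,
        (-(∑ i, W i (R • (θ : E n)) * ((R • (θ : E n)) i / ‖R • (θ : E n)‖))) ∂(sphM n)
      ≤ R ^ (n - 1) * (omega n * d.f R ^ (n - 1)) :=
        mul_le_mul_of_nonneg_left hle (by positivity)
    _ = omega n * (d.f R * R) ^ (n - 1) := by rw [mul_pow]; ring

end RotData

/-- Area of round cuts. -/
theorem Exterior.area_round (D : Exterior n) (d : RotData n) (hn : 2 ≤ n) (hg : d.g = D.g)
    {R : ℝ} (hR : d.a ≤ R) (hsub : {x : E n | R ≤ ‖x‖} ⊆ D.Ω) :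
    D.area {x : E n | R ≤ ‖x‖} ≤ ENNReal.ofReal (omega n * (d.f R * R) ^ (n - 1)) := by
  unfold Exterior.area
  refine iSup₂_le fun X hX => ?_
  apply ENNReal.ofReal_le_ofReal
  obtain ⟨hX1, hX2, hX3⟩ := hX
  rw [← hg] at hX3 ⊢
  refine d.test_integral_le hn hX1 hX2 hR ?_
  intro x hx
  exact hX3 x (hsub hx.ge)

end Vale.Agent.P366
end
end
end
end

section

section

section

open MeasureTheory Metric Filter Topology Set
open scoped BigOperators ENNReal ContDiff

noncomputable section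
namespace Vale.Agent.P366

variable {n : ℕ}

lemma tendsto_mul_of_decay {u : ℝ → ℝ} {q C : ℝ} (hq : 0 < q)
    (hu : ∀ᶠ R in atTop, |u R| ≤ C * R ^ (-q - 1)) :
    Tendsto (fun R => R * u R) atTop (𝓝 0) := by
  have h1 : Tendsto (fun R : ℝ => C * R ^ (-q)) atTop (𝓝 0) := by
    have := (tendsto_rpow_neg_atTop hq).const_mul C
    simpa using this
  refine squeeze_zero_norm' ?_ h1
  filter_upwards [hu, eventually_gt_atTop 0] with R hR hR0
  rw [Real.norm_eq_abs, abs_mul, abs_of_pos hR0]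
  calc R * |u R| ≤ R * (C * R ^ (-q - 1)) := mul_le_mul_of_nonneg_left hR hR0.le
    _ = C * (R ^ (-q - 1) * R) := by ring
    _ = C * R ^ (-q) := by
      rw [← Real.rpow_add_one hR0.ne']; ring_nf

lemma tendsto_sq_of_decay {u : ℝ → ℝ} {q C : ℝ} (hq : ((n : ℝ) - 2) / 2 < q)
    (hu : ∀ᶠ R in atTop, |u R| ≤ C * R ^ (-q - 1)) :
    Tendsto (fun R => R ^ n * u R ^ 2) atTop (𝓝 0) := by
  have h1 : Tendsto (fun R : ℝ => C ^ 2 * R ^ (-(2 * q + 2 - n))) atTop (𝓝 0) := by
    have := (tendsto_rpow_neg_atTop (show 0 < 2 * q + 2 - n by linarith only [hq])).const_mul (C ^ 2)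
    simpa only [neg_sub, mul_zero] using this
  refine squeeze_zero_norm' ?_ h1
  filter_upwards [hu, eventually_gt_atTop 0] with R hR hR0
  rw [Real.norm_eq_abs, abs_mul, abs_of_pos (by positivity : 0 < R ^ n), abs_pow]
  calc R ^ n * |u R| ^ 2 ≤ R ^ n * (C * R ^ (-q - 1)) ^ 2 := by
        gcongr
    _ = C ^ 2 * (R ^ (n : ℝ) * (R ^ (-q - 1) * R ^ (-q - 1))) := by
        rw [Real.rpow_natCast]; ring
    _ = C ^ 2 * R ^ (-(2 * q + 2 - n)) := by
        rw [← Real.rpow_add hR0, ← Real.rpow_add hR0]; ring_nf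

/-- unit coordinate direction -/
def e0 (hn : 2 ≤ n) : E n := EuclideanSpace.single ⟨0, by omega⟩ (1 : ℝ)

lemma norm_smul_e0 (hn : 2 ≤ n) {R : ℝ} (hR : 0 ≤ R) : ‖R • e0 hn‖ = R := by
  unfold e0
  rw [norm_smul, Real.norm_eq_abs, abs_of_nonneg hR]
  simp

lemma Nc_smul_e0 (hn : 2 ≤ n) {R : ℝ} (hR : 0 < R) :
    Nc ⟨0, by omega⟩ (R • e0 hn) = 1 := by
  unfold Nc
  rw [norm_smul_e0 hn hR.le]
  unfold e0
  simp only [PiLp.smul_apply, PiLp.single_eq_same, smul_eq_mul, mul_one, ne_eq, hR.ne', not_false_eq_true, div_self]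

namespace RotData

variable (d : RotData n) (D : Exterior n)

lemma lim_f' (hn : 2 ≤ n) (hg : d.g = D.g) {q C R0 : ℝ} (hq : 0 < q)
    (hAF : ∀ x : E n, R0 < ‖x‖ → ∀ i j : Fin n,
      |D.g x i j - (1 : Matrix (Fin n) (Fin n) ℝ) i j| ≤ C * ‖x‖ ^ (-q)) :
    Tendsto d.f atTop (𝓝 1) := by
  have h1 : Tendsto (fun R => d.f R ^ 2 - 1) atTop (𝓝 0) := by
    have h2 : Tendsto (fun R : ℝ => C * R ^ (-q)) atTop (𝓝 0) := by
      have := (tendsto_rpow_neg_atTop hq).const_mul C
      simpa using this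
    refine squeeze_zero_norm' ?_ h2
    filter_upwards [eventually_gt_atTop 0, eventually_gt_atTop R0, eventually_ge_atTop d.a]
      with R hR hR0 hRa
    have hnorm := norm_smul_e0 hn hR.le
    have h3 := hAF (R • e0 hn) (by rw [hnorm]; exact hR0) ⟨0, by omega⟩ ⟨0, by omega⟩
    have hc := d.conf (R • e0 hn) (by rw [hnorm]; exact hRa)
    rw [← hg, g_apply hc, hnorm] at h3
    simpa only [Real.norm_eq_abs, ge_iff_le, ↓reduceIte, mul_one, Matrix.one_apply_eq] using h3
  have h4 : Tendsto (fun R => d.f R ^ 2) atTop (𝓝 1) := by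
    have := h1.add_const 1
    simpa using this
  have h5 : Tendsto (fun R => √(d.f R ^ 2)) atTop (𝓝 1) := by
    have := h4.sqrt
    simpa only [Real.sqrt_one] using this
  refine h5.congr' ?_
  filter_upwards [eventually_ge_atTop d.a] with R hR
  exact Real.sqrt_sq (d.f_pos R (d.hba.trans_le hR)).le

lemma decay_l (hn : 2 ≤ n) (hg : d.g = D.g) {q C R0 : ℝ}
    (hf : Tendsto d.f atTop (𝓝 1))
    (hAF : ∀ x : E n, R0 < ‖x‖ → ∀ i j k : Fin n,
      |pd k (fun y => D.g y i j) x| ≤ C * ‖x‖ ^ (-q - 1)) :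
    ∀ᶠ R in atTop, |d.l R| ≤ C * R ^ (-q - 1) := by
  have h1 : ∀ᶠ R in atTop, 1 / 2 < d.f R ^ 2 := by
    have h2 : Tendsto (fun R => d.f R ^ 2) atTop (𝓝 1) := by
      have := hf.pow 2
      simpa using this
    exact h2.eventually (lt_mem_nhds (by norm_num))
  filter_upwards [eventually_gt_atTop 0, eventually_gt_atTop R0, eventually_ge_atTop d.a, h1]
      with R hR hR0 hRa hRf
  have hnorm := norm_smul_e0 hn hR.le
  have h3 := hAF (R • e0 hn) (by rw [hnorm]; exact hR0) ⟨0, by omega⟩ ⟨0, by omega⟩ ⟨0, by omega⟩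
  rw [← hg, d.pd_g (by rw [hnorm]; exact hRa), Nc_smul_e0 hn hR, hnorm] at h3
  simp only [if_true, mul_one] at h3
  rw [abs_mul, abs_of_pos (by positivity : 0 < 2 * d.f R ^ 2)] at h3
  have h4 : 0 ≤ |d.l R| := abs_nonneg _
  linarith only [mul_nonneg (mul_self_nonneg (1)) (sub_nonneg.2 h3), mul_nonneg (le_of_lt (sub_pos.2 hRf)) h4]

variable {kap : ℝ → ℝ} (hk : ∀ x : E n, d.a ≤ ‖x‖ → d.kE x = kap ‖x‖)

include hk in
lemma decay_kap (hn : 2 ≤ n) (hK : d.K = D.K) {q C R0 : ℝ}
    (hAF : ∀ x : E n, R0 < ‖x‖ → ∀ i j : Fin n, |D.K x i j| ≤ C * ‖x‖ ^ (-1 - q)) :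
    ∀ᶠ R in atTop, |kap R| ≤ ((n + n ^ 2 : ℝ) * C) * R ^ (-q - 1) := by
  filter_upwards [eventually_gt_atTop 0, eventually_gt_atTop R0, eventually_ge_atTop d.a]
      with R hR hR0 hRa
  have hnorm := norm_smul_e0 hn hR.le
  set x := R • e0 hn with hx
  have h1 : kap R = d.kE x := by rw [hk x (by rw [hnorm]; exact hRa), hnorm]
  have hx0 : x ≠ 0 := by
    intro h; rw [h, norm_zero] at hnorm; linarith only [hnorm, hR]
  have hb : ∀ i j, |d.K x i j| ≤ C * R ^ (-q - 1) := by
    intro i j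
    have := hAF x (by rw [hnorm]; exact hR0) i j
    rw [hK]
    rw [hnorm] at this
    rw [show -q - 1 = -1 - q by ring]
    exact this
  have hN : ∀ i, |Nc i x| ≤ 1 := by
    intro i
    have h2 := sum_Nc_sq hx0
    have h3 : Nc i x ^ 2 ≤ 1 := by
      rw [← h2]
      exact Finset.single_le_sum (f := fun i => Nc i x ^ 2) (fun j _ => sq_nonneg _)
        (Finset.mem_univ i)
    exact abs_le_one_iff_mul_self_le_one.mpr (by (refine le_of_not_gt fun hng_ => ?_; linarith only [mul_pos (sub_pos.2 hng_) (sub_pos.2 hng_), mul_nonneg (sub_nonneg.2 h3) (le_of_lt (sub_pos.2 hng_))]))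
  have hCR : 0 ≤ C * R ^ (-q - 1) := le_trans (abs_nonneg _) (hb ⟨0, by omega⟩ ⟨0, by omega⟩)
  rw [h1]
  unfold kE t KNN
  have h4 : |∑ i, d.K x i i| ≤ n * (C * R ^ (-q - 1)) := by
    refine (Finset.abs_sum_le_sum_abs _ _).trans ?_
    refine (Finset.sum_le_sum fun i _ => hb i i).trans ?_
    simp only [Finset.sum_const, Finset.card_univ, Fintype.card_fin, nsmul_eq_mul, Std.le_refl]
  have h5 : |∑ i, ∑ j, d.K x i j * Nc i x * Nc j x| ≤ (n : ℝ) ^ 2 * (C * R ^ (-q - 1)) := by
    refine (Finset.abs_sum_le_sum_abs _ _).trans ?_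
    have h6 : ∀ i ∈ (Finset.univ : Finset (Fin n)), |∑ j, d.K x i j * Nc i x * Nc j x| ≤
        n * (C * R ^ (-q - 1)) := by
      intro i _
      refine (Finset.abs_sum_le_sum_abs _ _).trans ?_
      have h7 : ∀ j ∈ (Finset.univ : Finset (Fin n)), |d.K x i j * Nc i x * Nc j x| ≤
          C * R ^ (-q - 1) := by
        intro j _
        rw [abs_mul, abs_mul]
        calc |d.K x i j| * |Nc i x| * |Nc j x| ≤ (C * R ^ (-q - 1)) * 1 * 1 := by
              gcongr
              · exact hb i j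
              · exact hN i
              · exact hN j
          _ = C * R ^ (-q - 1) := by ring
      refine (Finset.sum_le_sum h7).trans ?_
      simp only [Finset.sum_const, Finset.card_univ, Fintype.card_fin, nsmul_eq_mul, Std.le_refl]
    refine (Finset.sum_le_sum h6).trans ?_
    simp only [Finset.sum_const, Finset.card_univ, Fintype.card_fin, nsmul_eq_mul]
    ring_nf
    rfl
  calc |∑ i, d.K x i i - ∑ i, ∑ j, d.K x i j * Nc i x * Nc j x|
      ≤ |∑ i, d.K x i i| + |∑ i, ∑ j, d.K x i j * Nc i x * Nc j x| := abs_sub _ _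
    _ ≤ n * (C * R ^ (-q - 1)) + (n : ℝ) ^ 2 * (C * R ^ (-q - 1)) := add_le_add h4 h5
    _ = _ := by ring

/-- The ADM energy integrand on round spheres. -/
lemma energy_val (hn : 2 ≤ n) {R : ℝ} (hR : d.a < R) :
    1 / (2 * ((n : ℝ) - 1) * omega n) * sphInt R (fun x =>
      ∑ i, ∑ j, (pd j (fun y => d.g y i j) x - pd i (fun y => d.g y j j) x) * (x i / ‖x‖)) =
      -(R ^ (n - 1) * d.f R ^ 2 * d.l R) := by
  have : Nonempty (Fin n) := ⟨⟨0, by omega⟩⟩
  have : Nontrivial (E n) := inferInstance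
  have hR0 : 0 < R := d.a_pos.trans hR
  have hn1 : (n : ℝ) - 1 ≠ 0 := by
    have : (2 : ℝ) ≤ n := by exact_mod_cast hn
    intro h; linarith only [h, this]
  have hω : omega n ≠ 0 := omega_pos'.ne'
  have h1 : sphInt R (fun x =>
      ∑ i, ∑ j, (pd j (fun y => d.g y i j) x - pd i (fun y => d.g y j j) x) * (x i / ‖x‖)) =
      R ^ (n - 1) * sphI (fun _ : E n => -(2 * ((n : ℝ) - 1) * d.f R ^ 2 * d.l R)) R := by
    unfold sphInt
    congr 1
    refine sphI_congr (u := fun x : E n => ∑ i, ∑ j, (pd j (fun y => d.g y i j) x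
      - pd i (fun y => d.g y j j) x) * (x i / ‖x‖)) hR0.le fun x hx => ?_
    have hx0 : x ≠ 0 := by
      intro h; rw [h, norm_zero] at hx; linarith only [hx, hR0]
    have hN := sum_Nc_sq hx0
    have h2 : ∀ i, ∑ j, (pd j (fun y => d.g y i j) x - pd i (fun y => d.g y j j) x)
        * (x i / ‖x‖) = -(2 * ((n : ℝ) - 1) * d.f R ^ 2 * d.l R) * Nc i x ^ 2 := by
      intro i
      have h3 : ∀ j, (pd j (fun y => d.g y i j) x - pd i (fun y => d.g y j j) x)
        * (x i / ‖x‖) = (if i = j then 2 * d.f R ^ 2 * (d.l R * Nc j x) * Nc i x else 0)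
          - 2 * d.f R ^ 2 * (d.l R * Nc i x) * Nc i x := by
        intro j
        rw [d.pd_g (by rw [hx]; exact hR.le), d.pd_g (by rw [hx]; exact hR.le), hx]
        have : x i / R = Nc i x := by unfold Nc; rw [hx]
        rw [this]
        simp only [if_true, mul_one]
        split_ifs <;> ring
      simp only [h3]
      rw [Finset.sum_sub_distrib]
      simp only [Finset.sum_ite_eq, Finset.mem_univ, if_true, Finset.sum_const, Finset.card_univ,
        Fintype.card_fin, nsmul_eq_mul]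
      ring
    simp only [h2]
    rw [← Finset.mul_sum, hN, mul_one]
  rw [h1, sphI_const]
  field_simp

/-- The limit of the quasi-local masses. -/
theorem adm_M (hn : 2 ≤ n) (hg : d.g = D.g) {q C1 C2 : ℝ} (hq : ((n : ℝ) - 2) / 2 < q)
    (hf : Tendsto d.f atTop (𝓝 1))
    (hl : ∀ᶠ R in atTop, |d.l R| ≤ C1 * R ^ (-q - 1))
    (hkap : ∀ᶠ R in atTop, |kap R| ≤ C2 * R ^ (-q - 1)) {m : ℝ} (hm : D.IsEnergy m) :
    Tendsto (fun R => (R * d.f R) ^ (n - 2) * (1 - R ^ 2 * (d.l R + 1 / R) ^ 2 +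
      R ^ 2 * (kap R / (((n : ℝ) - 1) * d.f R)) ^ 2) / 2) atTop (𝓝 m) := by
  have hn1 : (n : ℝ) - 1 ≠ 0 := by
    have : (2 : ℝ) ≤ n := by exact_mod_cast hn
    intro h; linarith only [h, this]
  have hE : Tendsto (fun R => -(R ^ (n - 1) * d.f R ^ 2 * d.l R)) atTop (𝓝 m) := by
    refine hm.congr' ?_
    filter_upwards [eventually_gt_atTop d.a] with R hR
    rw [← hg]
    exact d.energy_val hn hR
  have h1 := tendsto_sq_of_decay hq hl
  have h2 := tendsto_sq_of_decay hq hkap
  have h3 : Tendsto (fun R => d.f R ^ (n - 2) * ((-(R ^ (n - 1) * d.f R ^ 2 * d.l R)) / d.f R ^ 2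
      - (R ^ n * d.l R ^ 2) / 2 + (R ^ n * kap R ^ 2) / (2 * ((n : ℝ) - 1) ^ 2 * d.f R ^ 2)))
      atTop (𝓝 (1 ^ (n - 2) * (m / 1 ^ 2 - 0 / 2 + 0 / (2 * ((n : ℝ) - 1) ^ 2 * 1 ^ 2)))) := by
    refine (hf.pow (n - 2)).mul (((hE.div (hf.pow 2) (by norm_num)).sub (h1.div_const 2)).add
      (h2.div ((hf.pow 2).const_mul (2 * ((n : ℝ) - 1) ^ 2)) ?_))
    have : (0 : ℝ) < ((n : ℝ) - 1) ^ 2 := by (clear * - hn1; positivity)
    (clear * - hn1; positivity)
  simp only [one_pow, div_one, zero_div, sub_zero, add_zero, one_mul] at h3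
  refine h3.congr' ?_
  filter_upwards [eventually_gt_atTop d.a] with R hR
  have hR0 : 0 < R := d.a_pos.trans hR
  have hfR : 0 < d.f R := d.f_pos R (d.hba.trans hR)
  obtain ⟨k, rfl⟩ : ∃ k, n = k + 2 := ⟨n - 2, by omega⟩
  have e1 : k + 2 - 1 = k + 1 := by omega
  have e2 : k + 2 - 2 = k := by omega
  rw [e1, e2]
  have hR0' : R ≠ 0 := hR0.ne'
  have hfR' : d.f R ≠ 0 := hfR.ne'
  field_simp
  ring

include hk in
/-- The ADM momentum integrand on round spheres. -/
lemma momentum_val (hn : 2 ≤ n) {R : ℝ} (hR : d.a < R) (i : Fin n) :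
    1 / (((n : ℝ) - 1) * omega n) * sphInt R (fun x =>
      ∑ j, momT d.g d.K x i j * (x j / ‖x‖)) = R ^ (n - 1) / ((n : ℝ) - 1) * d.xm i R := by
  have : Nonempty (Fin n) := ⟨⟨0, by omega⟩⟩
  have : Nontrivial (E n) := inferInstance
  have hR0 : 0 < R := d.a_pos.trans hR
  have hRb : d.b < R := d.hba.trans hR
  have hn1 : (n : ℝ) - 1 ≠ 0 := by
    have : (2 : ℝ) ≤ n := by exact_mod_cast hn
    intro h; linarith only [h, this]
  have hω : omega n ≠ 0 := omega_pos'.ne'
  have h1 : sphInt R (fun x => ∑ j, momT d.g d.K x i j * (x j / ‖x‖)) =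
      R ^ (n - 1) * sphI (fun x => d.Xc i x - kap R * Nc i x) R := by
    unfold sphInt
    congr 1
    refine sphI_congr (u := fun x : E n => ∑ j, momT d.g d.K x i j * (x j / ‖x‖)) hR0.le
      fun x hx => ?_
    have hxa : d.a < ‖x‖ := by rw [hx]; exact hR
    have h2 : ∀ j, momT d.g d.K x i j * (x j / ‖x‖) = piE d.K i j x * Nc j x := by
      intro j
      rw [momT_of (d.f_pos _ (d.b_lt hxa.le)).ne' (d.conf x hxa.le)]
      rfl
    simp only [h2]
    rw [d.sum_piE_N, hk x hxa.le, hx]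
  rw [h1, sphI_sub (u := d.Xc i) (v := fun x => kap R * Nc i x) d.hb hRb (d.Xc_cont i)
    (continuousOn_const.mul (d.contOn_Nc i)), sphI_const_mul, sphI_Nc hn i hR0]
  unfold xm av
  field_simp
  ring

include hk in
/-- The limit of the quasi-local momenta. -/
theorem adm_P (hn : 3 ≤ n) (hg : d.g = D.g) (hK : d.K = D.K)
    (hf : Tendsto d.f atTop (𝓝 1)) {P : E n} (hP : D.IsMomentum P) (i : Fin n) :
    Tendsto (fun R => (R * d.f R) ^ (n - 2) * R / d.f R * d.xm i R / ((n : ℝ) - 1)) atTop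
      (𝓝 (P i)) := by
  have hn1 : (n : ℝ) - 1 ≠ 0 := by
    have : (3 : ℝ) ≤ n := by exact_mod_cast hn
    intro h; linarith only [h, this]
  have h1 : Tendsto (fun R => R ^ (n - 1) / ((n : ℝ) - 1) * d.xm i R) atTop (𝓝 (P i)) := by
    refine (hP i).congr' ?_
    filter_upwards [eventually_gt_atTop d.a] with R hR
    rw [← hg, ← hK]
    exact d.momentum_val hk (by omega) hR i
  have h2 := (hf.pow (n - 3)).mul h1
  simp only [one_pow, one_mul] at h2
  refine h2.congr' ?_
  filter_upwards [eventually_gt_atTop d.a] with R hR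
  have hR0 : 0 < R := d.a_pos.trans hR
  have hfR : 0 < d.f R := d.f_pos R (d.hba.trans hR)
  obtain ⟨k, rfl⟩ : ∃ k, n = k + 3 := ⟨n - 3, by omega⟩
  have e1 : k + 3 - 1 = k + 2 := by omega
  have e2 : k + 3 - 2 = k + 1 := by omega
  have e3 : k + 3 - 3 = k := by omega
  rw [e1, e2, e3]
  have hR0' : R ≠ 0 := hR0.ne'
  have hfR' : d.f R ≠ 0 := hfR.ne'
  field_simp
  ring

end RotData

end Vale.Agent.P366
end
end
end
end

section

section

section

open MeasureTheory Metric Filter Topology Set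
open scoped BigOperators ENNReal ContDiff

noncomputable section
namespace Vale.Agent.P366

variable {n : ℕ}

/-- index zero -/
def i0 (hn : 2 ≤ n) : Fin n := ⟨0, by omega⟩

lemma smul_e0_contDiff (hn : 2 ≤ n) : ContDiff ℝ ∞ (fun r : ℝ => r • e0 hn) :=
  contDiff_id.smul contDiff_const

lemma smul_e0_mem (hn : 2 ≤ n) {b r : ℝ} (hb : 0 ≤ b) (hr : b < r) :
    r • e0 hn ∈ {x : E n | b < ‖x‖} := by
  show b < ‖r • e0 hn‖
  rw [norm_smul_e0 hn (hb.trans hr.le)]
  exact hr

namespace Exterior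

variable (D : Exterior n)

/-- The working context of an exterior whose metric is conformal with radial factor outside the
ball of radius `R1`. -/
def toRot (hn : 2 ≤ n) {b R1 : ℝ} (hb0 : 0 ≤ b) (hbR : b < R1) (hbU : {x : E n | b < ‖x‖} ⊆ D.U)
    {φ : ℝ → ℝ}
    (hφ : ∀ x : E n, R1 ≤ ‖x‖ → D.g x = φ ‖x‖ • (1 : Matrix (Fin n) (Fin n) ℝ)) : RotData n where
  g := D.g
  K := D.K
  b := b
  a := R1
  f := fun r => √(D.g (r • e0 hn) (i0 hn) (i0 hn))
  hb := hb0
  hba := hbR
  g_smooth := fun i j => (D.g_smooth i j).mono hbU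
  K_smooth := fun i j => (D.K_smooth i j).mono hbU
  K_symm := fun x hx => D.K_symm x (hbU hx)
  f_smooth := by
    have h1 : ContDiffOn ℝ ∞ (fun r : ℝ => D.g (r • e0 hn) (i0 hn) (i0 hn)) (Ioi b) :=
      ((D.g_smooth (i0 hn) (i0 hn)).mono hbU).comp (smul_e0_contDiff hn).contDiffOn
        (fun r hr => smul_e0_mem hn hb0 hr)
    refine h1.sqrt ?_
    intro r hr
    exact ((D.g_pos _ (hbU (smul_e0_mem hn hb0 hr))).diag_pos).ne'
  f_pos := fun r hr =>
    Real.sqrt_pos.mpr ((D.g_pos _ (hbU (smul_e0_mem hn hb0 hr))).diag_pos)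
  conf := by
    intro x hx
    have hx0 : 0 ≤ ‖x‖ := norm_nonneg x
    have h1 := hφ x hx
    have hn' : ‖‖x‖ • e0 hn‖ = ‖x‖ := norm_smul_e0 hn hx0
    have h2 := hφ (‖x‖ • e0 hn) (by rw [hn']; exact hx)
    rw [hn'] at h2
    have hbx : b < ‖x‖ := lt_of_lt_of_le hbR hx
    have h3 : 0 < D.g (‖x‖ • e0 hn) (i0 hn) (i0 hn) :=
      (D.g_pos _ (hbU (smul_e0_mem hn hb0 hbx))).diag_pos
    rw [Real.sq_sqrt h3.le, h2]
    simp [h1]

end Exterior

namespace RotData

variable (d : RotData n)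

lemma kE_smooth : ContDiffOn ℝ ∞ d.kE {x | d.b < ‖x‖} := by
  unfold kE t KNN
  refine (ContDiffOn.sum fun i _ => d.K_smooth i i).sub ?_
  refine ContDiffOn.sum fun i _ => ContDiffOn.sum fun j _ => ?_
  exact ((d.K_smooth i j).mul (d.Nc_smooth i)).mul (d.Nc_smooth j)

/-- the sphere trace along a ray -/
def kray (hn : 2 ≤ n) (r : ℝ) : ℝ := d.kE (r • e0 hn)

lemma kray_diff (hn : 2 ≤ n) {r : ℝ} (hr : d.b < r) : DifferentiableAt ℝ (d.kray hn) r := by
  have h1 : ContDiffOn ℝ ∞ (d.kray hn) (Ioi d.b) :=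
    d.kE_smooth.comp (smul_e0_contDiff hn).contDiffOn (fun r hr => smul_e0_mem hn d.hb hr)
  exact (h1.differentiableOn (by norm_num)).differentiableAt (isOpen_Ioi.mem_nhds hr)

lemma kray_spec (hn : 2 ≤ n)
    (hc : ∀ x y : E n, d.a ≤ ‖x‖ → ‖x‖ = ‖y‖ → trS d.g d.K norm x = trS d.g d.K norm y)
    {x : E n} (hx : d.a ≤ ‖x‖) : d.kE x = d.kray hn ‖x‖ := by
  have hn' : ‖‖x‖ • e0 hn‖ = ‖x‖ := norm_smul_e0 hn (norm_nonneg x)
  have h1 := hc x (‖x‖ • e0 hn) hx hn'.symm
  rw [d.trS_norm hx, d.trS_norm (by rw [hn']; exact hx), hn'] at h1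
  have hf := d.f_pos _ (d.b_lt hx)
  have h2 : (d.f ‖x‖ ^ 2)⁻¹ ≠ 0 := by positivity
  exact mul_left_cancel₀ h2 h1

end RotData

end Vale.Agent.P366
end
end
end
end

section

section

section

open MeasureTheory Metric Filter Topology Set Matrix
open scoped BigOperators ENNReal ContDiff

noncomputable section
namespace Vale.Agent.P366

variable {n : ℕ}

lemma quad_eq (M : Matrix (Fin n) (Fin n) ℝ) (v : Fin n → ℝ) :
    star v ⬝ᵥ (M *ᵥ v) = ∑ i, ∑ j, M i j * v i * v j := by
  simp only [dotProduct, mulVec, Pi.star_apply, star_trivial, Finset.mul_sum]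
  refine Finset.sum_congr rfl fun i _ => Finset.sum_congr rfl fun j _ => by ring

/-- Positive definiteness is an open condition for continuous symmetric matrix fields. -/
theorem isOpen_posDef {X : Type*} [TopologicalSpace X] {g : X → Matrix (Fin n) (Fin n) ℝ}
    (hc : ∀ i j, Continuous fun x => g x i j) (hs : ∀ x, (g x).IsSymm) :
    IsOpen {x | (g x).PosDef} := by
  rw [isOpen_iff_mem_nhds]
  intro x0 hx0
  have hpos0 : (g x0).PosDef := hx0
  set Φ : X × E n → ℝ := fun p => ∑ i, ∑ j, g p.1 i j * p.2 i * p.2 j with hΦ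
  have hcoord : ∀ i : Fin n, Continuous fun p : X × E n => p.2 i := fun i =>
    (EuclideanSpace.proj (𝕜 := ℝ) i).continuous.comp continuous_snd
  have hΦc : Continuous Φ := by
    refine continuous_finsetSum _ fun i _ => continuous_finsetSum _ fun j _ => ?_
    exact (((hc i j).comp continuous_fst).mul (hcoord i)).mul (hcoord j)
  have hU : IsOpen {p : X × E n | 0 < Φ p} := isOpen_lt continuous_const hΦc
  have hsub : ({x0} : Set X) ×ˢ sphere (0 : E n) 1 ⊆ {p : X × E n | 0 < Φ p} := by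
    rintro ⟨x, v⟩ ⟨hx, hv⟩
    have hx' : x = x0 := hx
    subst hx'
    have hv1 : ‖v‖ = 1 := by simpa only [mem_sphere_iff_norm, sub_zero] using hv
    have hv0 : (fun i => v i) ≠ 0 := by
      intro h
      have : v = 0 := by
        ext i; exact congrFun h i
      rw [this, norm_zero] at hv1
      norm_num at hv1
    have := hpos0.dotProduct_mulVec_pos hv0
    rw [quad_eq] at this
    exact this
  obtain ⟨V, W, hV, -, hxV, hSW, hVW⟩ := generalized_tube_lemma isCompact_singleton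
    (isCompact_sphere (0 : E n) 1) hU hsub
  have hx0V : x0 ∈ V := hxV rfl
  filter_upwards [hV.mem_nhds hx0V] with x hx
  refine PosDef.of_dotProduct_mulVec_pos (by
    rw [IsHermitian, conjTranspose_eq_transpose_of_trivial]; exact hs x) ?_
  intro v hv
  rw [quad_eq]
  set w : E n := WithLp.toLp 2 v with hw
  have hw0 : w ≠ 0 := by
    intro h
    apply hv
    funext i
    have : w i = 0 := by rw [h]; rfl
    exact this
  have hwn : 0 < ‖w‖ := norm_pos_iff.mpr hw0
  have h1 : Φ (x, ‖w‖⁻¹ • w) > 0 := by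
    apply hVW
    refine ⟨hx, hSW ?_⟩
    simp only [mem_sphere_iff_norm, sub_zero, norm_smul, norm_inv, norm_norm]
    exact inv_mul_cancel₀ hwn.ne'
  have h2 : Φ (x, ‖w‖⁻¹ • w) = ‖w‖⁻¹ ^ 2 * ∑ i, ∑ j, g x i j * v i * v j := by
    simp only [hΦ]
    rw [Finset.mul_sum]
    refine Finset.sum_congr rfl fun i _ => ?_
    rw [Finset.mul_sum]
    refine Finset.sum_congr rfl fun j _ => ?_
    simp only [PiLp.smul_apply, smul_eq_mul]
    show g x i j * (‖w‖⁻¹ * v i) * (‖w‖⁻¹ * v j) = ‖w‖⁻¹ ^ 2 * (g x i j * v i * v j)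
    ring
  rw [h2] at h1
  have h3 : 0 < ‖w‖⁻¹ ^ 2 := by positivity
  exact (mul_pos_iff_of_pos_left h3).mp h1

end Vale.Agent.P366
end
end
end
end

section

section

section

open MeasureTheory Metric Filter Topology Set
open scoped ContDiff ENNReal

noncomputable section
namespace Vale.Agent.P366

variable {n : ℕ}

namespace RotData

variable (d : RotData n)

variable {kap : ℝ → ℝ} (hk : ∀ x : E n, d.a ≤ ‖x‖ → d.kE x = kap ‖x‖)

include hk in
/-- The second moment of the radial momentum constraint. -/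
lemma momE [Nontrivial (E n)] (hn : 2 ≤ n) (p q : Fin n) {R : ℝ} (hR : d.a < R)
    (hkd : ∀ r, d.a < r → DifferentiableAt ℝ kap r) :
    (d.f R) ^ 2 * av (fun x => d.JN x * (Nc p x * Nc q x)) R =
    ((n : ℝ) - 1) * (d.l R + 1 / R) * av (fun x => d.KNN x * (Nc p x * Nc q x)) R
      - ((1 / R - d.l R) * kap R + deriv kap R) * (if p = q then 1 / (n : ℝ) else 0)
      - (1 / R) * av (fun x => d.Xc p x * Nc q x + d.Xc q x * Nc p x) R := by
  have hR0 : 0 < R := d.a_pos.trans hR
  have hRb : d.b < R := d.hba.trans hR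
  have hω : omega n ≠ 0 := omega_pos'.ne'
  have hn0 : (n : ℝ) ≠ 0 := by positivity
  set δ : ℝ := if p = q then 1 else 0 with hδ
  set X : Fin n → E n → ℝ := fun j x => x p * (x q * x j) with hX
  set W : Fin n → E n → ℝ := fun i y => ∑ j, d.Sig i j y * X j y with hW
  have hXs : ∀ j, ContDiff ℝ ∞ (X j) := fun j =>
    (contDiff_coord p).mul ((contDiff_coord q).mul (contDiff_coord j))
  have hWs : ∀ i, ContDiffOn ℝ 1 (W i) {x | d.b < ‖x‖} := fun i =>
    ContDiffOn.sum fun j _ => ((d.Sig_smooth i j).of_le (by norm_num)).mul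
      ((hXs j).of_le (by norm_num)).contDiffOn
  have hflux : ∀ r, d.a < r → flux W r = -(omega n * δ / n * (r ^ (n + 2) * d.f r ^ (n - 2) * kap r)) := by
    intro r hr
    have hr0 : 0 < r := d.a_pos.trans hr
    have hrb : d.b < r := d.hba.trans hr
    have h1 : sphI (fun x => ∑ i, W i x * (x i / ‖x‖)) r =
        (-(d.f r ^ (n - 2) * r ^ 3 * kap r)) * sphI (fun x : E n => Nc p x * Nc q x) r := by
      refine sphI_radial_mul (v := fun _ => 0) hr0.le fun x hx => ?_
      have hxb : d.b < ‖x‖ := by rw [hx]; exact hrb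
      have hx0 := d.ne_zero hxb
      rw [d.nrm_Sig hxb]
      have h2 : ∑ j, (d.Xc j x - d.kE x * Nc j x) * X j x =
          - (‖x‖ ^ 3 * d.kE x) * (Nc p x * Nc q x) := by
        have h3 : ∀ j, (d.Xc j x - d.kE x * Nc j x) * X j x =
            ‖x‖ ^ 3 * (Nc p x * Nc q x) * (Nc j x * d.Xc j x)
              - ‖x‖ ^ 3 * (Nc p x * Nc q x) * d.kE x * Nc j x ^ 2 := by
          intro j
          simp only [hX]
          rw [coord_eq hx0 p, coord_eq hx0 q, coord_eq hx0 j]
          ring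
        simp only [h3]
        rw [Finset.sum_sub_distrib, ← Finset.mul_sum, ← Finset.mul_sum, d.Xc_tan hxb,
          sum_Nc_sq hx0]
        ring
      rw [h2, hk x (by rw [hx]; exact hr.le), hx]
      ring
    unfold flux
    rw [h1, sphI_Nc_Nc hn p q hr0]
    have : r ^ (n + 2) = r ^ (n - 1) * r ^ 3 := by rw [← pow_add]; congr 1; omega
    rw [this]
    ring
  have hder := flux_hasDerivAt d.hb hWs hRb
  have hfR := d.f_pos R hRb
  have hdvg : sphI (dvg W) R = (d.f R ^ (n - 2) * R ^ 2) * sphI (fun x =>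
      R * d.f R ^ 2 * (d.JN x * (Nc p x * Nc q x)) + ((d.Xc p x * Nc q x + d.Xc q x * Nc p x) -
        (((n : ℝ) - 1) * (R * d.l R + 1)) * (d.KNN x * (Nc p x * Nc q x)) -
        ((((n : ℝ) - 1) * (R * d.l R + 1)) * kap R + 2 * kap R) * (Nc p x * Nc q x))) R := by
    refine sphI_radial_mul (v := fun _ => 0) hR0.le fun x hx => ?_
    have hxa : d.a < ‖x‖ := by rw [hx]; exact hR
    have hxb : d.b < ‖x‖ := by rw [hx]; exact hRb
    have hx0 := d.ne_zero hxb
    rw [d.dvg_Sig hn hxa (fun j => (hXs j).differentiable (by norm_num) x)]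
    have h1 : ∑ j, X j x * (d.f ‖x‖ ^ 2 * d.Jx j x
        - ((n : ℝ) - 1) * d.t x * (d.l ‖x‖ * Nc j x)) =
        ‖x‖ ^ 3 * (Nc p x * Nc q x) * d.f ‖x‖ ^ 2 * d.JN x
        - ‖x‖ ^ 3 * (Nc p x * Nc q x) * (((n : ℝ) - 1) * d.t x * d.l ‖x‖) := by
      have h3 : ∀ j, X j x * (d.f ‖x‖ ^ 2 * d.Jx j x
        - ((n : ℝ) - 1) * d.t x * (d.l ‖x‖ * Nc j x)) =
          (‖x‖ ^ 3 * (Nc p x * Nc q x) * d.f ‖x‖ ^ 2) * (Nc j x * d.Jx j x) -
          (‖x‖ ^ 3 * (Nc p x * Nc q x) * (((n : ℝ) - 1) * d.t x * d.l ‖x‖)) * Nc j x ^ 2 := by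
        intro j
        simp only [hX]
        rw [coord_eq hx0 p, coord_eq hx0 q, coord_eq hx0 j]
        ring
      simp only [h3]
      rw [Finset.sum_sub_distrib, ← Finset.mul_sum, ← Finset.mul_sum, sum_Nc_sq hx0]
      unfold JN
      ring
    have h4 : ∀ m, ∑ j, piE d.K m j x * x j = ‖x‖ * (d.Xc m x - d.kE x * Nc m x) := by
      intro m
      rw [← d.sum_piE_N m, Finset.mul_sum]
      exact Finset.sum_congr rfl fun j _ => by rw [coord_eq hx0 j]; ring
    have h2 : ∑ i, ∑ j, piE d.K i j x * pd i (X j) x =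
        ‖x‖ ^ 2 * (Nc q x * (d.Xc p x - d.kE x * Nc p x) + Nc p x * (d.Xc q x - d.kE x * Nc q x)
          - Nc p x * Nc q x * (((n : ℝ) - 1) * d.t x)) := by
      have h3 : ∀ i j, piE d.K i j x * pd i (X j) x =
          (if i = p then x q * (piE d.K i j x * x j) else 0) +
          ((if i = q then x p * (piE d.K i j x * x j) else 0) +
          (if i = j then (x p * x q) * piE d.K i j x else 0)) := by
        intro i j
        simp only [hX]
        have dp : ∀ m : Fin n, DifferentiableAt ℝ (fun x : E n => x m) x := fun m =>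
          (contDiff_coord (m := 1) m).differentiable (by norm_num) x
        have dqj : DifferentiableAt ℝ (fun x : E n => x q * x j) x := (dp q).mul (dp j)
        rw [pd_mul (f := fun x : E n => x p) (h := fun x : E n => x q * x j) (dp p) dqj,
          pd_mul (dp q) (dp j), pd_coord, pd_coord, pd_coord]
        split_ifs <;> ring
      simp only [h3, Finset.sum_add_distrib]
      rw [Finset.sum_comm (f := fun i j => if i = p then x q * (piE d.K i j x * x j) else 0),
        Finset.sum_comm (f := fun i j => if i = q then x p * (piE d.K i j x * x j) else 0)]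
      simp only [Finset.sum_ite_eq', Finset.mem_univ, if_true, Finset.sum_ite_eq]
      rw [← Finset.mul_sum, ← Finset.mul_sum, ← Finset.mul_sum, d.sum_piE_diag, h4, h4,
        coord_eq hx0 p, coord_eq hx0 q]
      ring
    have ht : d.t x = d.KNN x + kap R := by
      have := hk x (by rw [hx]; exact hR.le)
      rw [hx] at this
      rw [← this]; unfold kE; ring
    rw [h1, h2, hk x (by rw [hx]; exact hR.le), ht, hx]
    ring
  have c0 : ContinuousOn (fun x : E n => Nc p x * Nc q x) {x | d.b < ‖x‖} :=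
    (d.contOn_Nc p).mul (d.contOn_Nc q)
  have c1 : ContinuousOn (fun x => d.JN x * (Nc p x * Nc q x)) {x | d.b < ‖x‖} :=
    d.JN_cont.mul c0
  have c2 : ContinuousOn (fun x => d.KNN x * (Nc p x * Nc q x)) {x | d.b < ‖x‖} :=
    d.KNN_cont.mul c0
  have c3 : ContinuousOn (fun x => d.Xc p x * Nc q x + d.Xc q x * Nc p x) {x | d.b < ‖x‖} :=
    ((d.Xc_cont p).mul (d.contOn_Nc q)).add ((d.Xc_cont q).mul (d.contOn_Nc p))
  rw [sphI_add (u := fun x => R * d.f R ^ 2 * (d.JN x * (Nc p x * Nc q x)))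
    (v := fun x => (d.Xc p x * Nc q x + d.Xc q x * Nc p x) -
        (((n : ℝ) - 1) * (R * d.l R + 1)) * (d.KNN x * (Nc p x * Nc q x)) -
        ((((n : ℝ) - 1) * (R * d.l R + 1)) * kap R + 2 * kap R) * (Nc p x * Nc q x))
    d.hb hRb (continuousOn_const.mul c1)
    ((c3.sub (continuousOn_const.mul c2)).sub (continuousOn_const.mul c0)),
    sphI_sub (u := fun x => (d.Xc p x * Nc q x + d.Xc q x * Nc p x) -
        (((n : ℝ) - 1) * (R * d.l R + 1)) * (d.KNN x * (Nc p x * Nc q x)))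
      (v := fun x => ((((n : ℝ) - 1) * (R * d.l R + 1)) * kap R + 2 * kap R) * (Nc p x * Nc q x))
      d.hb hRb (c3.sub (continuousOn_const.mul c2)) (continuousOn_const.mul c0),
    sphI_sub (u := fun x => d.Xc p x * Nc q x + d.Xc q x * Nc p x)
      (v := fun x => (((n : ℝ) - 1) * (R * d.l R + 1)) * (d.KNN x * (Nc p x * Nc q x)))
      d.hb hRb c3 (continuousOn_const.mul c2),
    sphI_const_mul, sphI_const_mul, sphI_const_mul, sphI_Nc_Nc hn p q hR0] at hdvg
  rw [hdvg] at hder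
  -- derivative of the explicit flux
  have hA : HasDerivAt (fun r => -(omega n * δ / n * (r ^ (n + 2) * d.f r ^ (n - 2) * kap r)))
      (-(omega n * δ / n * (R ^ (n + 1) * d.f R ^ (n - 2) *
        (((n : ℝ) + 2 + ((n : ℝ) - 2) * (R * d.l R)) * kap R + R * deriv kap R)))) R := by
    have h1 : HasDerivAt (fun r : ℝ => r ^ (n + 2)) (((n + 2 : ℕ) : ℝ) * R ^ (n + 1)) R :=
      hasDerivAt_pow _ _
    have h2 : HasDerivAt (fun r => d.f r ^ (n - 2))
        (((n - 2 : ℕ) : ℝ) * d.f R ^ (n - 2 - 1) * deriv d.f R) R :=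
      (d.f_diff hRb).hasDerivAt.pow _
    have h3 := (((h1.mul h2).mul (hkd R hR).hasDerivAt).const_mul (omega n * δ / n)).neg
    refine h3.congr_deriv ?_
    have e2 : ((n - 2 : ℕ) : ℝ) * d.f R ^ (n - 2 - 1) * deriv d.f R =
        ((n : ℝ) - 2) * d.l R * d.f R ^ (n - 2) := by
      rw [d.deriv_f hRb]
      have : ((n - 2 : ℕ) : ℝ) = (n : ℝ) - 2 := by rw [Nat.cast_sub hn]; norm_num
      rw [this]
      rcases Nat.lt_or_ge 2 n with h | h
      · have h4 : d.f R ^ (n - 2) = d.f R ^ (n - 2 - 1) * d.f R := by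
          rw [← pow_succ]; congr 1; omega
        rw [h4]; ring
      · have : n = 2 := le_antisymm h hn
        subst this
        norm_num
    have e3 : R ^ (n + 2) = R ^ (n + 1) * R := by rw [← pow_succ]
    have e4 : ((n + 2 : ℕ) : ℝ) = (n : ℝ) + 2 := by push_cast; ring
    simp only [Pi.mul_apply]
    rw [e2, e3, e4]
    ring
  have hder2 : HasDerivAt (flux W) (-(omega n * δ / n * (R ^ (n + 1) * d.f R ^ (n - 2) *
        (((n : ℝ) + 2 + ((n : ℝ) - 2) * (R * d.l R)) * kap R + R * deriv kap R)))) R := by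
    refine hA.congr_of_eventuallyEq ?_
    filter_upwards [isOpen_Ioi.mem_nhds hR] with r hr
    exact hflux r hr
  have h4 := hder.unique hder2
  have hRp : R ^ (n + 1) * d.f R ^ (n - 2) ≠ 0 := by (clear * - hR0 hfR; positivity)
  have hpow : R ^ (n + 1) = R ^ (n - 1) * R ^ 2 := by rw [← pow_add]; congr 1; omega
  set SJ := sphI (fun x => d.JN x * (Nc p x * Nc q x)) R with hSJ
  set SK := sphI (fun x => d.KNN x * (Nc p x * Nc q x)) R with hSK
  set SX := sphI (fun x => d.Xc p x * Nc q x + d.Xc q x * Nc p x) R with hSX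
  have h5 : R ^ (n + 1) * d.f R ^ (n - 2) * (R * d.f R ^ 2 * SJ + (SX -
      (((n : ℝ) - 1) * (R * d.l R + 1)) * SK -
      ((((n : ℝ) - 1) * (R * d.l R + 1)) * kap R + 2 * kap R) * (δ * omega n / n))) =
      R ^ (n + 1) * d.f R ^ (n - 2) * (-(omega n * δ / n *
        (((n : ℝ) + 2 + ((n : ℝ) - 2) * (R * d.l R)) * kap R + R * deriv kap R))) := by
    rw [hpow]
    rw [hpow] at h4
    linarith only [h4]
  have h6 := mul_left_cancel₀ hRp h5
  have hδ' : (if p = q then 1 / (n : ℝ) else 0) = δ / n := by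
    rw [hδ]; split_ifs <;> simp
  rw [hδ']
  unfold av
  rw [← hSJ, ← hSK, ← hSX]
  field_simp
  field_simp at h6
  linarith only [h6]

end RotData

end Vale.Agent.P366
end
end
end
end

section

section

section

open Set Function Filter Topology

namespace Vale.Agent.P366

/-! ### scalar inequalities for the weight -/

theorem omega_sq (nn a A M T m v : ℝ) (hn : 3 ≤ nn) (ha : 0 < a) (hM : 0 < M) (hT : 0 < T)
    (hm0 : 0 < m) (hmM : m ≤ M) (haA : a ≤ A) (hy : 2 * (M / T) ≤ 1) (hv : v ^ 2 ≤ 1) :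
    0 < A - m * a / T * (1 / nn - v ^ 2 + (1 - 1 / nn) * v) ∧
    (a * v) ^ 2 + (1 - 2 * (M / T)) * (a ^ 2 - (a * v) ^ 2) ≤
      (A - m * a / T * (1 / nn - v ^ 2 + (1 - 1 / nn) * v)) ^ 2 := by
  have hv1 : v ≤ 1 := by (refine le_of_not_gt fun hng_ => ?_; linarith only [mul_nonneg (mul_self_nonneg (1)) (le_of_lt (sub_pos.2 hng_)), mul_pos (sub_pos.2 hng_) (sub_pos.2 hng_), mul_nonneg (mul_self_nonneg (1)) (sub_nonneg.2 hv)])
  have hnn : 0 < nn := by linarith only [hn]
  have hinv : 1 / nn ≤ 1 := by rw [div_le_one hnn]; linarith only [hn]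
  have hg0 : 0 ≤ 1 - 1 / nn := by linarith only [hinv]
  set e : ℝ := 1 / nn - v ^ 2 + (1 - 1 / nn) * v with he
  have he1 : e ≤ 1 - v ^ 2 := by
    have : 0 ≤ (1 - 1 / nn) * (1 - v) := mul_nonneg hg0 (by linarith only [hv1])
    rw [he]; linarith only [this]
  have ht : 0 ≤ 1 - v ^ 2 := by linarith only [hv]
  have hd : m * a / T * e ≤ (M / T) * a * (1 - v ^ 2) := by
    rcases le_or_gt 0 e with h0 | h0
    · calc m * a / T * e ≤ M * a / T * e := by
            apply mul_le_mul_of_nonneg_right _ h0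
            (clear * - hmM ha hT; gcongr)
        _ ≤ M * a / T * (1 - v ^ 2) := mul_le_mul_of_nonneg_left he1 (by positivity)
        _ = _ := by ring
    · have h1 : m * a / T * e ≤ 0 := mul_nonpos_of_nonneg_of_nonpos (by positivity) h0.le
      have h2 : 0 ≤ (M / T) * a * (1 - v ^ 2) := by (clear * - hM hT ha hv; positivity)
      linarith only [h2, h1]
  have hMT : 0 < M / T := by positivity
  have hlow : a * (1 - (M / T) * (1 - v ^ 2)) ≤ A - m * a / T * e := by
    have : a * (1 - (M / T) * (1 - v ^ 2)) = a - (M / T) * a * (1 - v ^ 2) := by ring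
    rw [this]; linarith only [hd, haA]
  have hpos : 0 < a * (1 - (M / T) * (1 - v ^ 2)) := by
    apply mul_pos ha
    have : (M / T) * (1 - v ^ 2) ≤ (M / T) * 1 := mul_le_mul_of_nonneg_left (by (refine le_of_not_gt fun hng_ => ?_; linarith only [mul_nonneg (le_of_lt (sub_pos.2 hng_)) (sq_nonneg v), mul_pos (sub_pos.2 hng_) (sub_pos.2 hng_)])) hMT.le
    linarith only [this, hy]
  refine ⟨lt_of_lt_of_le hpos hlow, ?_⟩
  calc (a * v) ^ 2 + (1 - 2 * (M / T)) * (a ^ 2 - (a * v) ^ 2)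
      ≤ (a * (1 - (M / T) * (1 - v ^ 2))) ^ 2 := by
        have : (a * (1 - (M / T) * (1 - v ^ 2))) ^ 2 -
            ((a * v) ^ 2 + (1 - 2 * (M / T)) * (a ^ 2 - (a * v) ^ 2)) =
            (a * (M / T) * (1 - v ^ 2)) ^ 2 := by ring
        (refine le_of_not_gt fun hng_ => ?_; linarith only [mul_nonneg (le_of_lt (sub_pos.2 hng_)) (sq_nonneg (a * (M / T) * (1 - v ^ 2))), mul_pos (sub_pos.2 hng_) (sub_pos.2 hng_)])
    _ ≤ _ := pow_le_pow_left₀ hpos.le hlow 2

theorem omega_low (nn a M T m v t : ℝ) (hn : 3 ≤ nn) (ha : 0 < a) (hM : 0 < M) (hT : 0 < T)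
    (hm : m = min M a) (hF : (1 - 2 * (M / T)) * a ^ 2 ≤ M ^ 2) (hv : v ^ 2 ≤ 1)
    (ht0 : 0 ≤ t) (ht1 : t ≤ 1) :
    M + t * m * v ≤ M + a ^ 2 / T + t * a * v
      - m * a / T * (1 / nn - v ^ 2 + (1 - 1 / nn) * v) := by
  have hv1 : v ≤ 1 := by (refine le_of_not_gt fun hng_ => ?_; linarith only [mul_pos (sub_pos.2 hng_) (sub_pos.2 hng_), mul_nonneg (sub_nonneg.2 ht1) (le_of_lt (sub_pos.2 hng_)), mul_nonneg ht0 (le_of_lt (sub_pos.2 hng_)), mul_nonneg (sub_nonneg.2 hv) (sub_nonneg.2 ht1), mul_nonneg (sub_nonneg.2 hv) ht0])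
  have hv1' : -1 ≤ v := by (refine le_of_not_gt fun hng_ => ?_; linarith only [mul_pos (sub_pos.2 hng_) (sub_pos.2 hng_), mul_nonneg (sub_nonneg.2 ht1) (le_of_lt (sub_pos.2 hng_)), mul_nonneg ht0 (le_of_lt (sub_pos.2 hng_)), mul_nonneg (sub_nonneg.2 hv) (sub_nonneg.2 ht1), mul_nonneg (sub_nonneg.2 hv) ht0])
  have hnn : 0 < nn := by linarith only [hn]
  have hinv0 : 0 < 1 / nn := by positivity
  have hinv : 1 / nn ≤ 1 / 3 := by
    apply one_div_le_one_div_of_le (by norm_num) hn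
  set i := 1 / nn with hi
  set e : ℝ := i - v ^ 2 + (1 - i) * v with he
  have he1 : e ≤ 1 - v ^ 2 := by
    have : 0 ≤ (1 - i) * (1 - v) := mul_nonneg (by linarith only [hinv]) (by linarith only [hv1])
    rw [he]; linarith only [this]
  have he1' : e ≤ 1 := by (refine le_of_not_gt fun hng_ => ?_; linarith only [mul_nonneg (le_of_lt (sub_pos.2 hng_)) (sq_nonneg v), mul_nonneg (sub_nonneg.2 he1) (le_of_lt (sub_pos.2 hng_)), mul_pos (sub_pos.2 hng_) (sub_pos.2 hng_)])
  have haT : 0 < a / T := by positivity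
  rcases le_total a M with h | h
  · have hma : m = a := by rw [hm]; exact min_eq_right h
    rw [hma]
    have h1 : M + a ^ 2 / T + t * a * v - a * a / T * e - (M + t * a * v) =
        a ^ 2 / T * (1 - e) := by ring
    have h2 : 0 ≤ a ^ 2 / T * (1 - e) := mul_nonneg (by positivity) (by linarith only [he1'])
    linarith only [h2, h1]
  · have hmM : m = M := by rw [hm]; exact min_eq_left h
    rw [hmM]
    have h1 : M + a ^ 2 / T + t * a * v - M * a / T * e - (M + t * M * v) =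
        a / T * (a - M * e) + t * (a - M) * v := by ring
    have h2 : 0 ≤ a / T * (a - M * e) + t * (a - M) * v := by
      rcases le_or_gt 0 v with hv0 | hv0
      · have h3 : M * e ≤ a := by
          calc M * e ≤ M * 1 := mul_le_mul_of_nonneg_left he1' hM.le
            _ ≤ a := by linarith only [h]
        have h4 : 0 ≤ a / T * (a - M * e) := mul_nonneg haT.le (by linarith only [h3])
        have h5 : 0 ≤ t * (a - M) * v := mul_nonneg (mul_nonneg ht0 (by linarith only [h])) hv0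
        linarith only [h5, h4]
      · set w := -v with hw
        have hw0 : 0 < w := by linarith only [hv0]
        have hw1 : w ≤ 1 := by linarith only [hv1']
        have hvw : v = -w := by ring
        have hee : e = i - w ^ 2 - (1 - i) * w := by rw [he, hvw]; ring
        -- a / T ≥ (a² - M²) / (2 M a)
        have h6 : (a - M) * (a + M) ≤ 2 * M * a * (a / T) := by
          have : (1 - 2 * (M / T)) * a ^ 2 = a ^ 2 - 2 * M * a * (a / T) := by (clear * - hT ha; field_simp)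
          rw [this] at hF
          have e : (a - M) * (a + M) = a ^ 2 - M ^ 2 := by ring
          rw [e]; linarith only [hF]
        -- a - M e ≥ 0
        have h7 : 0 ≤ a - M * e := by
          have : M * e ≤ M * 1 := mul_le_mul_of_nonneg_left he1' hM.le
          linarith only [this, h]
        have h8 : (a - M) * (a + M) * (a - M * e) ≤ 2 * M * a * (a / T) * (a - M * e) :=
          mul_le_mul_of_nonneg_right h6 h7
        -- (a + M)(a - M e) ≥ 2 M a w
        have h9 : 2 * M * a * w ≤ (a + M) * (a - M * e) := by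
          rw [hee]
          have h10 : 0 ≤ w ^ 2 + (1 - i) * w :=
            add_nonneg (sq_nonneg w) (mul_nonneg (by linarith only [hinv]) hw0.le)
          have h11 : (a + M) * (a - M * (i - w ^ 2 - (1 - i) * w)) =
              (a + M) * (a - M * i) + (a + M) * M * (w ^ 2 + (1 - i) * w) := by ring
          rw [h11]
          have h12 : 2 * M * (a * (1 - i)) ≤ (a + M) * (a - M * i) := by
            have e1 : a * (1 - i) ≤ a - M * i := by
              have h30 : M * i ≤ a * i := mul_le_mul_of_nonneg_right h hinv0.le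
              have e : a * (1 - i) = a - a * i := by ring
              rw [e]; linarith only [h30]
            have e2 : 0 ≤ a * (1 - i) := mul_nonneg ha.le (by linarith only [hinv])
            calc 2 * M * (a * (1 - i)) ≤ (a + M) * (a * (1 - i)) :=
                  mul_le_mul_of_nonneg_right (by linarith only [h]) e2
              _ ≤ _ := mul_le_mul_of_nonneg_left e1 (by linarith only [h, hM])
          have h13 : a * M * (w ^ 2 + (1 - i) * w) ≤ (a + M) * M * (w ^ 2 + (1 - i) * w) := by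
            apply mul_le_mul_of_nonneg_right _ h10
            exact mul_le_mul_of_nonneg_right (by linarith only [hM]) hM.le
          have h14 : 0 ≤ M * a * (2 * (1 - i) + w ^ 2 + (1 - i) * w - 2 * w) := by
            apply mul_nonneg (mul_nonneg hM.le ha.le)
            have h20 : 2 / 3 ≤ 1 - i := by linarith only [hinv]
            have h21 : 2 / 3 * w ≤ (1 - i) * w := mul_le_mul_of_nonneg_right h20 hw0.le
            have h22 : 0 ≤ (w - 2 / 3) ^ 2 := sq_nonneg _
            have h23 : (w - 2 / 3) ^ 2 = w ^ 2 - 4 / 3 * w + 4 / 9 := by ring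
            linarith only [h21, h20, h22]
          have h24 : M * a * (2 * (1 - i) + w ^ 2 + (1 - i) * w - 2 * w) =
              2 * M * (a * (1 - i)) + a * M * (w ^ 2 + (1 - i) * w) - 2 * M * a * w := by ring
          linarith only [h13, h12, h14]
        have h15 : (a - M) * (2 * M * a * w) ≤ (a - M) * ((a + M) * (a - M * e)) :=
          mul_le_mul_of_nonneg_left h9 (by linarith only [h])
        have h16 : (a - M) * w ≤ a / T * (a - M * e) := by
          have h17 : 2 * M * a * ((a - M) * w) ≤ 2 * M * a * (a / T * (a - M * e)) := by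
            calc 2 * M * a * ((a - M) * w) = (a - M) * (2 * M * a * w) := by ring
              _ ≤ (a - M) * ((a + M) * (a - M * e)) := h15
              _ = (a - M) * (a + M) * (a - M * e) := by ring
              _ ≤ 2 * M * a * (a / T) * (a - M * e) := h8
              _ = _ := by ring
          exact le_of_mul_le_mul_left h17 (by positivity)
        have h18 : t * (a - M) * v = -(t * ((a - M) * w)) := by rw [hvw]; ring
        have h19 : t * ((a - M) * w) ≤ 1 * ((a - M) * w) :=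
          mul_le_mul_of_nonneg_right ht1 (mul_nonneg (by linarith only [h]) hw0.le)
        rw [h18]; linarith only [h19, h16]
    linarith only [h2, h1]

variable {n : ℕ} {S : Type*} [TopologicalSpace S] (D : SphAvg n S)

/-- The matter terms, for a general weight `W`. -/
theorem matter_pointwise2 (P J : Fin n → ℝ) (s : S) (R f h c l p Ns mu W JN : ℝ)
    (hpdef : p = ∑ i, P i ^ 2) (hR : 0 < R) (hf : 0 < f) (hh : 0 < h)
    (hc : c ^ 2 < h ^ 2) (hl : l = h - 1 / R)
    (hNs : Ns = R ^ 2 * (h ^ 2 - c ^ 2))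
    (hW0 : 0 ≤ W) (hW : (D.q P s) ^ 2 + Ns * (p - (D.q P s) ^ 2) ≤ (W - c / h * D.q P s) ^ 2)
    (hJN : JN = ∑ i, D.N i s * J i)
    (hmu : 0 ≤ mu) (hdec : ∑ i, J i ^ 2 ≤ (f * mu) ^ 2) :
    0 ≤ W * (h * mu) - (W * c / f) * JN
      - (Ns / (R * f)) * (∑ i, P i * J i - (l / h) * (D.q P s * JN)) := by
  set q := D.q P s with hq
  have hqs : q = ∑ i, P i * D.N i s := D.q_apply P s
  -- the vector V
  set V : Fin n → ℝ := fun i => (W * c + (h ^ 2 - c ^ 2) / h * q) * D.N i s
    + (Ns / R) * (P i - q * D.N i s) with hV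
  have hVV : ∑ i, V i ^ 2 = (W * c + (h ^ 2 - c ^ 2) / h * q) ^ 2
      + (Ns / R) ^ 2 * (p - q ^ 2) := by
    have h1 : ∑ i, V i ^ 2 = (W * c + (h ^ 2 - c ^ 2) / h * q) ^ 2 * ∑ i, D.N i s ^ 2
        + 2 * (W * c + (h ^ 2 - c ^ 2) / h * q) * (Ns / R) *
          (∑ i, P i * D.N i s - q * ∑ i, D.N i s ^ 2)
        + (Ns / R) ^ 2 * ∑ i, (P i - q * D.N i s) ^ 2 := by
      simp only [Finset.mul_sum]
      rw [← Finset.sum_sub_distrib, Finset.mul_sum, ← Finset.sum_add_distrib,
        ← Finset.sum_add_distrib]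
      refine Finset.sum_congr rfl fun i _ => by simp only [hV]; ring
    rw [h1, D.N_sq, ← hqs, hq, tang_sq D P s p hpdef]; ring
  have hVJ : ∑ i, V i * J i = (W * c + (h ^ 2 - c ^ 2) / h * q) * JN
      + (Ns / R) * (∑ i, P i * J i - q * JN) := by
    rw [hJN]
    simp only [Finset.mul_sum]
    rw [← Finset.sum_sub_distrib, Finset.mul_sum, ← Finset.sum_add_distrib]
    refine Finset.sum_congr rfl fun i _ => by simp only [hV]; ring
  have hsq : ∑ i, V i ^ 2 ≤ (W * h) ^ 2 := by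
    rw [hVV]
    have e1 : (Ns / R) ^ 2 = (h ^ 2 - c ^ 2) * Ns := by
      rw [hNs]; (clear * - hR; field_simp)
    have e2 : (W * h) ^ 2 - ((W * c + (h ^ 2 - c ^ 2) / h * q) ^ 2
        + (h ^ 2 - c ^ 2) * Ns * (p - q ^ 2)) =
        (h ^ 2 - c ^ 2) * ((W - c / h * q) ^ 2 - (q ^ 2 + Ns * (p - q ^ 2))) := by
      field_simp
      ring
    rw [e1]
    have h3 : 0 ≤ (h ^ 2 - c ^ 2) * ((W - c / h * q) ^ 2 - (q ^ 2 + Ns * (p - q ^ 2))) :=
      mul_nonneg (by linarith only [hc]) (by linarith only [hW])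
    linarith only [h3, e2]
  have hcs : (∑ i, V i * J i) ^ 2 ≤ (W * h * (f * mu)) ^ 2 := by
    have h1 := Finset.sum_mul_sq_le_sq_mul_sq Finset.univ V J
    have h2 : (∑ i, V i ^ 2) * ∑ i, J i ^ 2 ≤ (W * h) ^ 2 * (f * mu) ^ 2 := by
      apply mul_le_mul hsq hdec (Finset.sum_nonneg fun i _ => sq_nonneg _) (sq_nonneg _)
    calc _ ≤ _ := h1
      _ ≤ _ := h2
      _ = _ := by ring
  have hle : ∑ i, V i * J i ≤ W * h * (f * mu) := by
    have h0 : 0 ≤ W * h * (f * mu) := by (clear * - hW0 hh hf hmu; positivity)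
    exact le_of_sq_le_sq hcs h0 |> fun h => h
  have hid : W * (h * mu) - (W * c / f) * JN
      - (Ns / (R * f)) * (∑ i, P i * J i - (l / h) * (q * JN)) =
      (1 / f) * (W * h * (f * mu) - ∑ i, V i * J i) := by
    rw [hVJ, hl, hNs]
    field_simp
    ring
  rw [hid]
  have : 0 ≤ W * h * (f * mu) - ∑ i, V i * J i := by linarith only [hle]
  (clear * - hf hle; positivity)

end Vale.Agent.P366
end
end
end

section

section

section

open Set Function Filter Topology

namespace Vale.Agent.P366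

theorem symm2 (p q t a : ℝ) (ha : 0 < a) (hap : a ^ 2 = p) (hq : q ^ 2 ≤ p) (ht : t ^ 2 < 1) :
    0 < 1 + t / a * q ∧ 0 < 1 + t / a * (-q) ∧
    (p - q ^ 2) * (1 + t / a * q)⁻¹ + (p - (-q) ^ 2) * (1 + t / a * (-q))⁻¹ ≤
      2 * (p - (1 - t ^ 2) * q ^ 2) := by
  set r := t / a * q with hr
  have hp : 0 < p := by rw [← hap]; positivity
  have hr2 : r ^ 2 * p = t ^ 2 * q ^ 2 := by
    rw [hr, ← hap]; field_simp
  have hr2' : r ^ 2 ≤ t ^ 2 := by
    have : r ^ 2 * p ≤ t ^ 2 * p := by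
      rw [hr2]; exact mul_le_mul_of_nonneg_left hq (sq_nonneg t)
    exact le_of_mul_le_mul_right this hp
  have hr1 : r ^ 2 < 1 := lt_of_le_of_lt hr2' ht
  have habs : |r| < 1 := (sq_lt_one_iff_abs_lt_one r).mp hr1
  have h1 : 0 < 1 + r := by linarith only [((abs_lt.mp habs).1)]
  have h2 : 0 < 1 + -r := by linarith only [((abs_lt.mp habs).2)]
  have hneg : t / a * (-q) = -r := by rw [hr]; ring
  refine ⟨h1, by rw [hneg]; exact h2, ?_⟩
  rw [hneg]
  have h3 : 0 < 1 - r ^ 2 := by linarith only [hr1]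
  have e1 : (p - q ^ 2) * (1 + r)⁻¹ + (p - (-q) ^ 2) * (1 + -r)⁻¹ =
      2 * (p - q ^ 2) / (1 - r ^ 2) := by
    rw [eq_div_iff h3.ne']
    have hu : (1 + r) * (1 + r)⁻¹ = 1 := mul_inv_cancel₀ h1.ne'
    have hv : (1 + -r) * (1 + -r)⁻¹ = 1 := mul_inv_cancel₀ h2.ne'
    linear_combination ((p - q ^ 2) * (1 + -r)) * hu + ((p - q ^ 2) * (1 + r)) * hv
  rw [e1, div_le_iff₀ h3]
  have e2 : 2 * (p - (1 - t ^ 2) * q ^ 2) * (1 - r ^ 2) - 2 * (p - q ^ 2) =
      2 * (r ^ 2 * q ^ 2 * (1 - t ^ 2)) - 2 * (r ^ 2 * p - t ^ 2 * q ^ 2) := by ring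
  have h4 : 0 ≤ r ^ 2 * q ^ 2 * (1 - t ^ 2) :=
    mul_nonneg (mul_nonneg (sq_nonneg r) (sq_nonneg q)) (by linarith only [ht])
  rw [hr2] at e2
  linarith only [h4, e2]

variable {n : ℕ} {S : Type*} [TopologicalSpace S] (D : SphAvg n S)

theorem avg_odd (g : C(S, ℝ)) (hg : ∀ s, g (D.anti s) = - g s) : D.avg g = 0 := by
  have h1 : g.comp D.anti = -g := by
    ext s
    simp only [ContinuousMap.comp_apply, ContinuousMap.neg_apply]
    exact hg s
  have h2 := D.avg_anti g
  rw [h1, map_neg] at h2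
  linarith only [h2]

theorem avg_inv2 (hn : 3 ≤ n) (P : Fin n → ℝ) (p t a : ℝ) (hpdef : p = ∑ i, P i ^ 2)
    (ha : 0 < a) (hap : a ^ 2 = p) (ht : t ^ 2 < 1)
    (V : C(S, ℝ)) (hV : ∀ s, V s = (1 + t / a * D.q P s)⁻¹) :
    D.avg ((ContinuousMap.const S p - D.q P ^ 2) * V) ≤ (1 - 1 / (n : ℝ)) * p + t ^ 2 * p / n := by
  have hn' : (3 : ℝ) ≤ n := by exact_mod_cast hn
  have hnpos : (0 : ℝ) < n := by linarith only [hn']
  set g : C(S, ℝ) := (ContinuousMap.const S p - D.q P ^ 2) * V with hg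
  have hgs : ∀ s, g s = (p - (D.q P s) ^ 2) * (1 + t / a * D.q P s)⁻¹ := by
    intro s; simp only [hg, ContinuousMap.mul_apply, ContinuousMap.sub_apply, ContinuousMap.const_apply, ContinuousMap.pow_apply, hV]
  have h2 : 2 * D.avg g = D.avg (g + g.comp D.anti) := by
    rw [map_add, D.avg_anti]; ring
  set G : C(S, ℝ) := (2 : ℝ) • (ContinuousMap.const S p - (1 - t ^ 2) • (D.q P ^ 2)) with hG
  have h3 : 2 * D.avg g ≤ D.avg G := by
    rw [h2]
    apply D.avg_mono
    intro s
    have := (symm2 p (D.q P s) t a ha hap (by rw [hpdef]; exact D.q_sq_le P s) ht).2.2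
    simp only [ContinuousMap.coe_smul, ContinuousMap.coe_add, Pi.smul_apply, Pi.add_apply,
      ContinuousMap.comp_apply, smul_eq_mul, hgs, D.q_anti, hG, ContinuousMap.coe_sub,
      Pi.sub_apply, ContinuousMap.const_apply, ContinuousMap.coe_pow, Pi.pow_apply]
    exact this
  have h4 : D.avg G = 2 * (p - (1 - t ^ 2) * (p / n)) := by
    rw [hG, map_smul, map_sub, map_smul, D.avg_const, D.avg_q_sq, ← hpdef]
    simp only [smul_eq_mul]
  rw [h4] at h3
  have h5 : p - (1 - t ^ 2) * (p / n) = (1 - 1 / (n : ℝ)) * p + t ^ 2 * p / n := by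
    field_simp; ring
  linarith only [h5, h3]

theorem X_term2 (hn : 3 ≤ n) (P x : Fin n → ℝ) (R f h c M T p a m t : ℝ)
    (hpdef : p = ∑ i, P i ^ 2) (hR : 0 < R) (hf : 0 < f) (hh : 0 < h) (hM : 0 < M) (hT : 0 < T)
    (ha : 0 < a) (hap : a ^ 2 = p)
    (htdef : t = c * m / (h * M)) (ht : t ^ 2 < 1)
    (W : C(S, ℝ)) (hW : ∀ s, M * (1 + t / a * D.q P s) ≤ W s)
    (X : Fin n → C(S, ℝ)) (hXt : ∀ s, ∑ i, D.N i s * X i s = 0)
    (hx : ∀ i, x i = D.avg (X i)) (hP : ∀ i, P i = T * R / f * x i / ((n : ℝ) - 1)) :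
    (M * h / T) * (n * p - (1 - 1 / (n : ℝ)) * t ^ 2 * p)
      + 2 * c * m * R / (((n : ℝ) - 1) * f * a) * D.avg (D.q P * ∑ i, P i • X i) ≤
    (T * R ^ 2 / (((n : ℝ) - 1) * f ^ 2)) * h * D.avg (W * ∑ i, X i ^ 2) := by
  have hn' : (3 : ℝ) ≤ n := by exact_mod_cast hn
  have hn1 : (0 : ℝ) < (n : ℝ) - 1 := by linarith only [hn']
  have hnpos : (0 : ℝ) < n := by linarith only [hn1]
  obtain ⟨w, hwdef⟩ : ∃ w : C(S, ℝ), w = ContinuousMap.const S 1 + (t / a) • D.q P := ⟨_, rfl⟩
  have hw : ∀ s, w s = 1 + t / a * D.q P s := by intro s; rw [hwdef]; simp only [ContinuousMap.const_one, ContinuousMap.add_apply, ContinuousMap.one_apply, ContinuousMap.coe_smul, Pi.smul_apply, smul_eq_mul]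
  have hqp : ∀ s, (D.q P s) ^ 2 ≤ p := fun s => by rw [hpdef]; exact D.q_sq_le P s
  have hwpos : ∀ s, 0 < w s := fun s => by
    rw [hw]; exact (symm2 p (D.q P s) t a ha hap (hqp s) ht).1
  set V : C(S, ℝ) := cinv w (fun s => (hwpos s).ne') with hVdef
  have hV : ∀ s, V s = (1 + t / a * D.q P s)⁻¹ := fun s => by rw [← hw]; rfl
  have hbound := avg_inv2 D hn P p t a hpdef ha hap ht V hV
  set lam : ℝ := f / (T * R) with hlam
  have hlam0 : 0 < lam := by positivity
  -- the averaged pointwise inequality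
  have h1 : D.avg ((2 * lam * n) • (∑ i, P i • X i) + (2 * lam * (t / a)) • (D.q P * ∑ i, P i • X i)
      - (lam ^ 2) • ((ContinuousMap.const S p - D.q P ^ 2) * w
        + (2 * ((n : ℝ) - 1)) • (ContinuousMap.const S p - D.q P ^ 2)
        + (((n : ℝ) - 1) ^ 2) • ((ContinuousMap.const S p - D.q P ^ 2) * V)))
      ≤ D.avg (w * ∑ i, X i ^ 2) := by
    apply D.avg_mono
    intro s
    have h0 := X_pointwise D P (fun i => X i s) s (w s) (lam * (n + t / a * D.q P s)) p (hwpos s)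
      hpdef (hXt s)
    have hXP : ∑ i, X i s * P i = ∑ i, P i * X i s :=
      Finset.sum_congr rfl fun i _ => mul_comm _ _
    rw [hXP] at h0
    have hVs : V s = (w s)⁻¹ := rfl
    have hnt : (n : ℝ) + t / a * D.q P s = w s + ((n : ℝ) - 1) := by rw [hw]; ring
    rw [hnt] at h0
    simp only [ContinuousMap.coe_sub, Pi.sub_apply, ContinuousMap.coe_smul, Pi.smul_apply,
      ContinuousMap.coe_sum, Finset.sum_apply, smul_eq_mul, ContinuousMap.coe_mul, Pi.mul_apply,
      ContinuousMap.const_apply, ContinuousMap.coe_pow, Pi.pow_apply, ContinuousMap.coe_add,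
      Pi.add_apply]
    refine le_trans (le_of_eq ?_) h0
    rw [hVs]
    have hww : w s * (w s)⁻¹ = 1 := mul_inv_cancel₀ (hwpos s).ne'
    have hq' : t / a * D.q P s = w s - 1 := by rw [hw]; ring
    generalize ∑ i, P i * X i s = Z
    have e1 : 2 * lam * ↑n * Z + 2 * lam * (t / a) * (D.q P s * Z) =
        2 * lam * Z * (n + t / a * D.q P s) := by ring
    rw [e1, hnt]
    generalize (D.q P s) ^ 2 = q2
    linear_combination (lam ^ 2 * (p - q2) * (w s + 2 * ((n : ℝ) - 1))) * hww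
  -- the averages
  have hodd : D.avg ((ContinuousMap.const S p - D.q P ^ 2) * w) = (1 - 1 / (n : ℝ)) * p := by
    have e : (ContinuousMap.const S p - D.q P ^ 2) * w =
        (ContinuousMap.const S p - D.q P ^ 2)
          + (t / a) • ((ContinuousMap.const S p - D.q P ^ 2) * D.q P) := by
      ext s; simp only [ContinuousMap.mul_apply, ContinuousMap.sub_apply, ContinuousMap.const_apply, ContinuousMap.pow_apply, hw, ContinuousMap.add_apply, ContinuousMap.coe_smul, ContinuousMap.coe_mul, ContinuousMap.coe_sub, ContinuousMap.coe_const, ContinuousMap.coe_pow, Pi.smul_apply, Pi.mul_apply, Pi.sub_apply, const_apply, Pi.pow_apply, smul_eq_mul]; ring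
    have h0 : D.avg ((ContinuousMap.const S p - D.q P ^ 2) * D.q P) = 0 := by
      apply avg_odd
      intro s
      simp only [ContinuousMap.coe_mul, Pi.mul_apply, ContinuousMap.coe_sub, Pi.sub_apply,
        ContinuousMap.const_apply, ContinuousMap.coe_pow, Pi.pow_apply, D.q_anti]
      ring
    rw [e, map_add, map_smul, h0, map_sub, D.avg_const, D.avg_q_sq, ← hpdef]
    simp only [smul_eq_mul]
    field_simp
    ring
  have heven : D.avg (ContinuousMap.const S p - D.q P ^ 2) = (1 - 1 / (n : ℝ)) * p := by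
    rw [map_sub, D.avg_const, D.avg_q_sq, ← hpdef]
    (clear * - hn hn1; field_simp)
  have hPX : D.avg (∑ i, P i • X i) = ((n : ℝ) - 1) * f * p / (T * R) := by
    rw [map_sum]
    have : ∀ i, D.avg (P i • X i) = ((n : ℝ) - 1) * f / (T * R) * P i ^ 2 := by
      intro i
      rw [map_smul, smul_eq_mul, ← hx i]
      have : x i = ((n : ℝ) - 1) * f / (T * R) * P i := by rw [hP i]; (clear * - hn1 hf hT hR; field_simp)
      rw [this]; ring
    simp only [this]
    rw [← Finset.mul_sum, ← hpdef]; ring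
  rw [map_sub, map_add, map_smul, map_smul, map_smul, map_add, map_add, map_smul, map_smul, hodd,
    heven, hPX] at h1
  simp only [smul_eq_mul] at h1
  have hWw : M * D.avg (w * ∑ i, X i ^ 2) ≤ D.avg (W * ∑ i, X i ^ 2) := by
    rw [← smul_eq_mul, ← map_smul]
    apply D.avg_mono
    intro s
    simp only [ContinuousMap.coe_smul, Pi.smul_apply, smul_eq_mul, ContinuousMap.coe_mul,
      Pi.mul_apply, ContinuousMap.coe_sum, Finset.sum_apply, ContinuousMap.coe_pow, Pi.pow_apply]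
    rw [hw, ← mul_assoc]
    exact mul_le_mul_of_nonneg_right (hW s) (Finset.sum_nonneg fun i _ => sq_nonneg _)
  have hlow : lam ^ 2 * (n * ((n : ℝ) - 1) * p - ((n : ℝ) - 1) ^ 2 * (t ^ 2 * p / n))
      + 2 * lam * (t / a) * D.avg (D.q P * ∑ i, P i • X i) ≤ D.avg (w * ∑ i, X i ^ 2) := by
    have e1 : 2 * lam * n * (((n : ℝ) - 1) * f * p / (T * R)) =
        2 * (lam ^ 2 * (n * ((n : ℝ) - 1) * p)) := by
      rw [hlam]; (clear * - hn1 hn hR hT hf; field_simp)
    have e2 : lam ^ 2 * (((n : ℝ) - 1) ^ 2 *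
        D.avg ((ContinuousMap.const S p - D.q P ^ 2) * V)) ≤
        lam ^ 2 * (((n : ℝ) - 1) ^ 2 * ((1 - 1 / (n : ℝ)) * p + t ^ 2 * p / n)) := by
      apply mul_le_mul_of_nonneg_left _ (sq_nonneg _)
      exact mul_le_mul_of_nonneg_left hbound (sq_nonneg _)
    have e3 : (1 - 1 / (n : ℝ)) * p + 2 * ((n : ℝ) - 1) * ((1 - 1 / (n : ℝ)) * p)
        + ((n : ℝ) - 1) ^ 2 * ((1 - 1 / (n : ℝ)) * p + t ^ 2 * p / n) =
        n * ((n : ℝ) - 1) * p + ((n : ℝ) - 1) ^ 2 * (t ^ 2 * p / n) := by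
      field_simp; ring
    rw [e1] at h1
    have e4 : lam ^ 2 * ((1 - 1 / (n : ℝ)) * p + 2 * ((n : ℝ) - 1) * ((1 - 1 / (n : ℝ)) * p)
        + ((n : ℝ) - 1) ^ 2 * ((1 - 1 / (n : ℝ)) * p + t ^ 2 * p / n)) =
        lam ^ 2 * (n * ((n : ℝ) - 1) * p + ((n : ℝ) - 1) ^ 2 * (t ^ 2 * p / n)) := by
      rw [e3]
    nlinarith only [h1, e2, e4]
  have hk : 0 < T * R ^ 2 / (((n : ℝ) - 1) * f ^ 2) * h := by (clear * - hT hR hn1 hf hh; positivity)
  calc (M * h / T) * (n * p - (1 - 1 / (n : ℝ)) * t ^ 2 * p)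
      + 2 * c * m * R / (((n : ℝ) - 1) * f * a) * D.avg (D.q P * ∑ i, P i • X i)
      = (T * R ^ 2 / (((n : ℝ) - 1) * f ^ 2) * h) * (M *
        (lam ^ 2 * (n * ((n : ℝ) - 1) * p - ((n : ℝ) - 1) ^ 2 * (t ^ 2 * p / n))
      + 2 * lam * (t / a) * D.avg (D.q P * ∑ i, P i • X i))) := by
        rw [hlam, htdef]
        (clear * - hh hM hn ha hf hn1 hT hR; field_simp)
    _ ≤ (T * R ^ 2 / (((n : ℝ) - 1) * f ^ 2) * h) * (M * D.avg (w * ∑ i, X i ^ 2)) :=
        mul_le_mul_of_nonneg_left (mul_le_mul_of_nonneg_left hlow hM.le) hk.le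
    _ ≤ (T * R ^ 2 / (((n : ℝ) - 1) * f ^ 2) * h) * D.avg (W * ∑ i, X i ^ 2) :=
        mul_le_mul_of_nonneg_left hWw hk.le

end Vale.Agent.P366
end
end
end

section

section

section

open Set Function Filter Topology

namespace Vale.Agent.P366

variable {n : ℕ} {S : Type*} [TopologicalSpace S] (D : SphAvg n S)

theorem key_abs (hn : 3 ≤ n) (P x : Fin n → ℝ) (R f h c l T M A p Ns k0 ga : ℝ)
    (hpdef : p = ∑ i, P i ^ 2)
    (hR : 0 < R) (hf : 0 < f) (hh : 0 < h) (hM : 0 < M) (hT : 0 < T)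
    (hc : c ^ 2 < h ^ 2) (hAdef : A = M + p / T) (hl : l = h - 1 / R)
    (hNs : Ns = R ^ 2 * (h ^ 2 - c ^ 2)) (hMT : 2 * (M / T) = 1 - Ns)
    (hF : 0 ≤ M ^ 2 - Ns * p)
    (mu JN Q : C(S, ℝ)) (J X : Fin n → C(S, ℝ))
    (hJN : JN = ∑ i, D.N i * J i)
    (hP : ∀ i, P i = T * R / f * x i / ((n : ℝ) - 1))
    (hQ : ∀ s, 0 ≤ Q s) (hmu : ∀ s, 0 ≤ mu s)
    (hdec : ∀ s, ∑ i, J i s ^ 2 ≤ (f * mu s) ^ 2)
    (B : C(S, ℝ)) (hBdef : B = h • mu - (c / f) • JN + (h / f ^ 4) • (∑ i, X i ^ 2 + (1 / 2 : ℝ) • Q))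
    (hB : ∀ i, D.avg (D.N i * B) = c / f ^ 3 * (x i / R))
    (hB2 : D.avg (D.q P ^ 2 * B) = p / n * D.avg B
      + 2 * c / (f ^ 3 * R) * D.avg (D.q P * ∑ i, P i • X i))
    (W : C(S, ℝ)) (hWs : W = ContinuousMap.const S (A - k0 * p / n) + (c / h - ga) • D.q P
      + k0 • D.q P ^ 2)
    (hW0 : ∀ s, 0 ≤ W s)
    (hW1 : ∀ s, (D.q P s) ^ 2 + Ns * (p - (D.q P s) ^ 2) ≤ (W s - c / h * D.q P s) ^ 2)
    (hXf : n * (M / T) * h * p ≤ (T * R ^ 2 / (((n : ℝ) - 1) * f ^ 2)) * h *
      D.avg (W * ∑ i, X i ^ 2) + ga * c * p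
      - k0 * (2 * c * T * R / (((n : ℝ) - 1) * f)) * D.avg (D.q P * ∑ i, P i • X i)) :
    0 ≤ A * ((T * R ^ 2 * f ^ 2 / ((n : ℝ) - 1)) * D.avg B) - ((n : ℝ) - 2) * (M / T) * h * p
      - Ns * ∑ i, P i * (-(l / h) * (h + 1 / R) * P i
        + (T * R * f / ((n : ℝ) - 1)) * (D.avg (J i) - (l / h) * D.avg (JN * D.N i))) := by
  have hn' : (3 : ℝ) ≤ n := by exact_mod_cast hn
  have hn1 : (0 : ℝ) < (n : ℝ) - 1 := by linarith only [hn']
  have hnpos : (0 : ℝ) < n := by linarith only [hn1]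
  obtain ⟨hp0, hA, hNs1, hNs0, hpA, hcoef, hPx⟩ := key_setup hn P x R f h c l T M A p Ns hpdef
    hR hf hh hM hT hc hAdef hl hNs hMT hF hP
  rw [key_sum D P R f h l T p hpdef JN J]
  set b1 := D.avg (∑ i, P i • J i) with hb1
  set b2 := D.avg (D.q P * JN) with hb2
  -- matter
  have hG : 0 ≤ D.avg (h • (W * mu) - (c / f) • (W * JN)
      - (Ns / (R * f)) • ((∑ i, P i • J i) - (l / h) • (D.q P * JN))) := by
    apply D.avg_nonneg
    intro s
    have := matter_pointwise2 D P (fun i => J i s) s R f h c l p Ns (mu s) (W s) (JN s)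
      hpdef hR hf hh hc hl hNs (hW0 s) (hW1 s)
      (by rw [hJN]; simp only [ContinuousMap.coe_sum, ContinuousMap.coe_mul, Finset.sum_apply, Pi.mul_apply]) (hmu s) (hdec s)
    simp only [ContinuousMap.coe_sub, Pi.sub_apply, ContinuousMap.coe_smul, Pi.smul_apply,
      ContinuousMap.coe_sum, Finset.sum_apply, smul_eq_mul, ContinuousMap.coe_mul, Pi.mul_apply]
    refine le_trans this (le_of_eq ?_)
    ring
  have hWQ : 0 ≤ D.avg (W * Q) := by
    apply D.avg_nonneg
    intro s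
    simpa only [ContinuousMap.mul_apply] using mul_nonneg (hW0 s) (hQ s)
  have e1 : D.avg (W * B) = (A - k0 * p / n) * D.avg B + (c / h - ga) * D.avg (D.q P * B)
      + k0 * D.avg (D.q P ^ 2 * B) := by
    have : W * B = (A - k0 * p / n) • B + (c / h - ga) • (D.q P * B)
        + k0 • (D.q P ^ 2 * B) := by
      rw [hWs]; ext s; simp only [ContinuousMap.mul_apply, ContinuousMap.add_apply, ContinuousMap.const_apply, ContinuousMap.coe_smul, Pi.smul_apply, smul_eq_mul, ContinuousMap.coe_pow, Pi.pow_apply, ContinuousMap.coe_mul, Pi.mul_apply]; ring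
    rw [this, map_add, map_add, map_smul, map_smul, map_smul]; simp only [smul_eq_mul]
  have e2 : D.avg (W * B) = h * D.avg (W * mu) - (c / f) * D.avg (W * JN)
      + (h / f ^ 4) * (D.avg (W * ∑ i, X i ^ 2) + (1 / 2) * D.avg (W * Q)) := by
    have : W * B = h • (W * mu) - (c / f) • (W * JN)
        + (h / f ^ 4) • ((W * ∑ i, X i ^ 2) + (1 / 2 : ℝ) • (W * Q)) := by
      rw [hBdef]; ext s; simp only [one_div, smul_add, ContinuousMap.mul_apply, ContinuousMap.add_apply, ContinuousMap.sub_apply, ContinuousMap.coe_smul, Pi.smul_apply, smul_eq_mul, ContinuousMap.coe_sum, ContinuousMap.coe_pow, Finset.sum_apply, Pi.pow_apply, ContinuousMap.coe_mul, Pi.mul_apply]; ring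
    rw [this]; simp only [map_add, map_sub, map_smul, smul_eq_mul]
  have e3 : D.avg (D.q P * B) = c * ((n : ℝ) - 1) * p / (f ^ 2 * T * R ^ 2) := by
    have : D.q P * B = ∑ i, P i • (D.N i * B) := by
      ext s
      simp only [ContinuousMap.coe_mul, Pi.mul_apply, D.q_apply, ContinuousMap.coe_sum,
        Finset.sum_apply, ContinuousMap.coe_smul, Pi.smul_apply, smul_eq_mul]
      rw [Finset.sum_mul]
      refine Finset.sum_congr rfl fun i _ => by ring
    rw [this, map_sum]
    simp only [map_smul, smul_eq_mul, hB]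
    have : ∑ i, P i * (c / f ^ 3 * (x i / R)) = c / (f ^ 3 * R) * ∑ i, P i * x i := by
      rw [Finset.mul_sum]
      refine Finset.sum_congr rfl fun i _ => by (clear * - hR hf; field_simp)
    rw [this, hPx]; (clear * - hT hn1 hR hf; field_simp)
  have e4 : D.avg (h • (W * mu) - (c / f) • (W * JN)
      - (Ns / (R * f)) • ((∑ i, P i • J i) - (l / h) • (D.q P * JN))) =
      h * D.avg (W * mu) - (c / f) * D.avg (W * JN)
        - (Ns / (R * f)) * (b1 - (l / h) * b2) := by
    simp only [map_sub, map_smul, smul_eq_mul, hb1, hb2]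
  rw [e4] at hG
  rw [e3, hB2] at e1
  set a0 := D.avg B
  set a1 := D.avg (W * mu)
  set a2 := D.avg (W * JN)
  set a3 := D.avg (W * ∑ i, X i ^ 2)
  set a4 := D.avg (W * Q)
  set a5 := D.avg (D.q P * ∑ i, P i • X i)
  -- A * a0
  have e5 : A * a0 = h * a1 - (c / f) * a2 + (h / f ^ 4) * (a3 + (1 / 2) * a4)
      - (c / h - ga) * (c * ((n : ℝ) - 1) * p / (f ^ 2 * T * R ^ 2))
      - k0 * (2 * c / (f ^ 3 * R) * a5) := by
    rw [← e2, e1]; ring
  have e6 : A * ((T * R ^ 2 * f ^ 2 / ((n : ℝ) - 1)) * a0) =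
      (T * R ^ 2 * f ^ 2 / ((n : ℝ) - 1)) * (h * a1 - (c / f) * a2)
      + (T * R ^ 2 / (((n : ℝ) - 1) * f ^ 2)) * h * a3
      + (T * R ^ 2 / (((n : ℝ) - 1) * f ^ 2)) * h * ((1 / 2) * a4) - (c / h - ga) * (c * p)
      - k0 * (2 * c * T * R / (((n : ℝ) - 1) * f)) * a5 := by
    have : A * ((T * R ^ 2 * f ^ 2 / ((n : ℝ) - 1)) * a0) =
      (T * R ^ 2 * f ^ 2 / ((n : ℝ) - 1)) * (A * a0) := by ring
    rw [this, e5]; field_simp; ring
  have e7 : Ns * (-((l / h) * (h + 1 / R)) * p + (T * R * f / ((n : ℝ) - 1)) * (b1 - (l / h) * b2))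
      = -(c ^ 2 / h - 2 * (M / T) * h) * p
        + (T * R ^ 2 * f ^ 2 / ((n : ℝ) - 1)) * ((Ns / (R * f)) * (b1 - (l / h) * b2)) := by
    rw [← hcoef]; (clear * - hR hn1 hh; field_simp)
  rw [e6, e7]
  have h8 : 0 ≤ (T * R ^ 2 * f ^ 2 / ((n : ℝ) - 1)) *
      (h * a1 - (c / f) * a2 - (Ns / (R * f)) * (b1 - (l / h) * b2)) :=
    mul_nonneg (by (clear * - hT hR hf hn1; positivity)) hG
  have h9 : 0 ≤ (T * R ^ 2 / (((n : ℝ) - 1) * f ^ 2)) * h * ((1 / 2) * a4) :=
    mul_nonneg (by (clear * - hT hR hn1 hf hh; positivity)) (by linarith only [hWQ])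
  have h10 : (T * R ^ 2 * f ^ 2 / ((n : ℝ) - 1)) *
      (h * a1 - (c / f) * a2 - (Ns / (R * f)) * (b1 - (l / h) * b2)) =
      (T * R ^ 2 * f ^ 2 / ((n : ℝ) - 1)) * (h * a1 - (c / f) * a2)
      - (T * R ^ 2 * f ^ 2 / ((n : ℝ) - 1)) * ((Ns / (R * f)) * (b1 - (l / h) * b2)) := by ring
  have h11 : ((n : ℝ) - 2) * (M / T) * h * p + -(c ^ 2 / h - 2 * (M / T) * h) * p =
      n * (M / T) * h * p - (c ^ 2 / h) * p := by ring
  have h12 : (c / h - ga) * (c * p) = (c ^ 2 / h) * p - ga * c * p := by ring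
  rw [h12]
  linarith only [h8, hXf, h9]

/-- The algebraic heart, without any alternative hypothesis. -/
theorem key_main2 (hn : 3 ≤ n) (P x : Fin n → ℝ) (R f h c l T M A p Ns : ℝ)
    (hpdef : p = ∑ i, P i ^ 2)
    (hR : 0 < R) (hf : 0 < f) (hh : 0 < h) (hM : 0 < M) (hT : 0 < T)
    (hc : c ^ 2 < h ^ 2) (hAdef : A = M + p / T) (hl : l = h - 1 / R)
    (hNs : Ns = R ^ 2 * (h ^ 2 - c ^ 2)) (hMT : 2 * (M / T) = 1 - Ns)
    (hF : 0 ≤ M ^ 2 - Ns * p)
    (mu JN Q : C(S, ℝ)) (J X : Fin n → C(S, ℝ))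
    (hJN : JN = ∑ i, D.N i * J i)
    (hXt : ∀ s, ∑ i, D.N i s * X i s = 0)
    (hx : ∀ i, x i = D.avg (X i)) (hP : ∀ i, P i = T * R / f * x i / ((n : ℝ) - 1))
    (hQ : ∀ s, 0 ≤ Q s) (hmu : ∀ s, 0 ≤ mu s)
    (hdec : ∀ s, ∑ i, J i s ^ 2 ≤ (f * mu s) ^ 2)
    (B : C(S, ℝ)) (hBdef : B = h • mu - (c / f) • JN + (h / f ^ 4) • (∑ i, X i ^ 2 + (1 / 2 : ℝ) • Q))
    (hB : ∀ i, D.avg (D.N i * B) = c / f ^ 3 * (x i / R))
    (hB2 : D.avg (D.q P ^ 2 * B) = p / n * D.avg B
      + 2 * c / (f ^ 3 * R) * D.avg (D.q P * ∑ i, P i • X i)) :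
    0 ≤ A * ((T * R ^ 2 * f ^ 2 / ((n : ℝ) - 1)) * D.avg B) - ((n : ℝ) - 2) * (M / T) * h * p
      - Ns * ∑ i, P i * (-(l / h) * (h + 1 / R) * P i
        + (T * R * f / ((n : ℝ) - 1)) * (D.avg (J i) - (l / h) * D.avg (JN * D.N i))) := by
  have hn' : (3 : ℝ) ≤ n := by exact_mod_cast hn
  have hn1 : (0 : ℝ) < (n : ℝ) - 1 := by linarith only [hn']
  have hnpos : (0 : ℝ) < n := by linarith only [hn1]
  obtain ⟨hp0, hA, hNs1, hNs0, hpA, hcoef, hPx⟩ := key_setup hn P x R f h c l T M A p Ns hpdef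
    hR hf hh hM hT hc hAdef hl hNs hMT hF hP
  have hqp : ∀ s, (D.q P s) ^ 2 ≤ p := fun s => by rw [hpdef]; exact D.q_sq_le P s
  rcases hp0.eq_or_lt with hpz | hppos
  · -- no momentum
    have hq0 : ∀ s, D.q P s = 0 := fun s => by
      have := hqp s
      rw [← hpz] at this
      exact pow_eq_zero_iff (two_ne_zero) |>.mp (le_antisymm this (sq_nonneg _))
    refine key_abs D hn P x R f h c l T M A p Ns 0 0 hpdef hR hf hh hM hT hc hAdef hl hNs hMT hF
      mu JN Q J X hJN hP hQ hmu hdec B hBdef hB hB2 _ rfl ?_ ?_ ?_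
    · intro s
      simp only [zero_mul, zero_div, sub_zero, zero_smul, add_zero, ContinuousMap.add_apply, ContinuousMap.const_apply, ContinuousMap.coe_smul, Pi.smul_apply, hq0, smul_eq_mul, mul_zero]
      exact hA.le
    · intro s
      simp only [hq0, ne_eq, OfNat.ofNat_ne_zero, not_false_eq_true, zero_pow, ← hpz, sub_self, mul_zero, add_zero, zero_div, sub_zero, zero_smul, ContinuousMap.add_apply, ContinuousMap.const_apply, ContinuousMap.coe_smul, Pi.smul_apply, smul_eq_mul]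
      (clear * - hA; positivity)
    · rw [← hpz]
      have h1 : 0 ≤ D.avg ((ContinuousMap.const S (A - 0 * 0 / n) + (c / h - 0) • D.q P
          + (0 : ℝ) • D.q P ^ 2) * ∑ i, X i ^ 2) := by
        apply D.avg_nonneg
        intro s
        simp only [ContinuousMap.coe_mul, Pi.mul_apply, ContinuousMap.coe_add, Pi.add_apply,
          ContinuousMap.const_apply, ContinuousMap.coe_smul, Pi.smul_apply, hq0, smul_eq_mul,
          ContinuousMap.coe_sum, Finset.sum_apply, ContinuousMap.coe_pow, Pi.pow_apply]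
        apply mul_nonneg _ (Finset.sum_nonneg fun i _ => sq_nonneg _)
        simp only [mul_zero, zero_div, sub_zero, add_zero, ne_eq, OfNat.ofNat_ne_zero, not_false_eq_true, zero_pow]
        exact hA.le
      have h2 : 0 ≤ (T * R ^ 2 / (((n : ℝ) - 1) * f ^ 2)) * h := by (clear * - hT hR hn1 hf hh; positivity)
      have h3 := mul_nonneg h2 h1
      simpa only [mul_zero, zero_div, sub_zero, zero_smul, add_zero, zero_mul, ge_iff_le] using h3
  · -- nonzero momentum
    set a : ℝ := √p with hadef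
    have ha : 0 < a := Real.sqrt_pos.mpr hppos
    have hap : a ^ 2 = p := Real.sq_sqrt hp0
    set m : ℝ := min M a with hmdef
    have hm0 : 0 < m := lt_min hM ha
    have hmM : m ≤ M := min_le_left _ _
    obtain ⟨ep, hep2, hepc⟩ : ∃ ep : ℝ, ep ^ 2 = 1 ∧ ep * c = |c| := by
      rcases le_or_gt 0 c with h0 | h0
      · exact ⟨1, by norm_num, by rw [one_mul, abs_of_nonneg h0]⟩
      · exact ⟨-1, by norm_num, by rw [abs_of_neg h0]; ring⟩
    have hch : |c| < h := abs_lt_of_sq_lt_sq hc hh.le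
    have haA : a ≤ A := by
      have : a ^ 2 ≤ A ^ 2 := by rw [hap]; exact hpA
      exact (abs_le_of_sq_le_sq' this hA.le).2
    have hy : 2 * (M / T) ≤ 1 := by linarith only [hNs0, hMT]
    have hNs' : Ns = 1 - 2 * (M / T) := by linarith only [hMT]
    set g0 : ℝ := 1 - 1 / (n : ℝ) with hg0
    set k0 : ℝ := m / (T * a) with hk0
    set ga : ℝ := m / T * g0 * ep with hga
    -- the variable v = ep q / a
    have hv : ∀ s, (ep * D.q P s / a) ^ 2 ≤ 1 := by
      intro s
      rw [div_pow, mul_pow, hep2, one_mul, hap, div_le_one hppos]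
      exact hqp s
    have hav : ∀ s, a * (ep * D.q P s / a) = ep * D.q P s := fun s => by (clear * - ha; field_simp)
    have havsq : ∀ s, (a * (ep * D.q P s / a)) ^ 2 = (D.q P s) ^ 2 := fun s => by
      rw [hav, mul_pow, hep2, one_mul]
    -- the subtracted polynomial
    have hd : ∀ s, m * a / T * (1 / n - (ep * D.q P s / a) ^ 2
        + (1 - 1 / n) * (ep * D.q P s / a)) =
        k0 * p / n - k0 * (D.q P s) ^ 2 + ga * D.q P s := by
      intro s
      have e1 : (ep * D.q P s / a) ^ 2 = (D.q P s) ^ 2 / p := by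
        rw [div_pow, mul_pow, hep2, one_mul, hap]
      rw [e1, hk0, hga, hg0, ← hap]
      (clear * - ha hn hT hm0; field_simp)
    have hWval : ∀ s, (ContinuousMap.const S (A - k0 * p / n) + (c / h - ga) • D.q P
        + k0 • D.q P ^ 2 : C(S, ℝ)) s = c / h * D.q P s + (A - m * a / T *
          (1 / n - (ep * D.q P s / a) ^ 2 + (1 - 1 / n) * (ep * D.q P s / a))) := by
      intro s
      rw [hd]
      simp only [ContinuousMap.coe_add, Pi.add_apply, ContinuousMap.const_apply,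
        ContinuousMap.coe_smul, Pi.smul_apply, smul_eq_mul, ContinuousMap.coe_pow, Pi.pow_apply]
      ring
    have hsq := fun s => omega_sq (n : ℝ) a A M T m (ep * D.q P s / a) hn' ha hM hT hm0 hmM haA
      hy (hv s)
    have hlow := fun s => omega_low (n : ℝ) a M T m (ep * D.q P s / a) (|c| / h) hn' ha hM hT
      hmdef (by rw [hap, ← hNs']; linarith only [hF]) (hv s) (by (clear * - hh; positivity))
      (by rw [div_le_one hh]; exact hch.le)
    have hcq : ∀ s, |c| / h * a * (ep * D.q P s / a) = c / h * D.q P s := by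
      intro s
      have : |c| / h * a * (ep * D.q P s / a) = |c| / h * (a * (ep * D.q P s / a)) := by ring
      rw [this, hav, ← hepc]
      have : ep * c / h * (ep * D.q P s) = ep ^ 2 * (c / h * D.q P s) := by ring
      rw [this, hep2, one_mul]
    have hcm : ∀ s, |c| / h * m * (ep * D.q P s / a) = c / h * m / a * D.q P s := by
      intro s
      have : |c| / h * m * (ep * D.q P s / a) = (|c| / h * a * (ep * D.q P s / a)) * (m / a) := by
        (clear * - ha hm0 hh; field_simp)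
      rw [this, hcq]; ring
    set t : ℝ := c * m / (h * M) with htdef
    have ht1 : t ^ 2 < 1 := by
      rw [htdef, div_pow, div_lt_one (by positivity), mul_pow, mul_pow]
      have : m ^ 2 ≤ M ^ 2 := pow_le_pow_left₀ hm0.le hmM 2
      have h0 : 0 < M ^ 2 := by positivity
      calc c ^ 2 * m ^ 2 ≤ c ^ 2 * M ^ 2 := mul_le_mul_of_nonneg_left this (sq_nonneg c)
        _ < h ^ 2 * M ^ 2 := mul_lt_mul_of_pos_right hc h0
    have hWlow : ∀ s, M * (1 + t / a * D.q P s) ≤
        (ContinuousMap.const S (A - k0 * p / n) + (c / h - ga) • D.q P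
        + k0 • D.q P ^ 2 : C(S, ℝ)) s := by
      intro s
      rw [hWval]
      have h1 := hlow s
      rw [hcm, hcq, hap] at h1
      have e1 : M * (1 + t / a * D.q P s) = M + c / h * m / a * D.q P s := by
        rw [htdef]; (clear * - ha hh hM; field_simp)
      rw [e1, hAdef]
      linarith only [h1]
    have hX := X_term2 D hn P x R f h c M T p a m t hpdef hR hf hh hM hT ha hap htdef ht1 _
      hWlow X hXt hx hP
    have hWpos : ∀ s, 0 ≤ (ContinuousMap.const S (A - k0 * p / n) + (c / h - ga) • D.q P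
        + k0 • D.q P ^ 2 : C(S, ℝ)) s := by
      intro s
      refine le_trans ?_ (hWlow s)
      exact (mul_pos hM (symm2 p (D.q P s) t a ha hap (hqp s) ht1).1).le
    refine key_abs D hn P x R f h c l T M A p Ns k0 ga hpdef hR hf hh hM hT hc hAdef hl hNs hMT hF
      mu JN Q J X hJN hP hQ hmu hdec B hBdef hB hB2 _ rfl hWpos ?_ ?_
    · intro s
      rw [hWval]
      have h1 := (hsq s).2
      rw [havsq, hap, ← hNs'] at h1
      have e1 : c / h * D.q P s + (A - m * a / T *
          (1 / n - (ep * D.q P s / a) ^ 2 + (1 - 1 / n) * (ep * D.q P s / a)))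
          - c / h * D.q P s = A - m * a / T *
          (1 / n - (ep * D.q P s / a) ^ 2 + (1 - 1 / n) * (ep * D.q P s / a)) := by ring
      rw [e1]
      exact h1
    · -- combine
      have e1 : k0 * (2 * c * T * R / (((n : ℝ) - 1) * f)) =
          2 * c * m * R / (((n : ℝ) - 1) * f * a) := by
        rw [hk0]; (clear * - hT hf hn1 hR ha hm0; field_simp)
      have e2 : ga * c * p = |c| * m * g0 * p / T := by
        rw [hga]
        have : m / T * g0 * ep * c * p = m / T * g0 * (ep * c) * p := by ring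
        rw [this, hepc]; ring
      rw [e1, e2]
      have hg0' : 0 ≤ g0 := by
        rw [hg0, sub_nonneg, div_le_one hnpos]; linarith only [hn1]
      -- |c| m ≥ M h t²
      have e3 : (M * h / T) * (g0 * t ^ 2 * p) ≤ |c| * m * g0 * p / T := by
        have e4 : (M * h / T) * (g0 * t ^ 2 * p) =
            (|c| * m * g0 * p / T) * (|c| * m / (h * M)) := by
          rw [htdef, div_pow, mul_pow, ← sq_abs c]; (clear * - hppos hm0 hT hh hM; field_simp)
        rw [e4]
        have h5 : |c| * m / (h * M) ≤ 1 := by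
          rw [div_le_one (by positivity)]
          exact mul_le_mul hch.le hmM hm0.le hh.le
        have h6 : 0 ≤ |c| * m * g0 * p / T := by (clear * - hM hppos hg0' hT; positivity)
        exact mul_le_of_le_one_right h6 h5
      have e5 : (M * h / T) * (n * p - (1 - 1 / (n : ℝ)) * t ^ 2 * p) =
          n * (M / T) * h * p - (M * h / T) * (g0 * t ^ 2 * p) := by
        rw [hg0]; ring
      rw [e5] at hX
      linarith only [e3, hX]

end Vale.Agent.P366
end
end
end

section

section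

section

open Set Function Filter Topology

namespace Vale.Agent.P366

/-- The data of a rotationally symmetric metric `f(|x|)^2 δ` and a symmetric tensor `K` with
constant sphere trace `kap`, reduced to spheres; `a` is the inner radius. -/
structure ReducedData2 (n : ℕ) (S : Type*) [TopologicalSpace S] (D : SphAvg n S) where
  a : ℝ
  f : ℝ → ℝ
  l : ℝ → ℝ
  l' : ℝ → ℝ
  kap : ℝ → ℝ
  kap' : ℝ → ℝ
  x : Fin n → ℝ → ℝ
  x' : Fin n → ℝ → ℝ
  mu : ℝ → C(S, ℝ)
  KNN : ℝ → C(S, ℝ)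
  Q : ℝ → C(S, ℝ)
  J : ℝ → Fin n → C(S, ℝ)
  X : ℝ → Fin n → C(S, ℝ)
  a_pos : 0 < a
  f_pos : ∀ R, a ≤ R → 0 < f R
  f_deriv : ∀ R, a < R → HasDerivAt f (l R * f R) R
  l_deriv : ∀ R, a < R → HasDerivAt l (l' R) R
  kap_deriv : ∀ R, a < R → HasDerivAt kap (kap' R) R
  x_deriv : ∀ i R, a < R → HasDerivAt (x i) (x' i R) R
  f_cont : ContinuousOn f (Ici a)
  l_cont : ContinuousOn l (Ici a)
  kap_cont : ContinuousOn kap (Ici a)
  x_cont : ∀ i, ContinuousOn (x i) (Ici a)
  x_eq : ∀ i R, a < R → x i R = D.avg (X R i)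
  X_tan : ∀ R, a < R → ∀ s, ∑ i, D.N i s * X R i s = 0
  Q_nonneg : ∀ R, a < R → ∀ s, 0 ≤ Q R s
  /-- Hamiltonian constraint -/
  ham : ∀ R, a < R → ∀ s, 2 * mu R s =
    -((n : ℝ) - 1) / (f R) ^ 2 * (2 * (l' R + -(1 / R ^ 2)) + 2 * (l R + 1 / R) / R
      + ((n : ℝ) - 2) * (l R + 1 / R) ^ 2 - ((n : ℝ) - 2) / R ^ 2)
    + 1 / (f R) ^ 4 * (2 * KNN R s * kap R + (((n : ℝ) - 2) / ((n : ℝ) - 1)) * (kap R) ^ 2
      - 2 * (∑ i, X R i s ^ 2) - Q R s)
  /-- averaged radial momentum constraint -/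
  momB : ∀ R, a < R → (f R) ^ 2 * D.avg (∑ i, D.N i * J R i) =
    ((n : ℝ) - 1) * (l R + 1 / R) * D.avg (KNN R) - (1 / R - l R) * kap R - kap' R
  /-- first moment of the radial momentum constraint -/
  momC : ∀ R, a < R → ∀ i, (f R) ^ 2 * D.avg ((∑ j, D.N j * J R j) * D.N i) =
    ((n : ℝ) - 1) * (l R + 1 / R) * D.avg (KNN R * D.N i) - x i R / R
  /-- second moments of the radial momentum constraint -/
  momE : ∀ R, a < R → ∀ i j, (f R) ^ 2 * D.avg ((∑ k, D.N k * J R k) * (D.N i * D.N j)) =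
    ((n : ℝ) - 1) * (l R + 1 / R) * D.avg (KNN R * (D.N i * D.N j))
      - ((1 / R - l R) * kap R + kap' R) * (if i = j then (1 / (n : ℝ)) else 0)
      - (1 / R) * D.avg (X R i * D.N j + X R j * D.N i)
  /-- averaged Cartesian momentum constraint -/
  momD : ∀ R, a < R → ∀ i, (f R) ^ 2 * D.avg (J R i) =
    x' i R + ((n : ℝ) - 1) / R * x i R + ((n : ℝ) - 2) * l R * x i R
      + ((n : ℝ) - 1) * l R * D.avg (KNN R * D.N i)
  mu_nonneg : ∀ R, a < R → ∀ s, 0 ≤ mu R s
  /-- dominant energy condition `|J|_E ≤ f μ` -/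
  dec : ∀ R, a < R → ∀ s, ∑ i, J R i s ^ 2 ≤ (f R * mu R s) ^ 2
  /-- the inner sphere is weakly future trapped: `θ₊ ≤ 0` -/
  trapped : (l a + 1 / a) + kap a / (((n : ℝ) - 1) * f a) ≤ 0
  lim_l : Tendsto (fun R => R * l R) atTop (𝓝 0)
  lim_kap : Tendsto (fun R => R * kap R) atTop (𝓝 0)
  lim_f : Tendsto f atTop (𝓝 1)

namespace ReducedData2

variable {n : ℕ} {S : Type*} [TopologicalSpace S] {D : SphAvg n S} (d : ReducedData2 n S D)

noncomputable def h (R : ℝ) : ℝ := d.l R + 1 / R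
noncomputable def c (R : ℝ) : ℝ := d.kap R / (((n : ℝ) - 1) * d.f R)
/-- areal radius -/
noncomputable def rho (R : ℝ) : ℝ := R * d.f R
noncomputable def T (R : ℝ) : ℝ := (d.rho R) ^ (n - 2)
/-- quasi-local mass of the sphere of coordinate radius `R` -/
noncomputable def M (R : ℝ) : ℝ :=
  d.T R * (1 - R ^ 2 * (d.h R) ^ 2 + R ^ 2 * (d.c R) ^ 2) / 2
noncomputable def Ns (R : ℝ) : ℝ := R ^ 2 * ((d.h R) ^ 2 - (d.c R) ^ 2)
/-- quasi-local linear momentum -/
noncomputable def P (i : Fin n) (R : ℝ) : ℝ :=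
  d.T R * R / d.f R * d.x i R / ((n : ℝ) - 1)
noncomputable def p2 (R : ℝ) : ℝ := ∑ i, (d.P i R) ^ 2
noncomputable def F (R : ℝ) : ℝ := (d.M R) ^ 2 - d.Ns R * d.p2 R

end ReducedData2

end Vale.Agent.P366
end
end
end

section

section

section

open Set Function Filter Topology

namespace Vale.Agent.P366

namespace ReducedData2

variable {n : ℕ} {S : Type*} [TopologicalSpace S] {D : SphAvg n S} (d : ReducedData2 n S D)

include d in
theorem pos_of_lt {R : ℝ} (hR : d.a < R) : 0 < R := lt_trans d.a_pos hR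

theorem rho_pos {R : ℝ} (hR : d.a ≤ R) : 0 < d.rho R :=
  mul_pos (lt_of_lt_of_le d.a_pos hR) (d.f_pos R hR)

theorem T_pos {R : ℝ} (hR : d.a ≤ R) : 0 < d.T R := pow_pos (d.rho_pos hR) _

noncomputable def JN (R : ℝ) : C(S, ℝ) := ∑ i, D.N i * d.J R i

/-- the averaged energy combination -/
noncomputable def B (R : ℝ) : C(S, ℝ) :=
  d.h R • d.mu R - (d.c R / d.f R) • d.JN R
    + (d.h R / d.f R ^ 4) • (∑ i, d.X R i ^ 2 + (1 / 2 : ℝ) • d.Q R)

theorem rho_deriv {R : ℝ} (hR : d.a < R) : HasDerivAt d.rho (d.rho R * d.h R) R := by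
  have h1 := (hasDerivAt_id R).mul (d.f_deriv R hR)
  have hR0 := d.pos_of_lt hR
  refine h1.congr_deriv ?_
  simp only [id, rho, h]
  field_simp
  ring

theorem T_deriv (hn : 3 ≤ n) {R : ℝ} (hR : d.a < R) :
    HasDerivAt d.T (((n : ℝ) - 2) * d.h R * d.T R) R := by
  have h1 := (d.rho_deriv hR).pow (n - 2)
  refine h1.congr_deriv ?_
  have hc : ((n - 2 : ℕ) : ℝ) = (n : ℝ) - 2 := by
    rw [Nat.cast_sub (by omega)]; norm_num
  have : n - 2 = (n - 2 - 1) + 1 := by omega
  simp only [T]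
  rw [hc]
  conv_rhs => rw [this, pow_succ]
  ring

theorem h_deriv {R : ℝ} (hR : d.a < R) :
    HasDerivAt d.h (d.l' R + -(1 / R ^ 2)) R := by
  have hR0 := d.pos_of_lt hR
  have h1 : HasDerivAt (fun R : ℝ => 1 / R) (-(1 / R ^ 2)) R := by
    have := hasDerivAt_inv hR0.ne'
    simpa [one_div] using this
  exact (d.l_deriv R hR).add h1

theorem c_deriv (hn : 3 ≤ n) {R : ℝ} (hR : d.a < R) :
    HasDerivAt d.c (d.kap' R / (((n : ℝ) - 1) * d.f R) - d.l R * d.c R) R := by
  have hf := d.f_pos R hR.le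
  have hn' : (3 : ℝ) ≤ n := by exact_mod_cast hn
  have hn1 : (0 : ℝ) < (n : ℝ) - 1 := by linarith only [hn']
  have h1 := (d.kap_deriv R hR).div ((d.f_deriv R hR).const_mul ((n : ℝ) - 1)) (by positivity)
  refine h1.congr_deriv ?_
  simp only [c]
  field_simp

theorem M_deriv_raw (hn : 3 ≤ n) {R : ℝ} (hR : d.a < R) :
    HasDerivAt d.M
      ((((n : ℝ) - 2) * d.h R * d.T R * (1 - R ^ 2 * (d.h R) ^ 2 + R ^ 2 * (d.c R) ^ 2)
        + d.T R * (-(2 * R * (d.h R) ^ 2 + R ^ 2 * (2 * d.h R * (d.l' R + -(1 / R ^ 2))))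
          + (2 * R * (d.c R) ^ 2 + R ^ 2 * (2 * d.c R *
            (d.kap' R / (((n : ℝ) - 1) * d.f R) - d.l R * d.c R))))) / 2) R := by
  have hT := d.T_deriv hn hR
  have hh := d.h_deriv hR
  have hc := d.c_deriv hn hR
  have h1 : HasDerivAt (fun R : ℝ => R ^ 2) (2 * R) R := by
    simpa only [Nat.cast_ofNat, Nat.add_one_sub_one, pow_one] using hasDerivAt_pow 2 R
  have h2 := (((h1.mul (hh.pow 2)).const_sub 1).add (h1.mul (hc.pow 2)))
  have h3 := (hT.mul h2).div_const 2
  refine (h3.congr_deriv ?_).congr_of_eventuallyEq ?_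
  · simp only [Pi.mul_apply, Pi.pow_apply, Pi.add_apply]
    norm_num
  · filter_upwards with R'
    simp only [M, Pi.mul_apply, Pi.add_apply, Pi.pow_apply]

/-- the scalar curvature of the metric -/
noncomputable def Rg (R : ℝ) : ℝ :=
  -((n : ℝ) - 1) / (d.f R) ^ 2 * (2 * (d.l' R + -(1 / R ^ 2)) + 2 * (d.l R + 1 / R) / R
      + ((n : ℝ) - 2) * (d.l R + 1 / R) ^ 2 - ((n : ℝ) - 2) / R ^ 2)

theorem ham_C {R : ℝ} (hR : d.a < R) :
    (2 : ℝ) • d.mu R = ContinuousMap.const S (d.Rg R + 1 / (d.f R) ^ 4 *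
        ((((n : ℝ) - 2) / ((n : ℝ) - 1)) * (d.kap R) ^ 2))
      + (2 * d.kap R / (d.f R) ^ 4) • d.KNN R
      - (2 / (d.f R) ^ 4) • (∑ i, d.X R i ^ 2 + (1 / 2 : ℝ) • d.Q R) := by
  ext s
  have := d.ham R hR s
  simp only [ContinuousMap.coe_smul, Pi.smul_apply, smul_eq_mul, ContinuousMap.coe_add,
    Pi.add_apply, ContinuousMap.const_apply, ContinuousMap.coe_sub, Pi.sub_apply,
    ContinuousMap.coe_sum, Finset.sum_apply, ContinuousMap.coe_pow, Pi.pow_apply, Rg]
  rw [this]
  ring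

theorem avg_mu {R : ℝ} (hR : d.a < R) :
    2 * D.avg (d.mu R) = d.Rg R + 1 / (d.f R) ^ 4 *
        ((((n : ℝ) - 2) / ((n : ℝ) - 1)) * (d.kap R) ^ 2)
      + (2 * d.kap R / (d.f R) ^ 4) * D.avg (d.KNN R)
      - (2 / (d.f R) ^ 4) * D.avg (∑ i, d.X R i ^ 2 + (1 / 2 : ℝ) • d.Q R) := by
  have h1 := congrArg D.avg (d.ham_C hR)
  rw [map_smul, map_sub, map_add, map_smul, map_smul, D.avg_const] at h1
  simpa only [smul_eq_mul] using h1

theorem avg_N_mu {R : ℝ} (hR : d.a < R) (i : Fin n) :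
    2 * D.avg (D.N i * d.mu R) = (2 * d.kap R / (d.f R) ^ 4) * D.avg (d.KNN R * D.N i)
      - (2 / (d.f R) ^ 4) * D.avg (D.N i * (∑ i, d.X R i ^ 2 + (1 / 2 : ℝ) • d.Q R)) := by
  have h0 : (2 : ℝ) • (D.N i * d.mu R) = (d.Rg R + 1 / (d.f R) ^ 4 *
        ((((n : ℝ) - 2) / ((n : ℝ) - 1)) * (d.kap R) ^ 2)) • D.N i
      + (2 * d.kap R / (d.f R) ^ 4) • (d.KNN R * D.N i)
      - (2 / (d.f R) ^ 4) • (D.N i * (∑ i, d.X R i ^ 2 + (1 / 2 : ℝ) • d.Q R)) := by
    have h1 : (2 : ℝ) • (D.N i * d.mu R) = D.N i * ((2 : ℝ) • d.mu R) := by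
      rw [mul_smul_comm]
    rw [h1, d.ham_C hR]
    ext s
    simp only [ContinuousMap.coe_mul, Pi.mul_apply, ContinuousMap.coe_smul, Pi.smul_apply,
      smul_eq_mul, ContinuousMap.coe_add,
      Pi.add_apply, ContinuousMap.const_apply, ContinuousMap.coe_sub, Pi.sub_apply]
    ring
  have h1 := congrArg D.avg h0
  rw [map_smul, map_sub, map_add, map_smul, map_smul, map_smul, D.avg_N] at h1
  simpa only [smul_eq_mul, mul_zero, zero_add] using h1

theorem kap_eq (hn : 3 ≤ n) {R : ℝ} (hR : d.a ≤ R) :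
    d.kap R = ((n : ℝ) - 1) * d.f R * d.c R := by
  have hf := d.f_pos R hR
  have hn' : (3 : ℝ) ≤ n := by exact_mod_cast hn
  have hn1 : (0 : ℝ) < (n : ℝ) - 1 := by linarith only [hn']
  simp only [c]; field_simp

theorem avg_B (R : ℝ) : D.avg (d.B R) = d.h R * D.avg (d.mu R)
    - (d.c R / d.f R) * D.avg (d.JN R) + (d.h R / d.f R ^ 4) *
      D.avg (∑ i, d.X R i ^ 2 + (1 / 2 : ℝ) • d.Q R) := by
  simp only [B, map_add, map_sub, map_smul, smul_eq_mul]

theorem M_deriv (hn : 3 ≤ n) {R : ℝ} (hR : d.a < R) :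
    HasDerivAt d.M ((d.T R * R ^ 2 * d.f R ^ 2 / ((n : ℝ) - 1)) * D.avg (d.B R)) R := by
  refine (d.M_deriv_raw hn hR).congr_deriv ?_
  have hf := d.f_pos R hR.le
  have hR0 := d.pos_of_lt hR
  have hn' : (3 : ℝ) ≤ n := by exact_mod_cast hn
  have hn1 : (0 : ℝ) < (n : ℝ) - 1 := by linarith only [hn']
  have h1 := d.avg_mu hR
  have h2 := d.momB R hR
  have h2' : d.f R ^ 2 * D.avg (d.JN R) =
    ((n : ℝ) - 1) * d.h R * D.avg (d.KNN R) - (1 / R - d.l R) * d.kap R - d.kap' R := h2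
  rw [d.avg_B R]
  have h3 := d.kap_eq hn hR.le
  have hl : d.l R = d.h R - 1 / R := by simp [h]
  -- express averages
  have e1 : D.avg (d.mu R) = (d.Rg R + 1 / (d.f R) ^ 4 *
        ((((n : ℝ) - 2) / ((n : ℝ) - 1)) * (d.kap R) ^ 2)
      + (2 * d.kap R / (d.f R) ^ 4) * D.avg (d.KNN R)
      - (2 / (d.f R) ^ 4) * D.avg (∑ i, d.X R i ^ 2 + (1 / 2 : ℝ) • d.Q R)) / 2 := by
    linarith only [h1]
  have e2 : D.avg (d.JN R) = (((n : ℝ) - 1) * d.h R * D.avg (d.KNN R)
      - (1 / R - d.l R) * d.kap R - d.kap' R) / d.f R ^ 2 := by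
    rw [← h2']; field_simp
  rw [e1, e2, h3]
  simp only [Rg]
  have e3 : d.l R + 1 / R = d.h R := rfl
  rw [e3, hl]
  generalize D.avg (d.KNN R) = k
  generalize D.avg (∑ i, d.X R i ^ 2 + (1 / 2 : ℝ) • d.Q R) = x2
  generalize d.l' R = l'
  generalize d.kap' R = kp
  generalize d.h R = hh at *
  generalize d.c R = cc at *
  generalize d.f R = ff at *
  generalize d.T R = TT at *
  field_simp
  ring

theorem avg_N_B (hn : 3 ≤ n) {R : ℝ} (hR : d.a < R) (i : Fin n) :
    D.avg (D.N i * d.B R) = d.c R / d.f R ^ 3 * (d.x i R / R) := by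
  have hf := d.f_pos R hR.le
  have hR0 := d.pos_of_lt hR
  have hn' : (3 : ℝ) ≤ n := by exact_mod_cast hn
  have hn1 : (0 : ℝ) < (n : ℝ) - 1 := by linarith only [hn']
  have h1 := d.avg_N_mu hR i
  have h2 : d.f R ^ 2 * D.avg (d.JN R * D.N i) =
    ((n : ℝ) - 1) * d.h R * D.avg (d.KNN R * D.N i) - d.x i R / R := d.momC R hR i
  have h3 := d.kap_eq hn hR.le
  have e0 : D.N i * d.B R = d.h R • (D.N i * d.mu R) - (d.c R / d.f R) • (d.JN R * D.N i)
      + (d.h R / d.f R ^ 4) • (D.N i * (∑ i, d.X R i ^ 2 + (1 / 2 : ℝ) • d.Q R)) := by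
    ext s
    simp only [B, ContinuousMap.coe_mul, Pi.mul_apply, ContinuousMap.coe_smul, Pi.smul_apply,
      smul_eq_mul, ContinuousMap.coe_add, Pi.add_apply, ContinuousMap.coe_sub, Pi.sub_apply]
    ring
  rw [e0, map_add, map_sub, map_smul, map_smul, map_smul]
  simp only [smul_eq_mul]
  have e1 : D.avg (D.N i * d.mu R) = ((2 * d.kap R / (d.f R) ^ 4) * D.avg (d.KNN R * D.N i)
      - (2 / (d.f R) ^ 4) * D.avg (D.N i * (∑ i, d.X R i ^ 2 + (1 / 2 : ℝ) • d.Q R))) / 2 := by
    linarith only [h1]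
  have e2 : D.avg (d.JN R * D.N i) = (((n : ℝ) - 1) * d.h R * D.avg (d.KNN R * D.N i)
      - d.x i R / R) / d.f R ^ 2 := by
    rw [← h2]; field_simp
  rw [e1, e2, h3]
  field_simp
  ring

theorem P_deriv (hn : 3 ≤ n) {R : ℝ} (hR : d.a < R) (hh : d.h R ≠ 0) (i : Fin n) :
    HasDerivAt (d.P i) (-(d.l R / d.h R) * (d.h R + 1 / R) * d.P i R
        + (d.T R * R * d.f R / ((n : ℝ) - 1)) *
          (D.avg (d.J R i) - (d.l R / d.h R) * D.avg (d.JN R * D.N i))) R := by
  have hf := d.f_pos R hR.le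
  have hR0 := d.pos_of_lt hR
  have hn' : (3 : ℝ) ≤ n := by exact_mod_cast hn
  have hn1 : (0 : ℝ) < (n : ℝ) - 1 := by linarith only [hn']
  have h1 := ((((d.T_deriv hn hR).mul (hasDerivAt_id R)).div (d.f_deriv R hR) hf.ne').mul
    (d.x_deriv i R hR)).div_const ((n : ℝ) - 1)
  have h2 : d.f R ^ 2 * D.avg (d.JN R * D.N i) =
    ((n : ℝ) - 1) * d.h R * D.avg (d.KNN R * D.N i) - d.x i R / R := d.momC R hR i
  have h3 := d.momD R hR i
  have hl : d.l R = d.h R - 1 / R := by simp [h]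
  refine (h1.congr_deriv ?_).congr_of_eventuallyEq ?_
  · have e2 : D.avg (d.JN R * D.N i) = (((n : ℝ) - 1) * d.h R * D.avg (d.KNN R * D.N i)
      - d.x i R / R) / d.f R ^ 2 := by
      rw [← h2]; field_simp
    have e3 : D.avg (d.J R i) = (d.x' i R + ((n : ℝ) - 1) / R * d.x i R
      + ((n : ℝ) - 2) * d.l R * d.x i R
      + ((n : ℝ) - 1) * d.l R * D.avg (d.KNN R * D.N i)) / d.f R ^ 2 := by
      rw [← h3]; field_simp
    rw [e2, e3]
    simp only [P, Pi.mul_apply, id, Pi.div_apply]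
    rw [hl]
    generalize D.avg (d.KNN R * D.N i) = k
    generalize d.x i R = xx
    generalize d.x' i R = xp
    generalize d.h R = hh at *
    generalize d.f R = ff at *
    generalize d.T R = TT at *
    field_simp
    ring
  · filter_upwards with R'
    simp only [P, Pi.mul_apply, Pi.div_apply, id]

theorem two_MT {R : ℝ} (hR : d.a ≤ R) : 2 * (d.M R / d.T R) = 1 - d.Ns R := by
  have hT := d.T_pos hR
  simp only [M, Ns]
  field_simp
  ring

theorem p2_deriv (hn : 3 ≤ n) {R : ℝ} (hR : d.a < R) (hh : d.h R ≠ 0) :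
    HasDerivAt d.p2 (2 * ∑ i, d.P i R * (-(d.l R / d.h R) * (d.h R + 1 / R) * d.P i R
        + (d.T R * R * d.f R / ((n : ℝ) - 1)) *
          (D.avg (d.J R i) - (d.l R / d.h R) * D.avg (d.JN R * D.N i)))) R := by
  have h1 : HasDerivAt (fun R => ∑ i, (d.P i R) ^ 2) (∑ i, 2 * (d.P i R *
      (-(d.l R / d.h R) * (d.h R + 1 / R) * d.P i R
        + (d.T R * R * d.f R / ((n : ℝ) - 1)) *
          (D.avg (d.J R i) - (d.l R / d.h R) * D.avg (d.JN R * D.N i))))) R := by
    apply HasDerivAt.fun_sum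
    intro i _
    have := (d.P_deriv hn hR hh i).pow 2
    refine this.congr_deriv ?_
    norm_num
    ring
  rw [← Finset.mul_sum] at h1
  exact h1

theorem F_eq {R : ℝ} (hR : d.a ≤ R) :
    d.F R = (d.M R) ^ 2 - (1 - 2 * (d.M R / d.T R)) * d.p2 R := by
  rw [d.two_MT hR, F]; ring

theorem F_deriv (hn : 3 ≤ n) {R : ℝ} (hR : d.a < R) (hh : d.h R ≠ 0) :
    HasDerivAt d.F (2 * ((d.M R + d.p2 R / d.T R) *
      ((d.T R * R ^ 2 * d.f R ^ 2 / ((n : ℝ) - 1)) * D.avg (d.B R))
      - ((n : ℝ) - 2) * (d.M R / d.T R) * d.h R * d.p2 R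
      - d.Ns R * ∑ i, d.P i R * (-(d.l R / d.h R) * (d.h R + 1 / R) * d.P i R
        + (d.T R * R * d.f R / ((n : ℝ) - 1)) *
          (D.avg (d.J R i) - (d.l R / d.h R) * D.avg (d.JN R * D.N i))))) R := by
  have hM := d.M_deriv hn hR
  have hT := d.T_deriv hn hR
  have hp := d.p2_deriv hn hR hh
  have hTpos := d.T_pos hR.le
  have h1 := (hM.pow 2).sub ((((hM.div hT hTpos.ne').const_mul 2).const_sub 1).mul hp)
  refine (h1.congr_deriv ?_).congr_of_eventuallyEq ?_
  · have hN : d.Ns R = 1 - 2 * (d.M R / d.T R) := by rw [d.two_MT hR.le]; ring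
    rw [hN]
    simp only [Pi.div_apply]
    generalize (∑ i, d.P i R * (-(d.l R / d.h R) * (d.h R + 1 / R) * d.P i R
        + (d.T R * R * d.f R / ((n : ℝ) - 1)) *
          (D.avg (d.J R i) - (d.l R / d.h R) * D.avg (d.JN R * D.N i)))) = Z
    norm_num
    field_simp
    ring
  · filter_upwards [lt_mem_nhds hR] with R' hR'
    rw [d.F_eq hR'.le]
    simp only [Pi.sub_apply, Pi.pow_apply, Pi.mul_apply, Pi.div_apply]

theorem avg_NN_B (hn : 3 ≤ n) {R : ℝ} (hR : d.a < R) (i j : Fin n) :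
    D.avg (D.N i * D.N j * d.B R) = (if i = j then (1 / (n : ℝ)) else 0) * D.avg (d.B R)
      + d.c R / (d.f R ^ 3 * R) * D.avg (d.X R i * D.N j + d.X R j * D.N i) := by
  have hf := d.f_pos R hR.le
  have hR0 := d.pos_of_lt hR
  have hn' : (3 : ℝ) ≤ n := by exact_mod_cast hn
  have hn1 : (0 : ℝ) < (n : ℝ) - 1 := by linarith only [hn']
  have h3 := d.kap_eq hn hR.le
  set Y : C(S, ℝ) := ∑ i, d.X R i ^ 2 + (1 / 2 : ℝ) • d.Q R with hY
  set r0 : ℝ := d.Rg R + 1 / (d.f R) ^ 4 *
        ((((n : ℝ) - 2) / ((n : ℝ) - 1)) * (d.kap R) ^ 2) with hr0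
  set dl : ℝ := if i = j then (1 / (n : ℝ)) else 0 with hdl
  -- averages of the energy density
  have hmu0 : 2 * D.avg (d.mu R) = r0 + (2 * d.kap R / (d.f R) ^ 4) * D.avg (d.KNN R)
      - (2 / (d.f R) ^ 4) * D.avg Y := d.avg_mu hR
  have hmu2 : 2 * D.avg (D.N i * D.N j * d.mu R) = r0 * dl
      + (2 * d.kap R / (d.f R) ^ 4) * D.avg (d.KNN R * (D.N i * D.N j))
      - (2 / (d.f R) ^ 4) * D.avg (D.N i * D.N j * Y) := by
    have h0 : (2 : ℝ) • (D.N i * D.N j * d.mu R) = r0 • (D.N i * D.N j)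
        + (2 * d.kap R / (d.f R) ^ 4) • (d.KNN R * (D.N i * D.N j))
        - (2 / (d.f R) ^ 4) • (D.N i * D.N j * Y) := by
      have h1 : (2 : ℝ) • (D.N i * D.N j * d.mu R) = D.N i * D.N j * ((2 : ℝ) • d.mu R) := by
        rw [mul_smul_comm]
      rw [h1, d.ham_C hR]
      ext s
      simp only [ContinuousMap.coe_mul, Pi.mul_apply, ContinuousMap.coe_smul, Pi.smul_apply,
        smul_eq_mul, ContinuousMap.coe_add, Pi.add_apply, ContinuousMap.const_apply,
        ContinuousMap.coe_sub, Pi.sub_apply, hY, hr0, ContinuousMap.coe_sum, Finset.sum_apply,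
        ContinuousMap.coe_pow, Pi.pow_apply]
      ring
    have h1 := congrArg D.avg h0
    rw [map_smul, map_sub, map_add, map_smul, map_smul, map_smul, D.avg_NN] at h1
    simpa only [smul_eq_mul] using h1
  -- averages of the momentum density
  have hj0 : d.f R ^ 2 * D.avg (d.JN R) =
    ((n : ℝ) - 1) * d.h R * D.avg (d.KNN R) - (1 / R - d.l R) * d.kap R - d.kap' R := d.momB R hR
  have hj2 : d.f R ^ 2 * D.avg (d.JN R * (D.N i * D.N j)) =
    ((n : ℝ) - 1) * d.h R * D.avg (d.KNN R * (D.N i * D.N j))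
      - ((1 / R - d.l R) * d.kap R + d.kap' R) * dl
      - (1 / R) * D.avg (d.X R i * D.N j + d.X R j * D.N i) := d.momE R hR i j
  have e0 : D.N i * D.N j * d.B R = d.h R • (D.N i * D.N j * d.mu R)
      - (d.c R / d.f R) • (d.JN R * (D.N i * D.N j))
      + (d.h R / d.f R ^ 4) • (D.N i * D.N j * Y) := by
    ext s
    simp only [B, ContinuousMap.coe_mul, Pi.mul_apply, ContinuousMap.coe_smul, Pi.smul_apply,
      smul_eq_mul, ContinuousMap.coe_add, Pi.add_apply, ContinuousMap.coe_sub, Pi.sub_apply, hY]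
    ring
  rw [e0, map_add, map_sub, map_smul, map_smul, map_smul, d.avg_B R]
  simp only [smul_eq_mul]
  have e1 : D.avg (D.N i * D.N j * d.mu R) = (r0 * dl
      + (2 * d.kap R / (d.f R) ^ 4) * D.avg (d.KNN R * (D.N i * D.N j))
      - (2 / (d.f R) ^ 4) * D.avg (D.N i * D.N j * Y)) / 2 := by linarith only [hmu2]
  have e1' : D.avg (d.mu R) = (r0 + (2 * d.kap R / (d.f R) ^ 4) * D.avg (d.KNN R)
      - (2 / (d.f R) ^ 4) * D.avg Y) / 2 := by linarith only [hmu0]
  have e2 : D.avg (d.JN R * (D.N i * D.N j)) = (((n : ℝ) - 1) * d.h R *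
      D.avg (d.KNN R * (D.N i * D.N j)) - ((1 / R - d.l R) * d.kap R + d.kap' R) * dl
      - (1 / R) * D.avg (d.X R i * D.N j + d.X R j * D.N i)) / d.f R ^ 2 := by
    rw [← hj2]; field_simp
  have e2' : D.avg (d.JN R) = (((n : ℝ) - 1) * d.h R * D.avg (d.KNN R)
      - (1 / R - d.l R) * d.kap R - d.kap' R) / d.f R ^ 2 := by
    rw [← hj0]; field_simp
  rw [e1, e1', e2, e2', h3]
  clear_value r0 dl
  generalize D.avg (d.KNN R * (D.N i * D.N j)) = k2
  generalize D.avg (d.KNN R) = k0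
  generalize D.avg (D.N i * D.N j * Y) = y2
  generalize D.avg Y = y0
  generalize D.avg (d.X R i * D.N j + d.X R j * D.N i) = x2
  generalize d.kap' R = kp
  generalize d.l R = ll
  generalize d.h R = hh at *
  generalize d.c R = cc at *
  generalize d.f R = ff at *
  field_simp
  ring

theorem avg_qq_B (hn : 3 ≤ n) {R : ℝ} (hR : d.a < R) (P : Fin n → ℝ) (p : ℝ)
    (hp : p = ∑ i, P i ^ 2) :
    D.avg (D.q P ^ 2 * d.B R) = p / n * D.avg (d.B R)
      + 2 * d.c R / (d.f R ^ 3 * R) * D.avg (D.q P * ∑ i, P i • d.X R i) := by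
  have h1 : D.q P ^ 2 * d.B R = ∑ i, ∑ j, (P i * P j) • (D.N i * D.N j * d.B R) := by
    ext s
    simp only [D.q_apply, sq, ContinuousMap.coe_sum,
      Finset.sum_apply, ContinuousMap.coe_smul, Pi.smul_apply, ContinuousMap.coe_mul,
      Pi.mul_apply, smul_eq_mul]
    rw [Finset.sum_mul_sum, Finset.sum_mul]
    refine Finset.sum_congr rfl fun i _ => ?_
    rw [Finset.sum_mul]
    refine Finset.sum_congr rfl fun j _ => by ring
  have h2 : D.q P * ∑ i, P i • d.X R i =
      (1 / 2 : ℝ) • ∑ i, ∑ j, (P i * P j) • (d.X R i * D.N j + d.X R j * D.N i) := by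
    ext s
    simp only [D.q_apply, ContinuousMap.coe_sum,
      Finset.sum_apply, ContinuousMap.coe_smul, Pi.smul_apply, ContinuousMap.coe_mul,
      Pi.mul_apply, smul_eq_mul, ContinuousMap.coe_add, Pi.add_apply, mul_add]
    simp only [Finset.sum_add_distrib]
    have e1 : ∑ i, ∑ j, P i * P j * (d.X R i s * D.N j s) =
        (∑ j, P j * D.N j s) * ∑ i, P i * d.X R i s := by
      rw [Finset.sum_mul_sum, Finset.sum_comm]
      refine Finset.sum_congr rfl fun i _ => Finset.sum_congr rfl fun j _ => by ring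
    have e2 : ∑ i, ∑ j, P i * P j * (d.X R j s * D.N i s) =
        (∑ j, P j * D.N j s) * ∑ i, P i * d.X R i s := by
      rw [Finset.sum_mul_sum]
      refine Finset.sum_congr rfl fun i _ => Finset.sum_congr rfl fun j _ => by ring
    rw [e1, e2]; ring
  rw [h1, h2]
  simp only [map_sum, map_smul, smul_eq_mul, d.avg_NN_B hn hR]
  have h3 : ∑ i, ∑ j, P i * P j * ((if i = j then (1 / (n : ℝ)) else 0) * D.avg (d.B R)
      + d.c R / (d.f R ^ 3 * R) * D.avg (d.X R i * D.N j + d.X R j * D.N i)) =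
      (∑ i, ∑ j, P i * P j * ((if i = j then (1 / (n : ℝ)) else 0) * D.avg (d.B R)))
      + d.c R / (d.f R ^ 3 * R) *
        ∑ i, ∑ j, P i * P j * D.avg (d.X R i * D.N j + d.X R j * D.N i) := by
    rw [Finset.mul_sum, ← Finset.sum_add_distrib]
    refine Finset.sum_congr rfl fun i _ => ?_
    rw [Finset.mul_sum, ← Finset.sum_add_distrib]
    refine Finset.sum_congr rfl fun j _ => by ring
  have h4 : ∑ i, ∑ j, P i * P j * ((if i = j then (1 / (n : ℝ)) else 0) * D.avg (d.B R)) =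
      p / n * D.avg (d.B R) := by
    have : ∀ i, ∑ j, P i * P j * ((if i = j then (1 / (n : ℝ)) else 0) * D.avg (d.B R)) =
        P i ^ 2 * (1 / n * D.avg (d.B R)) := by
      intro i
      rw [Finset.sum_eq_single i]
      · rw [if_pos rfl]; ring
      · intro j _ hj; simp [hj.symm]
      · simp only [Finset.mem_univ, not_true_eq_false, ↓reduceIte, one_div, mul_eq_zero, or_self, inv_eq_zero, Nat.cast_eq_zero, IsEmpty.forall_iff]
    simp only [this]
    rw [← Finset.sum_mul, ← hp]; ring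
  rw [h3, h4]
  ring

/-- monotonicity of `F` -/
theorem F_deriv_nonneg (hn : 3 ≤ n) {R : ℝ} (hR : d.a < R) (hh : 0 < d.h R)
    (hc : (d.c R) ^ 2 < (d.h R) ^ 2) (hM : 0 < d.M R) (hF : 0 ≤ d.F R) :
    ∃ F', HasDerivAt d.F F' R ∧ 0 ≤ F' := by
  refine ⟨_, d.F_deriv hn hR hh.ne', ?_⟩
  have hf := d.f_pos R hR.le
  have hR0 := d.pos_of_lt hR
  have hT := d.T_pos hR.le
  have hMT := d.two_MT hR.le
  have hl : d.l R = d.h R - 1 / R := by simp [h]
  have key := key_main2 D hn (fun i => d.P i R) (fun i => d.x i R) R (d.f R) (d.h R) (d.c R)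
    (d.l R) (d.T R) (d.M R) (d.M R + d.p2 R / d.T R) (d.p2 R) (d.Ns R) rfl hR0 hf hh hM hT hc rfl
    hl rfl hMT hF (d.mu R) (d.JN R) (d.Q R) (d.J R) (d.X R) rfl (d.X_tan R hR)
    (fun i => d.x_eq i R hR) (fun i => rfl) (d.Q_nonneg R hR) (d.mu_nonneg R hR) (d.dec R hR)
    (d.B R) rfl (fun i => d.avg_N_B hn hR i) (d.avg_qq_B hn hR _ _ rfl)
  linarith only [key]

theorem M_deriv_nonneg (hn : 3 ≤ n) {R : ℝ} (hR : d.a < R) (hh : 0 < d.h R)
    (hc : (d.c R) ^ 2 < (d.h R) ^ 2) :
    ∃ M', HasDerivAt d.M M' R ∧ 0 ≤ M' := by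
  refine ⟨_, d.M_deriv hn hR, ?_⟩
  have hf := d.f_pos R hR.le
  have hR0 := d.pos_of_lt hR
  have hn' : (3 : ℝ) ≤ n := by exact_mod_cast hn
  have hn1 : (0 : ℝ) < (n : ℝ) - 1 := by linarith only [hn']
  have hT := d.T_pos hR.le
  apply mul_nonneg (by (clear * - hT hR0 hf hn1; positivity))
  apply D.avg_nonneg
  intro s
  have h1 : ∀ s, (d.JN R s) ^ 2 ≤ (d.f R * d.mu R s) ^ 2 := by
    intro s
    have e : d.JN R s = ∑ i, D.N i s * d.J R i s := by
      simp only [JN, ContinuousMap.coe_sum, ContinuousMap.coe_mul, Finset.sum_apply, Pi.mul_apply]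
    rw [e]
    have := Finset.sum_mul_sq_le_sq_mul_sq Finset.univ (fun i => D.N i s) (fun i => d.J R i s)
    rw [D.N_sq, one_mul] at this
    exact this.trans (d.dec R hR s)
  have hmu := d.mu_nonneg R hR s
  have h2 : |d.JN R s| ≤ d.f R * d.mu R s := abs_le_of_sq_le_sq (h1 s) (by (clear * - hf hmu; positivity))
  have h3 : |d.c R| ≤ d.h R := abs_le_of_sq_le_sq hc.le hh.le
  have h4 : (d.c R / d.f R) * d.JN R s ≤ d.h R * d.mu R s := by
    calc (d.c R / d.f R) * d.JN R s ≤ |(d.c R / d.f R) * d.JN R s| := le_abs_self _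
      _ = |d.c R| / d.f R * |d.JN R s| := by rw [abs_mul, abs_div, abs_of_pos hf]
      _ ≤ d.h R / d.f R * (d.f R * d.mu R s) := by
          apply mul_le_mul (div_le_div_of_nonneg_right h3 hf.le) h2 (abs_nonneg _) (by positivity)
      _ = d.h R * d.mu R s := by field_simp
  have h5 : 0 ≤ (d.h R / d.f R ^ 4) * (∑ i, d.X R i s ^ 2 + (1 / 2) * d.Q R s) := by
    have := d.Q_nonneg R hR s
    have h6 : 0 ≤ ∑ i, d.X R i s ^ 2 := Finset.sum_nonneg fun i _ => sq_nonneg _
    (clear * - hh hf this; positivity)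
  simp only [B, ContinuousMap.coe_smul, Pi.smul_apply,
      smul_eq_mul, ContinuousMap.coe_add, Pi.add_apply, ContinuousMap.coe_sub, Pi.sub_apply,
      ContinuousMap.coe_sum, Finset.sum_apply, ContinuousMap.coe_pow, Pi.pow_apply]
  linarith only [h5, h4]

end ReducedData2

end Vale.Agent.P366
end
end
end

section

section

section

open Set Function Filter Topology

namespace Vale.Agent.P366

namespace ReducedData2

variable {n : ℕ} {S : Type*} [TopologicalSpace S] {D : SphAvg n S} (d : ReducedData2 n S D)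

theorem h_cont : ContinuousOn d.h (Ici d.a) := by
  have h1 : ContinuousOn (fun R : ℝ => 1 / R) (Ici d.a) := by
    apply ContinuousOn.div continuousOn_const continuousOn_id
    intro x hx
    exact (lt_of_lt_of_le d.a_pos hx).ne'
  exact d.l_cont.add h1

theorem c_cont (hn : 3 ≤ n) : ContinuousOn d.c (Ici d.a) := by
  have hn' : (3 : ℝ) ≤ n := by exact_mod_cast hn
  have hn1 : (0 : ℝ) < (n : ℝ) - 1 := by linarith only [hn']
  apply d.kap_cont.div (continuousOn_const.mul d.f_cont)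
  intro x hx
  exact (mul_pos hn1 (d.f_pos x hx)).ne'

theorem rho_cont : ContinuousOn d.rho (Ici d.a) := continuousOn_id.mul d.f_cont

theorem T_cont : ContinuousOn d.T (Ici d.a) := d.rho_cont.pow _

theorem Ns_cont (hn : 3 ≤ n) : ContinuousOn d.Ns (Ici d.a) :=
  (continuousOn_id.pow 2).mul ((d.h_cont.pow 2).sub ((d.c_cont hn).pow 2))

theorem M_cont (hn : 3 ≤ n) : ContinuousOn d.M (Ici d.a) := by
  have h1 : ContinuousOn (fun R => 1 - R ^ 2 * (d.h R) ^ 2 + R ^ 2 * (d.c R) ^ 2) (Ici d.a) :=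
    (continuousOn_const.sub ((continuousOn_id.pow 2).mul (d.h_cont.pow 2))).add
      ((continuousOn_id.pow 2).mul ((d.c_cont hn).pow 2))
  exact (d.T_cont.mul h1).div_const 2

theorem P_cont (i : Fin n) : ContinuousOn (d.P i) (Ici d.a) := by
  have h1 : ContinuousOn (fun R => d.T R * R / d.f R) (Ici d.a) :=
    (d.T_cont.mul continuousOn_id).div d.f_cont (fun x hx => (d.f_pos x hx).ne')
  exact (h1.mul (d.x_cont i)).div_const _

theorem p2_cont : ContinuousOn d.p2 (Ici d.a) :=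
  continuousOn_finsetSum _ fun i _ => (d.P_cont i).pow 2

theorem F_cont (hn : 3 ≤ n) : ContinuousOn d.F (Ici d.a) :=
  ((d.M_cont hn).pow 2).sub ((d.Ns_cont hn).mul d.p2_cont)

theorem lim_Rh : Tendsto (fun R => R * d.h R) atTop (𝓝 1) := by
  have h1 : Tendsto (fun R => R * d.l R + 1) atTop (𝓝 (0 + 1)) := d.lim_l.add_const 1
  rw [zero_add] at h1
  refine h1.congr' ?_
  filter_upwards [eventually_gt_atTop 0] with R hR
  simp only [h]; field_simp

theorem lim_Rc (hn : 3 ≤ n) : Tendsto (fun R => R * d.c R) atTop (𝓝 0) := by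
  have hn' : (3 : ℝ) ≤ n := by exact_mod_cast hn
  have hn1 : (0 : ℝ) < (n : ℝ) - 1 := by linarith only [hn']
  have h1 := d.lim_kap.div (d.lim_f.const_mul ((n : ℝ) - 1)) (by simpa only [mul_one, ne_eq] using hn1.ne')
  rw [zero_div] at h1
  refine h1.congr' ?_
  filter_upwards with R
  simp only [c, Pi.div_apply]; ring

theorem lim_Ns (hn : 3 ≤ n) : Tendsto d.Ns atTop (𝓝 1) := by
  have h1 := (d.lim_Rh.pow 2).sub ((d.lim_Rc hn).pow 2)
  have e : (1 : ℝ) ^ 2 - 0 ^ 2 = 1 := by norm_num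
  rw [e] at h1
  refine h1.congr' ?_
  filter_upwards with R
  simp only [Ns]; ring

/-- the outermost sphere with `θ₊ θ₋ = 0` -/
theorem exists_R2 (hn : 3 ≤ n) : ∃ R2, d.a ≤ R2 ∧ d.Ns R2 = 0 ∧
    ∀ R, R2 < R → 0 < d.Ns R ∧ 0 < d.h R := by
  have hn' : (3 : ℝ) ≤ n := by exact_mod_cast hn
  have hn1 : (0 : ℝ) < (n : ℝ) - 1 := by linarith only [hn']
  set Z : Set ℝ := Ici d.a ∩ d.Ns ⁻¹' (Iic 0) with hZ
  have hZc : IsClosed Z := (d.Ns_cont hn).preimage_isClosed_of_isClosed isClosed_Ici isClosed_Iic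
  have hevN : ∀ᶠ R in atTop, 0 < d.Ns R := (d.lim_Ns hn).eventually (lt_mem_nhds one_pos)
  obtain ⟨b1, hb1⟩ := eventually_atTop.mp hevN
  have hZb : BddAbove Z := ⟨b1, fun x hx => by
    by_contra hlt
    push Not at hlt
    have := hb1 x hlt.le
    have h2 : d.Ns x ≤ 0 := hx.2
    linarith only [h2, this]⟩
  have hevh : ∀ᶠ R in atTop, 0 < d.h R := by
    have h1 : ∀ᶠ R in atTop, 0 < R * d.h R := d.lim_Rh.eventually (lt_mem_nhds one_pos)
    filter_upwards [h1, eventually_gt_atTop 0] with R h1 h2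
    exact (mul_pos_iff_of_pos_left h2).mp h1
  obtain ⟨b2, hb2⟩ := eventually_atTop.mp hevh
  have hZne : Z.Nonempty := by
    rcases le_or_gt 0 (d.h d.a) with h0 | h0
    · refine ⟨d.a, mem_Ici.mpr le_rfl, ?_⟩
      have h1 : d.h d.a + d.c d.a ≤ 0 := d.trapped
      have h2 : (d.h d.a) ^ 2 ≤ (d.c d.a) ^ 2 := by linarith only [mul_nonneg (sub_nonneg.2 h1) (sub_nonneg.2 h1), mul_nonneg h0 (sub_nonneg.2 h1)]
      show d.Ns d.a ≤ 0
      simp only [Ns]
      linarith only [mul_nonneg (sub_nonneg.2 h2) (sq_nonneg d.a)]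
    · -- h(a) < 0, so h vanishes somewhere
      set b := max d.a b2 with hb
      have hhb : 0 < d.h b := hb2 b (le_max_right _ _)
      have hcI : ContinuousOn d.h (Icc d.a b) := d.h_cont.mono Icc_subset_Ici_self
      have := intermediate_value_Icc (le_max_left d.a b2) hcI
      obtain ⟨R1, hR1, hR1'⟩ := this ⟨h0.le, hhb.le⟩
      refine ⟨R1, hR1.1, ?_⟩
      show d.Ns R1 ≤ 0
      simp only [Ns, hR1']
      (refine le_of_not_gt fun hng_ => ?_; linarith only [mul_nonneg (le_of_lt hng_) (mul_nonneg (sq_nonneg R1) (sq_nonneg (d.c R1))), mul_pos hng_ hng_])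
  have hmem : sSup Z ∈ Z := hZc.csSup_mem hZne hZb
  have hgt : ∀ R, sSup Z < R → 0 < d.Ns R := by
    intro R hR
    by_contra hle
    push Not at hle
    have : R ∈ Z := ⟨le_trans hmem.1 hR.le, hle⟩
    exact absurd (le_csSup hZb this) (not_le.mpr hR)
  refine ⟨sSup Z, hmem.1, ?_, ?_⟩
  · apply le_antisymm hmem.2
    have hcw : ContinuousWithinAt d.Ns (Ioi (sSup Z)) (sSup Z) :=
      ((d.Ns_cont hn) _ hmem.1).mono (fun x hx => mem_Ici.mpr (le_trans hmem.1 (le_of_lt hx)))
    refine ge_of_tendsto hcw ?_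
    filter_upwards [self_mem_nhdsWithin] with R hR
    exact (hgt R hR).le
  · intro R hR
    refine ⟨hgt R hR, ?_⟩
    by_contra hle
    push Not at hle
    have hne : ∀ R', sSup Z < R' → d.h R' ≠ 0 := by
      intro R' hR' h0
      have h1 := hgt R' hR'
      simp only [Ns, h0] at h1
      linarith only [mul_nonneg (le_of_lt h1) (mul_nonneg (sq_nonneg R') (sq_nonneg (d.c R'))), mul_pos h1 h1]
    set b := max R b2 with hb
    have hhb : 0 < d.h b := hb2 b (le_max_right _ _)
    have hcI : ContinuousOn d.h (Icc R b) :=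
      d.h_cont.mono (fun x hx => le_trans hmem.1 (le_trans hR.le hx.1))
    have := intermediate_value_Icc (le_max_left R b2) hcI
    obtain ⟨R1, hR1, hR1'⟩ := this ⟨hle, hhb.le⟩
    exact hne R1 (lt_of_lt_of_le hR hR1.1) hR1'

/-- **Reduced theorem.** -/
theorem main (hn : 3 ≤ n) (E : ℝ) (Pinf : Fin n → ℝ) (hE : Tendsto d.M atTop (𝓝 E))
    (hP : ∀ i, Tendsto (d.P i) atTop (𝓝 (Pinf i))) :
    ∃ R2, d.a ≤ R2 ∧ d.Ns R2 = 0 ∧ 0 < E ∧
      (d.rho R2 ^ (n - 2) / 2) ^ 2 ≤ E ^ 2 - ∑ i, Pinf i ^ 2 := by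
  obtain ⟨R2, hR2, hN2, hbeyond⟩ := d.exists_R2 hn
  have hM2 : d.M R2 = d.rho R2 ^ (n - 2) / 2 := by
    have h1 := d.two_MT hR2
    rw [hN2, sub_zero] at h1
    have hT := d.T_pos hR2
    have : d.M R2 = d.T R2 / 2 := by
      field_simp at h1 ⊢
      linarith only [h1]
    rw [this, T]
  have hM2pos : 0 < d.M R2 := by
    rw [hM2]; have := d.rho_pos hR2; positivity
  have hcs : ∀ R, R2 < R → (d.c R) ^ 2 < (d.h R) ^ 2 := by
    intro R hR
    have h1 := (hbeyond R hR).1
    have hR0 : 0 < R := lt_trans (lt_of_lt_of_le d.a_pos hR2) hR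
    simp only [Ns] at h1
    have h2 : 0 < (d.h R) ^ 2 - (d.c R) ^ 2 := by
      by_contra hle
      push Not at hle
      linarith only [mul_nonneg (sub_nonneg.2 hle) (sq_nonneg R), h1]
    linarith only [h2]
  have hMmono : MonotoneOn d.M (Ici R2) := by
    apply monotoneOn_of_deriv_nonneg (convex_Ici _)
    · exact (d.M_cont hn).mono (Ici_subset_Ici.mpr hR2)
    · intro x hx
      rw [interior_Ici] at hx
      exact (d.M_deriv hn (lt_of_le_of_lt hR2 hx)).differentiableAt.differentiableWithinAt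
    · intro x hx
      rw [interior_Ici] at hx
      obtain ⟨M', h1, h2⟩ := d.M_deriv_nonneg hn (lt_of_le_of_lt hR2 hx)
        (hbeyond x hx).2 (hcs x hx)
      rw [h1.deriv]; exact h2
  have hMge : ∀ R, R2 ≤ R → d.M R2 ≤ d.M R := fun R hR => hMmono (mem_Ici.mpr le_rfl) hR hR
  have hF2 : d.F R2 = (d.M R2) ^ 2 := by simp [F, hN2]
  have hFge : ∀ R, R2 ≤ R → d.F R2 ≤ d.F R := by
    apply bootstrap_mono
    · exact (d.F_cont hn).mono (Ici_subset_Ici.mpr hR2)
    · rw [hF2]; (clear * - hM2pos; positivity)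
    · intro R hR hF
      exact d.F_deriv_nonneg hn (lt_of_le_of_lt hR2 hR) (hbeyond R hR).2 (hcs R hR)
        (lt_of_lt_of_le hM2pos (hMge R hR.le)) hF
  have hEge : d.M R2 ≤ E := by
    refine ge_of_tendsto hE ?_
    filter_upwards [eventually_ge_atTop R2] with R hR
    exact hMge R hR
  refine ⟨R2, hR2, hN2, lt_of_lt_of_le hM2pos hEge, ?_⟩
  have hFlim : Tendsto d.F atTop (𝓝 (E ^ 2 - 1 * ∑ i, Pinf i ^ 2)) := by
    have h1 : Tendsto d.p2 atTop (𝓝 (∑ i, Pinf i ^ 2)) :=
      tendsto_finsetSum _ fun i _ => (hP i).pow 2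
    exact (hE.pow 2).sub ((d.lim_Ns hn).mul h1)
  rw [one_mul] at hFlim
  rw [← hM2, ← hF2]
  refine ge_of_tendsto hFlim ?_
  filter_upwards [eventually_ge_atTop R2] with R hR
  exact hFge R hR

end ReducedData2

end Vale.Agent.P366
end
end
end

section

section

section

open MeasureTheory Metric Filter Topology Set
open scoped ContDiff ENNReal

noncomputable section
namespace Vale.Agent.P366

variable {n : ℕ}

namespace RotData

variable (d : RotData n)

/-- The hypotheses needed to pass to the reduced problem. -/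
structure Good2 (kap : ℝ → ℝ) : Prop where
  hk : ∀ x : E n, d.a ≤ ‖x‖ → d.kE x = kap ‖x‖
  kap_diff : ∀ r, d.b < r → DifferentiableAt ℝ kap r
  dec : ∀ x : E n, d.a < ‖x‖ → momNorm d.g d.K x ≤ mu d.g d.K x
  trapped : (d.l d.a + 1 / d.a) + kap d.a / (((n : ℝ) - 1) * d.f d.a) ≤ 0
  lim_l : Tendsto (fun R => R * d.l R) atTop (𝓝 0)
  lim_kap : Tendsto (fun R => R * kap R) atTop (𝓝 0)
  lim_f : Tendsto d.f atTop (𝓝 1)

/-- The reduced data of a rotationally symmetric metric. -/
def toReduced2 [Nontrivial (E n)] (hn : 2 ≤ n) {kap : ℝ → ℝ} (hG : d.Good2 kap) :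
    ReducedData2 n (Sph n) (sphAvg n (by omega)) where
  a := d.a
  f := d.f
  l := d.l
  l' := deriv d.l
  kap := kap
  kap' := deriv kap
  x := d.xm
  x' := d.xm'
  mu R := mkC d.muC R
  KNN R := mkC d.KNN R
  Q R := mkC d.Qc R
  J R i := mkC (d.Jx i) R
  X R i := mkC (d.Xc i) R
  a_pos := d.a_pos
  f_pos R hR := d.f_pos R (lt_of_lt_of_le d.hba hR)
  f_deriv R hR := by
    rw [← d.deriv_f (d.hba.trans hR)]
    exact (d.f_diff (d.hba.trans hR)).hasDerivAt
  l_deriv R hR := (d.l_diff (d.hba.trans hR)).hasDerivAt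
  kap_deriv R hR := (hG.kap_diff R (d.hba.trans hR)).hasDerivAt
  x_deriv i R hR := d.xm_hasDerivAt hG.hk hn i hR
  f_cont := d.f_smooth.continuousOn.mono (fun R hR => lt_of_lt_of_le d.hba hR)
  l_cont := d.l_smooth.continuousOn.mono (fun R hR => lt_of_lt_of_le d.hba hR)
  kap_cont := fun R hR =>
    (hG.kap_diff R (lt_of_lt_of_le d.hba hR)).continuousAt.continuousWithinAt
  x_cont i := by
    have h1 := sphI_continuousOn d.hb (d.Xc_cont i)
    exact (h1.div_const _).mono (fun R hR => lt_of_lt_of_le d.hba hR)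
  x_eq i R hR := by
    refine (avg_eq_av (h := d.Xc i) fun θ => ?_).symm
    exact mkC_apply d.hb (d.hba.trans hR) (d.Xc_cont i) θ
  X_tan R hR θ := by
    have hRb := d.hba.trans hR
    have hR0 := d.a_pos.trans hR
    have h1 := d.Xc_tan (x := R • (θ : E n)) (by rw [norm_smul_sph hR0.le]; exact hRb)
    rw [← h1]
    refine Finset.sum_congr rfl fun i _ => ?_
    rw [mkC_apply d.hb hRb (d.Xc_cont i), Nc_smul hR0]
    rfl
  Q_nonneg R hR θ := by
    have hRb := d.hba.trans hR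
    have hR0 := d.a_pos.trans hR
    rw [mkC_apply d.hb hRb d.Qc_cont]
    exact d.Qc_nonneg hn (by rw [norm_smul_sph hR0.le]; exact hRb)
  ham R hR θ := by
    have hRb := d.hba.trans hR
    have hR0 := d.a_pos.trans hR
    have hnm : ‖R • (θ : E n)‖ = R := norm_smul_sph hR0.le θ
    have hkE := hG.hk (R • (θ : E n)) (by rw [hnm]; exact hR.le)
    rw [hnm] at hkE
    simp only [mkC_apply d.hb hRb d.muC_cont, mkC_apply d.hb hRb d.KNN_cont,
      mkC_apply d.hb hRb d.Qc_cont, mkC_apply d.hb hRb (d.Xc_cont _)]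
    unfold muC
    rw [hnm, hkE]
    ring
  momB R hR := by
    have hRb := d.hba.trans hR
    have hR0 := d.a_pos.trans hR
    have h1 := d.momB hG.hk hn hR (fun r hr => hG.kap_diff r (d.hba.trans hr))
    change d.f R ^ 2 * avgL n (∑ i, coordN i * mkC (d.Jx i) R) = ((n : ℝ) - 1) * (d.l R + 1 / R)
      * avgL n (mkC d.KNN R) - (1 / R - d.l R) * kap R - deriv kap R
    rw [avg_eq_av (h := d.JN) (R := R), avg_eq_av (h := d.KNN) (R := R), h1]
    · intro θ; exact mkC_apply d.hb hRb d.KNN_cont θ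
    · intro θ
      rw [ContinuousMap.coe_sum, Finset.sum_apply]
      unfold JN
      refine Finset.sum_congr rfl fun i _ => ?_
      rw [ContinuousMap.mul_apply, mkC_apply d.hb hRb (d.Jx_cont i), Nc_smul hR0]
      rfl
  momC R hR i := by
    have hRb := d.hba.trans hR
    have hR0 := d.a_pos.trans hR
    have h1 := d.momC hG.hk hn i hR
    change d.f R ^ 2 * avgL n ((∑ j, coordN j * mkC (d.Jx j) R) * coordN i) =
      ((n : ℝ) - 1) * (d.l R + 1 / R) * avgL n (mkC d.KNN R * coordN i) - d.xm i R / R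
    rw [avg_eq_av (h := fun x => d.JN x * Nc i x) (R := R),
      avg_eq_av (h := fun x => d.KNN x * Nc i x) (R := R), h1]
    · intro θ
      rw [ContinuousMap.mul_apply, mkC_apply d.hb hRb d.KNN_cont θ, Nc_smul hR0]
      rfl
    · intro θ
      rw [ContinuousMap.mul_apply, ContinuousMap.coe_sum, Finset.sum_apply, Nc_smul hR0]
      unfold JN
      congr 1
      refine Finset.sum_congr rfl fun i _ => ?_
      rw [ContinuousMap.mul_apply, mkC_apply d.hb hRb (d.Jx_cont i), Nc_smul hR0]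
      rfl
  momD R hR i := by
    have hRb := d.hba.trans hR
    have hR0 := d.a_pos.trans hR
    change d.f R ^ 2 * avgL n (mkC (d.Jx i) R) = d.xm' i R + ((n : ℝ) - 1) / R * d.xm i R
      + ((n : ℝ) - 2) * d.l R * d.xm i R + ((n : ℝ) - 1) * d.l R * avgL n (mkC d.KNN R * coordN i)
    rw [avg_eq_av (h := d.Jx i) (R := R), avg_eq_av (h := fun x => d.KNN x * Nc i x) (R := R)]
    · unfold xm'; ring
    · intro θ
      rw [ContinuousMap.mul_apply, mkC_apply d.hb hRb d.KNN_cont θ, Nc_smul hR0]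
      rfl
    · intro θ; exact mkC_apply d.hb hRb (d.Jx_cont i) θ
  mu_nonneg R hR θ := by
    have hRb := d.hba.trans hR
    have hR0 := d.a_pos.trans hR
    have hx : d.a < ‖R • (θ : E n)‖ := by rw [norm_smul_sph hR0.le]; exact hR
    rw [mkC_apply d.hb hRb d.muC_cont, d.muC_eq hn hx]
    exact le_trans (Real.sqrt_nonneg _) (hG.dec _ hx)
  dec R hR θ := by
    have hRb := d.hba.trans hR
    have hR0 := d.a_pos.trans hR
    have hnm : ‖R • (θ : E n)‖ = R := norm_smul_sph hR0.le θ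
    have hx : d.a < ‖R • (θ : E n)‖ := by rw [hnm]; exact hR
    have hf := d.f_pos R hRb
    simp only [mkC_apply d.hb hRb d.muC_cont, mkC_apply d.hb hRb (d.Jx_cont _)]
    rw [d.muC_eq hn hx]
    have h1 := hG.dec _ hx
    have h2 : momNorm d.g d.K (R • (θ : E n)) ^ 2 ≤ mu d.g d.K (R • (θ : E n)) ^ 2 :=
      pow_le_pow_left₀ (Real.sqrt_nonneg _) h1 2
    rw [d.momNorm_sq hx.le, hnm] at h2
    simp only [d.mom_eq_Jx hx] at h2
    rw [mul_pow]
    rw [inv_mul_le_iff₀ (by positivity)] at h2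
    exact h2
  momE R hR i j := by
    have hRb := d.hba.trans hR
    have hR0 := d.a_pos.trans hR
    have h1 := d.momE hG.hk hn i j hR (fun r hr => hG.kap_diff r (d.hba.trans hr))
    change d.f R ^ 2 * avgL n ((∑ k, coordN k * mkC (d.Jx k) R) * (coordN i * coordN j)) =
      ((n : ℝ) - 1) * (d.l R + 1 / R) * avgL n (mkC d.KNN R * (coordN i * coordN j))
        - ((1 / R - d.l R) * kap R + deriv kap R) * (if i = j then 1 / (n : ℝ) else 0)
        - (1 / R) * avgL n (mkC (d.Xc i) R * coordN j + mkC (d.Xc j) R * coordN i)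
    rw [avg_eq_av (h := fun x => d.JN x * (Nc i x * Nc j x)) (R := R),
      avg_eq_av (h := fun x => d.KNN x * (Nc i x * Nc j x)) (R := R),
      avg_eq_av (h := fun x => d.Xc i x * Nc j x + d.Xc j x * Nc i x) (R := R), h1]
    · intro θ
      rw [ContinuousMap.add_apply, ContinuousMap.mul_apply, ContinuousMap.mul_apply,
        mkC_apply d.hb hRb (d.Xc_cont i) θ, mkC_apply d.hb hRb (d.Xc_cont j) θ,
        Nc_smul hR0, Nc_smul hR0]
      rfl
    · intro θ
      rw [ContinuousMap.mul_apply, ContinuousMap.mul_apply, mkC_apply d.hb hRb d.KNN_cont θ,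
        Nc_smul hR0, Nc_smul hR0]
      rfl
    · intro θ
      rw [ContinuousMap.mul_apply, ContinuousMap.mul_apply, ContinuousMap.coe_sum,
        Finset.sum_apply, Nc_smul hR0, Nc_smul hR0]
      unfold JN
      congr 1
      refine Finset.sum_congr rfl fun i _ => ?_
      rw [ContinuousMap.mul_apply, mkC_apply d.hb hRb (d.Jx_cont i), Nc_smul hR0]
      rfl
  trapped := hG.trapped
  lim_l := hG.lim_l
  lim_kap := hG.lim_kap
  lim_f := hG.lim_f

end RotData

end Vale.Agent.P366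
end
end
end
end

section

section

section

open MeasureTheory Metric Filter Topology Set
open scoped BigOperators ENNReal ContDiff

noncomputable section
namespace Vale.Agent.P366

variable {n : ℕ}

/-- The assembled theorem, with an explicit round cut. -/
theorem assembled2' (hn : 3 ≤ n) (D : Exterior n) (hAF : D.IsAF) (hDEC : D.DEC)
    (hT : D.Trapped) {m : ℝ} (hm : D.IsEnergy m) {P : E n} (hP : D.IsMomentum P)
    {R1 : ℝ} (hR1 : IsGreatest (norm '' frontier D.Ω) R1) {φ : ℝ → ℝ}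
    (hφ : ∀ x : E n, R1 ≤ ‖x‖ → D.g x = φ ‖x‖ • (1 : Matrix (Fin n) (Fin n) ℝ))
    (hc : ∀ x y : E n, R1 ≤ ‖x‖ → ‖x‖ = ‖y‖ → trS D.g D.K norm x = trS D.g D.K norm y) :
    ∃ R2 ρ : ℝ, R1 ≤ R2 ∧ 0 < ρ ∧
      D.area {x : E n | R2 ≤ ‖x‖} ≤ ENNReal.ofReal (omega n * ρ ^ (n - 1)) ∧ 0 < m ∧
      (ρ ^ (n - 2) / 2) ^ 2 ≤ m ^ 2 - ‖P‖ ^ 2 := by
  have hn2 : 2 ≤ n := by omega
  have : Nonempty (Fin n) := ⟨⟨0, by omega⟩⟩
  have : Nontrivial (E n) := inferInstance
  obtain ⟨b, hb0, hbR, hbU⟩ := D.exists_b hn2 hR1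
  have hout := D.outside_closed_subset hn2 hR1
  set d : RotData n := D.toRot hn2 hb0 hbR hbU hφ with hd
  have hk : ∀ x : E n, d.a ≤ ‖x‖ → d.kE x = d.kray hn2 ‖x‖ := fun x hx =>
    d.kray_spec hn2 hc hx
  obtain ⟨q, C, R0, hq, hR0, hdec⟩ := hAF
  have hq0 : 0 < q := by
    have : (3 : ℝ) ≤ n := by exact_mod_cast hn
    linarith only [this, hq]
  have i00 : Fin n := ⟨0, by omega⟩
  have hf1 : Tendsto d.f atTop (𝓝 1) := d.lim_f' D hn2 rfl hq0 (R0 := R0) (C := C)
    (fun x hx i j => (hdec x hx i j i00 i00).1)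
  have hl : ∀ᶠ R in atTop, |d.l R| ≤ C * R ^ (-q - 1) := d.decay_l D hn2 rfl hf1 (R0 := R0)
    (fun x hx i j k => (hdec x hx i j k i00).2.1)
  have hkap : ∀ᶠ R in atTop, |d.kray hn2 R| ≤ ((n + n ^ 2 : ℝ) * C) * R ^ (-q - 1) :=
    d.decay_kap D hk hn2 rfl (R0 := R0) (fun x hx i j => (hdec x hx i j i00 i00).2.2.2.1)
  have hG : d.Good2 (d.kray hn2) :=
    { hk := hk
      kap_diff := fun r hr => d.kray_diff hn2 hr
      dec := fun x hx => hDEC x (hout hx.le)
      trapped := by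
        obtain ⟨⟨x0, hx0f, hx0n⟩, _⟩ := hR1
        obtain ⟨F, hF, hth⟩ := hT x0 hx0f
        have h1 := d.touch hn2 (Ω := D.Ω) (x0 := x0) hx0n hx0f hout hF hth
        rw [hk x0 (le_of_eq hx0n.symm)] at h1
        have h2 : ‖x0‖ = d.a := hx0n
        rw [h2] at h1
        exact h1
      lim_l := tendsto_mul_of_decay hq0 hl
      lim_kap := tendsto_mul_of_decay hq0 hkap
      lim_f := hf1 }
  have hM := d.adm_M D hn2 rfl hq hf1 hl hkap hm
  have hPl := fun i => d.adm_P D hk hn rfl rfl hf1 hP i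
  obtain ⟨R2, hR2, -, hE, hfin⟩ := (d.toReduced2 hn2 hG).main hn m (fun i => P i) hM hPl
  have hR2' : R1 ≤ R2 := hR2
  have hfR2 : 0 < d.f R2 := d.f_pos R2 (lt_of_lt_of_le d.hba hR2)
  have hR20 : 0 < R2 := (D.R1_pos hn2 hR1).trans_le hR2'
  refine ⟨R2, R2 * d.f R2, hR2', by (clear * - hR20 hfR2; positivity), ?_, hE, ?_⟩
  · have := D.area_round d hn2 rfl hR2' (D.round_cut hn2 hR1 hR2').2
    rwa [mul_comm (d.f R2) R2] at this
  · have h1 : ‖P‖ ^ 2 = ∑ i, P i ^ 2 := EuclideanSpace.real_norm_sq_eq P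
    rw [h1]
    exact hfin

end Vale.Agent.P366
end
end
end
end

section

section

section

open MeasureTheory Metric Filter Topology Set
open scoped BigOperators ENNReal ContDiff

noncomputable section
namespace Vale.Agent.P366

variable {n : ℕ}

theorem vol_eq (n : ℕ) : Stmt.vol n = (volume : Measure (E n)) :=
  (PiLp.volume_preserving_toLp (Fin n)).map_eq

theorem sphInt_eq (R : ℝ) (h : E n → ℝ) : Stmt.sphInt R h = sphInt R h := by
  unfold Stmt.sphInt Stmt.sph sphInt
  rw [vol_eq]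

theorem omega_eq (n : ℕ) : Stmt.omega n = omega n := by
  unfold Stmt.omega
  rw [sphInt_eq]
  unfold sphInt omega
  rw [one_pow, one_mul, integral_const, smul_eq_mul, mul_one]
  rfl

theorem pd_eq {f : E n → ℝ} {x : E n} (hf : DifferentiableAt ℝ f x) (i : Fin n) :
    Stmt.pd i f x = pd i f x := hf.lineDeriv_eq_fderiv

theorem pd_eq_of_smooth {f : E n → ℝ} (hf : Stmt.Smooth f) (i : Fin n) :
    Stmt.pd i f = pd i f := by
  funext x
  exact pd_eq ((hf.differentiable (by norm_num)).differentiableAt) i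

theorem flx_eq (W : Fin n → E n → ℝ) (R : ℝ) :
    Stmt.flx W R = sphInt R (fun x => ∑ i, W i x * (x i / ‖x‖)) / (((n : ℝ) - 1) * omega n) := by
  unfold Stmt.flx
  rw [sphInt_eq, omega_eq]
  rfl

theorem sphInt_const_mul (R c : ℝ) (h : E n → ℝ) :
    sphInt R (fun x => c * h x) = c * sphInt R h := by
  unfold sphInt
  rw [integral_const_mul]
  ring

theorem energy_bridge (D : Stmt.Exterior n) {m : ℝ} (hm : D.IsEnergy m) :
    Tendsto (fun R : ℝ => 1 / (2 * ((n : ℝ) - 1) * omega n) * sphInt R (fun x =>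
      ∑ i, ∑ j, (pd j (fun y => Stmt.mat D.g y i j) x - pd i (fun y => Stmt.mat D.g y j j) x)
        * (x i / ‖x‖))) atTop (𝓝 m) := by
  refine hm.congr fun R => ?_
  rw [flx_eq]
  have h1 : sphInt R (fun x => ∑ i, (∑ j, (Stmt.pd j (fun y => D.g y i j) x
      - Stmt.pd i (fun y => D.g y j j) x)) / 2 * (x i / ‖x‖)) =
      (1 / 2) * sphInt R (fun x =>
      ∑ i, ∑ j, (pd j (fun y => Stmt.mat D.g y i j) x - pd i (fun y => Stmt.mat D.g y j j) x)
        * (x i / ‖x‖)) := by
    rw [← sphInt_const_mul]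
    congr 1
    funext x
    rw [Finset.mul_sum]
    refine Finset.sum_congr rfl fun i _ => ?_
    rw [← Finset.sum_mul]
    have h2 : ∑ j, (Stmt.pd j (fun y => D.g y i j) x - Stmt.pd i (fun y => D.g y j j) x) =
        ∑ j, (pd j (fun y => Stmt.mat D.g y i j) x - pd i (fun y => Stmt.mat D.g y j j) x) := by
      refine Finset.sum_congr rfl fun j _ => ?_
      rw [pd_eq_of_smooth (D.smooth i j).1, pd_eq_of_smooth (D.smooth j j).1]
      rfl
    rw [h2]
    ring
  rw [h1, div_eq_mul_inv]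
  have h3 : (2 * ((n : ℝ) - 1) * omega n)⁻¹ = (1 / 2) * (((n : ℝ) - 1) * omega n)⁻¹ := by
    rw [mul_assoc, mul_inv]; norm_num
  rw [one_div (2 * ((n : ℝ) - 1) * omega n), h3]
  ring

theorem momT_bridge (D : Stmt.Exterior n) (i j : Fin n) (x : E n) :
    Stmt.momT D.g D.K x i j = momT (Stmt.mat D.g) (Stmt.mat D.K) x i j := by
  unfold Stmt.momT momT
  rw [Matrix.sub_apply, Matrix.smul_apply, smul_eq_mul]
  rfl

theorem momentum_bridge (D : Stmt.Exterior n) {P : Fin n → ℝ} (hP : D.IsMomentum P) (i : Fin n) :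
    Tendsto (fun R : ℝ => 1 / (((n : ℝ) - 1) * omega n) * sphInt R (fun x =>
      ∑ j, momT (Stmt.mat D.g) (Stmt.mat D.K) x i j * (x j / ‖x‖)))
      atTop (𝓝 ((WithLp.toLp 2 P : E n) i)) := by
  refine (hP i).congr fun R => ?_
  rw [flx_eq]
  have h1 : (fun x : E n => ∑ j, Stmt.momT D.g D.K x i j * (x j / ‖x‖)) = fun x =>
      ∑ j, momT (Stmt.mat D.g) (Stmt.mat D.K) x i j * (x j / ‖x‖) := by
    funext x
    refine Finset.sum_congr rfl fun j _ => ?_
    rw [momT_bridge]
  rw [h1, div_eq_mul_inv, one_div]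
  ring

theorem isExt_round (hn : 2 ≤ n) {R2 : ℝ} (hR2 : 0 < R2) :
    Stmt.IsExt (fun x : E n => ‖x‖ ^ 2 - R2 ^ 2) := by
  have hs : Stmt.Smooth (fun x : E n => ‖x‖ ^ 2 - R2 ^ 2) :=
    (contDiff_norm_sq ℝ).sub contDiff_const
  have hset : {x : E n | 0 ≤ ‖x‖ ^ 2 - R2 ^ 2} = {x : E n | R2 ≤ ‖x‖} := by
    ext x
    simp only [mem_ofPred_eq, sub_nonneg]
    constructor
    · intro h; exact (abs_le_of_sq_le_sq' h (norm_nonneg x)).2
    · intro h; exact pow_le_pow_left₀ hR2.le h 2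
  refine ⟨hs, ?_, ?_, R2, ?_⟩
  · intro x hx
    have hx2 : ‖x‖ ^ 2 = R2 ^ 2 := by linarith only [hx]
    have hx0 : x ≠ 0 := by
      intro h
      rw [h, norm_zero] at hx2
      have : 0 < R2 ^ 2 := by positivity
      linarith only [this, hx2]
    have : ∃ i, x i ≠ 0 := by
      by_contra h
      push Not at h
      apply hx0
      ext i
      exact h i
    obtain ⟨i, hi⟩ := this
    refine ⟨i, ?_⟩
    rw [pd_eq_of_smooth hs]
    unfold pd
    have h1 : HasFDerivAt (fun x : E n => ‖x‖ ^ 2 - R2 ^ 2) (2 • innerSL ℝ x) x := by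
      have := (hasStrictFDerivAt_norm_sq x).hasFDerivAt.sub_const (R2 ^ 2)
      simpa only [hasFDerivAt_sub_const_iff] using this
    rw [h1.fderiv]
    have h8 : inner ℝ x (EuclideanSpace.single i (1 : ℝ)) = x i := by
      rw [EuclideanSpace.inner_single_right]; simp
    have h9 : (2 • innerSL ℝ x) (EuclideanSpace.single i (1 : ℝ)) = 2 * x i := by
      simp only [smul_apply, innerSL_apply_apply, h8, nsmul_eq_mul]
      norm_num
    rw [h9]
    simpa only [ne_eq, mul_eq_zero, OfNat.ofNat_ne_zero, false_or] using hi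
  · rw [hset]; exact isConnected_outside_closed hn hR2
  · intro x hx
    have hx' : R2 < ‖x‖ := hx
    have : R2 ^ 2 < ‖x‖ ^ 2 := by gcongr
    linarith only [this]

theorem det_smooth {g : Stmt.Field n} (hg : ∀ i j, Stmt.Smooth (fun x => g x i j)) :
    ContDiff ℝ ∞ (fun x => (Stmt.mat g x).det) := by
  simp only [Matrix.det_apply]
  refine ContDiff.sum fun σ _ => ?_
  have h1 : ContDiff ℝ ∞ (fun x => ∏ i, Stmt.mat g x (σ i) i) :=
    contDiff_prod fun i _ => hg (σ i) i
  have h2 : ContDiff ℝ ∞ (fun x => ((Equiv.Perm.sign σ : ℤ) : ℝ) *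
      ∏ i, Stmt.mat g x (σ i) i) := contDiff_const.mul h1
  have h3 : (fun x => Equiv.Perm.sign σ • ∏ i, Stmt.mat g x (σ i) i) =
      fun x => ((Equiv.Perm.sign σ : ℤ) : ℝ) * ∏ i, Stmt.mat g x (σ i) i := by
    funext x
    rw [Units.smul_def, zsmul_eq_mul]
  rw [h3]
  exact h2

theorem area_bridge (D : Stmt.Exterior n) (D' : Exterior n) (hΩ : D'.Ω = {x | 0 ≤ D.F x})
    (hg : D'.g = Stmt.mat D.g) {R2 : ℝ} (hR2 : 0 < R2) (hsub : {x : E n | R2 ≤ ‖x‖} ⊆ D'.Ω) :
    D.area (fun x : E n => ‖x‖ ^ 2 - R2 ^ 2) ≤ D'.area {x : E n | R2 ≤ ‖x‖} := by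
  have hset : {x : E n | 0 ≤ ‖x‖ ^ 2 - R2 ^ 2} = {x : E n | R2 ≤ ‖x‖} := by
    ext x
    simp only [mem_ofPred_eq, sub_nonneg]
    constructor
    · intro h; exact (abs_le_of_sq_le_sq' h (norm_nonneg x)).2
    · intro h; exact pow_le_pow_left₀ hR2.le h 2
  unfold Stmt.Exterior.area
  refine sSup_le ?_
  rintro a ⟨X, ⟨hX1, ⟨R, hX2⟩, hX3⟩, rfl⟩
  set Y : E n → E n := fun x => WithLp.toLp 2 (fun i => X i x) with hY
  have hYi : ∀ x i, Y x i = X i x := fun x i => rfl
  have hYs : ContDiff ℝ ∞ Y := by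
    rw [contDiff_euclidean]
    intro i
    exact hX1 i
  have hYc : HasCompactSupport Y := by
    refine HasCompactSupport.intro (isCompact_closedBall (0 : E n) R) ?_
    intro x hx
    have hx' : R < ‖x‖ := by simpa only [mem_closedBall, dist_zero_right, not_le] using hx
    ext i
    exact hX2 x hx' i
  have hYt : D'.TestField Y := by
    refine ⟨hYs, hYc, ?_⟩
    intro x hx
    rw [hΩ] at hx
    rw [hg]
    exact hX3 x hx
  have hint : (∫ x in {x : E n | 0 ≤ ‖x‖ ^ 2 - R2 ^ 2},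
      ∑ i, Stmt.pd i (fun y => √(Stmt.mat D.g y).det * X i y) x ∂Stmt.vol n) =
      ∫ x in {x : E n | R2 ≤ ‖x‖}, ∑ i, pd i (fun y => √(D'.g y).det * Y y i) x := by
    rw [hset, vol_eq]
    refine setIntegral_congr_fun (isClosed_le continuous_const continuous_norm).measurableSet ?_
    intro x hx
    have hxΩ : 0 ≤ D.F x := by
      have := hsub hx
      rw [hΩ] at this
      exact this
    refine Finset.sum_congr rfl fun i _ => ?_
    have hdet : 0 < (Stmt.mat D.g x).det := (D.pos x hxΩ).det_pos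
    have hd1 : DifferentiableAt ℝ (fun y => (Stmt.mat D.g y).det) x :=
      ((det_smooth (fun i j => (D.smooth i j).1)).differentiable (by norm_num)).differentiableAt
    have hd2 : DifferentiableAt ℝ (X i) x :=
      ((hX1 i).differentiable (by norm_num)).differentiableAt
    have hd3 : DifferentiableAt ℝ (fun y => √(Stmt.mat D.g y).det * X i y) x :=
      (hd1.sqrt hdet.ne').mul hd2
    rw [pd_eq hd3, hg]
  rw [hint]
  unfold Exterior.area
  exact le_iSup₂_of_le Y hYt le_rfl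

end Vale.Agent.P366
end
end
end
end

section

section

section

open MeasureTheory Metric Filter Topology Set
open scoped BigOperators ENNReal ContDiff

noncomputable section
namespace Vale.Agent.P366.Bridge

variable {n : ℕ}

lemma pd_eq {f : E n → ℝ} {x : E n} (hf : DifferentiableAt ℝ f x) (i : Fin n) :
    Stmt.pd i f x = pd i f x := hf.lineDeriv_eq_fderiv

/-! ### smoothness of the inverse matrix -/

lemma contDiffAt_det {m : ℕ} {x : E n} {A : E n → Matrix (Fin m) (Fin m) ℝ}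
    (hA : ∀ i j, ContDiffAt ℝ ∞ (fun y => A y i j) x) :
    ContDiffAt ℝ ∞ (fun y => (A y).det) x := by
  simp only [Matrix.det_apply']
  refine ContDiffAt.sum fun σ _ => ?_
  exact contDiffAt_const.mul (contDiffAt_prod fun i _ => hA _ _)

lemma contDiffAt_inv_entry {x : E n} {A : E n → Matrix (Fin n) (Fin n) ℝ}
    (hA : ∀ i j, ContDiffAt ℝ ∞ (fun y => A y i j) x) (hd : (A x).det ≠ 0) (i j : Fin n) :
    ContDiffAt ℝ ∞ (fun y => (A y)⁻¹ i j) x := by
  have h1 : (fun y => (A y)⁻¹ i j) = fun y => (A y).det⁻¹ * (A y).adjugate i j := by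
    funext y
    rw [Matrix.inv_def, Matrix.smul_apply, smul_eq_mul, Ring.inverse_eq_inv']
  rw [h1]
  refine ((contDiffAt_det hA).inv hd).mul ?_
  have h2 : (fun y => (A y).adjugate i j) =
      fun y => ((A y).updateRow j (Pi.single i 1)).det := by
    funext y
    rw [Matrix.adjugate_apply]
  rw [h2]
  refine contDiffAt_det fun a b => ?_
  by_cases ha : a = j
  · subst ha
    simp only [Matrix.updateRow_self]
    exact contDiffAt_const
  · simp only [Matrix.updateRow_ne ha]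
    exact hA a b

section Geometry

variable {g K : Stmt.Field n} (hg : ∀ i j, ContDiff ℝ ∞ (fun y => g y i j))
  (hK : ∀ i j, ContDiff ℝ ∞ (fun y => K y i j))

/-- the open set where the metric is non-degenerate -/
def Reg (g : Stmt.Field n) : Set (E n) := {x | (Stmt.mat g x).det ≠ 0}

include hg in
lemma up_smooth {x : E n} (hx : x ∈ Reg g) (i j : Fin n) :
    ContDiffAt ℝ ∞ (fun y => Stmt.up g i j y) x :=
  contDiffAt_inv_entry (A := Stmt.mat g) (fun i j => (hg i j).contDiffAt) hx i j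

include hg in
lemma chr_eq (k i j : Fin n) : Stmt.chr g k i j = chr (Stmt.mat g) k i j := by
  funext x
  unfold Stmt.chr chr
  rw [one_div, inv_mul_eq_div]
  congr 1
  refine Finset.sum_congr rfl fun l _ => ?_
  have h : ∀ i j k, Stmt.pd k (fun y => g y i j) x = pd k (fun y => Stmt.mat g y i j) x :=
    fun i j k => pd_eq ((hg i j).differentiable (by norm_num) x) k
  rw [h, h, h]
  rfl

lemma pd_smooth {f : E n → ℝ} {x : E n} (hf : ContDiffAt ℝ ∞ f x) (i : Fin n) :
    ContDiffAt ℝ ∞ (pd i f) x := by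
  have h1 : ContDiffAt ℝ ∞ (fderiv ℝ f) x := hf.fderiv_right (by norm_num)
  exact h1.clm_apply contDiffAt_const

include hg in
lemma chr_smooth {x : E n} (hx : x ∈ Reg g) (k i j : Fin n) :
    ContDiffAt ℝ ∞ (chr (Stmt.mat g) k i j) x := by
  unfold chr
  refine contDiffAt_const.mul (ContDiffAt.sum fun l _ => ?_)
  exact (up_smooth hg hx k l).mul (((pd_smooth (hg j l).contDiffAt i).add
    (pd_smooth (hg i l).contDiffAt j)).sub (pd_smooth (hg i j).contDiffAt l))

include hg in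
lemma scal_eq {x : E n} (hx : x ∈ Reg g) : Stmt.scal g x = scal (Stmt.mat g) x := by
  unfold Stmt.scal scal
  simp only [chr_eq hg]
  refine Finset.sum_congr rfl fun i _ => Finset.sum_congr rfl fun j _ => ?_
  congr 1
  refine Finset.sum_congr rfl fun k _ => ?_
  rw [pd_eq ((chr_smooth hg hx k i j).differentiableAt (by norm_num)),
    pd_eq ((chr_smooth hg hx k i k).differentiableAt (by norm_num))]

lemma momT_eq (x : E n) (i j : Fin n) :
    Stmt.momT g K x i j = momT (Stmt.mat g) (Stmt.mat K) x i j := by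
  unfold Stmt.momT momT
  rw [Matrix.sub_apply, Matrix.smul_apply, smul_eq_mul]
  rfl

include hg hK in
lemma tr_smooth {x : E n} (hx : x ∈ Reg g) :
    ContDiffAt ℝ ∞ (tr (Stmt.mat g) (Stmt.mat K)) x := by
  unfold tr
  exact ContDiffAt.sum fun i _ => ContDiffAt.sum fun j _ =>
    (up_smooth hg hx i j).mul (hK i j).contDiffAt

include hg hK in
lemma momT_smooth {x : E n} (hx : x ∈ Reg g) (i j : Fin n) :
    ContDiffAt ℝ ∞ (fun y => momT (Stmt.mat g) (Stmt.mat K) y i j) x := by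
  have h1 : (fun y => momT (Stmt.mat g) (Stmt.mat K) y i j) =
      fun y => Stmt.mat K y i j - tr (Stmt.mat g) (Stmt.mat K) y * Stmt.mat g y i j := by
    funext y
    rw [← momT_eq]; rfl
  rw [h1]
  exact (hK i j).contDiffAt.sub ((tr_smooth hg hK hx).mul (hg i j).contDiffAt)

include hg hK in
lemma mom_eq {x : E n} (hx : x ∈ Reg g) (j : Fin n) :
    Stmt.mom g K j x = mom (Stmt.mat g) (Stmt.mat K) j x := by
  unfold Stmt.mom mom
  refine Finset.sum_congr rfl fun i _ => Finset.sum_congr rfl fun k _ => ?_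
  simp only [chr_eq hg, momT_eq]
  rw [pd_eq ((momT_smooth hg hK hx i j).differentiableAt (by norm_num))]
  rfl

include hg in
lemma mu_eq {x : E n} (hx : x ∈ Reg g) :
    Stmt.mu g K x = mu (Stmt.mat g) (Stmt.mat K) x := by
  unfold Stmt.mu mu
  rw [scal_eq hg hx]
  rfl

include hg hK in
lemma momNorm_eq {x : E n} (hx : x ∈ Reg g) :
    Stmt.covNorm g (Stmt.mom g K) x = momNorm (Stmt.mat g) (Stmt.mat K) x := by
  unfold Stmt.covNorm momNorm
  simp only [mom_eq hg hK hx]
  rfl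

lemma dNorm_eq {F : E n → ℝ} {x : E n} (hF : DifferentiableAt ℝ F x) :
    Stmt.covNorm g (fun j => Stmt.pd j F) x = dNorm (Stmt.mat g) F x := by
  unfold Stmt.covNorm dNorm
  simp only [pd_eq hF]
  rfl

lemma nrm_eq {F : E n → ℝ} {x : E n} (hF : DifferentiableAt ℝ F x) (i : Fin n) :
    Stmt.nrm g F i x = nrm (Stmt.mat g) F i x := by
  unfold Stmt.nrm nrm
  rw [dNorm_eq hF]
  simp only [pd_eq hF]
  rfl

lemma trS_eq {F : E n → ℝ} {x : E n} (hF : DifferentiableAt ℝ F x) :
    Stmt.trS g K F x = trS (Stmt.mat g) (Stmt.mat K) F x := by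
  unfold Stmt.trS trS
  simp only [nrm_eq hF]
  rfl

include hg in
lemma hess_eq {F : E n → ℝ} (hF : ContDiff ℝ ∞ F) (x : E n) :
    Stmt.mat (Stmt.hess g F) x = hess (Stmt.mat g) F x := by
  have h1 : ∀ j, Stmt.pd j F = pd j F := fun j => by
    funext y; exact pd_eq (hF.differentiable (by norm_num) y) j
  ext i j
  change Stmt.hess g F x i j = hess (Stmt.mat g) F x i j
  unfold Stmt.hess hess
  simp only [chr_eq hg, h1, Matrix.of_apply]
  rw [pd_eq ((pd_smooth (x := x) hF.contDiffAt j).differentiableAt (by norm_num))]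

include hg in
lemma theta_eq {F : E n → ℝ} (hF : ContDiff ℝ ∞ F) (x : E n) :
    Stmt.thetaPlus g K F x = thetaPlus (Stmt.mat g) (Stmt.mat K) F x := by
  have hd := hF.differentiable (by norm_num) x
  unfold Stmt.thetaPlus thetaPlus meanCurv
  rw [trS_eq hd, trS_eq hd, dNorm_eq hd]
  have : Stmt.mat (Stmt.hess g F) = hess (Stmt.mat g) F := by
    funext y; exact hess_eq hg hF y
  rw [this]

end Geometry

end Vale.Agent.P366.Bridge
end
end
end
end

section

section

section

open MeasureTheory Metric Filter Topology Set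
open scoped BigOperators ENNReal ContDiff

noncomputable section
namespace Vale.Agent.P366.Bridge

variable {n : ℕ}

lemma frontier_sub {F : E n → ℝ} (hF : ContDiff ℝ ∞ F) {x : E n}
    (hx : x ∈ frontier {x | 0 ≤ F x}) : F x = 0 :=
  (frontier_le_subset_eq continuous_const hF.continuous hx).symm

lemma sub_frontier {F : E n → ℝ} (hF : ContDiff ℝ ∞ F) {x : E n} (hx : F x = 0)
    (hd : ∃ i, Stmt.pd i F x ≠ 0) : x ∈ frontier {x | 0 ≤ F x} := by
  refine ⟨subset_closure (le_of_eq hx.symm), fun hint => ?_⟩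
  obtain ⟨i, hi⟩ := hd
  apply hi
  rw [pd_eq (hF.differentiable (by norm_num) x)]
  have hmin : IsLocalMin F x := by
    filter_upwards [mem_interior_iff_mem_nhds.mp hint] with y hy
    rw [hx]; exact hy
  unfold pd
  rw [hmin.fderiv_eq_zero]
  rfl

lemma localDef_of {F : E n → ℝ} (hF : ContDiff ℝ ∞ F) {x : E n}
    (hd : ∃ i, Stmt.pd i F x ≠ 0) : LocalDef {x | 0 ≤ F x} x F := by
  refine ⟨univ, isOpen_univ, mem_univ _, hF.contDiffOn, ?_, ?_⟩
  · obtain ⟨i, hi⟩ := hd
    rw [pd_eq (hF.differentiable (by norm_num) x)] at hi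
    intro h
    apply hi
    unfold pd
    rw [h]; rfl
  · ext y; simp only [inter_univ, mem_ofPred_eq, mem_univ, true_and]

lemma isExt_domain {F : E n → ℝ} (h : Stmt.IsExt F) : IsExtDomain {x | 0 ≤ F x} where
  closed := isClosed_le continuous_const h.1.continuous
  connected := h.2.2.1
  smooth := fun p hp => ⟨F, localDef_of h.1 (h.2.1 p (frontier_sub h.1 hp))⟩
  atInfinity := by
    obtain ⟨R, hR⟩ := h.2.2.2
    exact ⟨R, fun x hx => (hR x hx).le⟩

variable (D : Stmt.Exterior n)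

/-- The exterior in the sense of `Defs` of an exterior in the sense of `Stmt`. -/
def toRaw : Exterior n where
  Ω := {x | 0 ≤ D.F x}
  U := {x | (Stmt.mat D.g x).PosDef}
  g := Stmt.mat D.g
  K := Stmt.mat D.K
  dom := isExt_domain D.dom
  bdry := by
    obtain ⟨x, hx⟩ := D.bdry
    exact ⟨x, sub_frontier D.dom.1 hx (D.dom.2.1 x hx)⟩
  isOpen_U := isOpen_posDef (fun i j => (D.smooth i j).1.continuous)
    (fun x => by ext i j; exact (D.symm x j i).1)
  sub := fun x hx => D.pos x hx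
  g_smooth := fun i j => (D.smooth i j).1.contDiffOn
  K_smooth := fun i j => (D.smooth i j).2.contDiffOn
  g_pos := fun x hx => hx
  K_symm := fun x _ => by ext i j; exact (D.symm x j i).2

lemma g_smooth (i j : Fin n) : ContDiff ℝ ∞ (fun y => D.g y i j) := (D.smooth i j).1

lemma K_smooth (i j : Fin n) : ContDiff ℝ ∞ (fun y => D.K y i j) := (D.smooth i j).2

lemma mem_Reg {x : E n} (hx : 0 ≤ D.F x) : x ∈ Reg D.g := (D.pos x hx).det_pos.ne'

lemma raw_DEC (h : D.DEC) : (toRaw D).DEC := by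
  intro x hx
  have hx' : 0 ≤ D.F x := hx
  have hr := mem_Reg D hx'
  have h1 := h x hx'
  rw [momNorm_eq (g_smooth D) (K_smooth D) hr, mu_eq (g_smooth D) hr] at h1
  exact h1

lemma raw_Trapped (h : D.Trapped) : (toRaw D).Trapped := by
  intro p hp
  have hp0 : D.F p = 0 := frontier_sub D.dom.1 hp
  refine ⟨D.F, localDef_of D.dom.1 (D.dom.2.1 p hp0), ?_⟩
  have h1 := h p hp0
  rw [theta_eq (g_smooth D) D.dom.1] at h1
  exact h1

lemma raw_R1 {R₁ : ℝ} (h : IsGreatest {r | ∃ x, D.F x = 0 ∧ Stmt.len x = r} R₁) :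
    IsGreatest (norm '' frontier (toRaw D).Ω) R₁ := by
  constructor
  · obtain ⟨x, hx, hr⟩ := h.1
    exact ⟨x, sub_frontier D.dom.1 hx (D.dom.2.1 x hx), hr⟩
  · rintro r ⟨x, hx, rfl⟩
    exact h.2 ⟨x, frontier_sub D.dom.1 hx, rfl⟩

/-- uniform constants in finitely many decay conditions -/
lemma uniform_bigO {ι : Type} [Finite ι] {q : ℝ} {f : ι → E n → ℝ}
    (h : ∀ i, Stmt.BigO q (f i)) :
    ∃ C R : ℝ, 0 ≤ C ∧ 0 < R ∧ ∀ i, ∀ x : E n, R < ‖x‖ → |f i x| ≤ C * ‖x‖ ^ (-q) := by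
  choose C R hCR using h
  obtain ⟨C0, hC0⟩ := (Set.finite_range C).bddAbove
  obtain ⟨R0, hR0⟩ := (Set.finite_range R).bddAbove
  refine ⟨max C0 0, max R0 1, le_max_right _ _, lt_of_lt_of_le one_pos (le_max_right _ _), ?_⟩
  intro i x hx
  have h1 : R i < ‖x‖ := lt_of_le_of_lt ((hR0 ⟨i, rfl⟩).trans (le_max_left _ _)) hx
  have h2 := hCR i x h1
  refine h2.trans ?_
  have h3 : C i ≤ max C0 0 := (hC0 ⟨i, rfl⟩).trans (le_max_left _ _)
  exact mul_le_mul_of_nonneg_right h3 (Real.rpow_nonneg (norm_nonneg x) _)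

lemma raw_AF (hn : 3 ≤ n) (h : D.IsAF) : (toRaw D).IsAF := by
  obtain ⟨q, hq, h⟩ := h
  have i0 : Fin n := ⟨0, by omega⟩
  obtain ⟨C1, R1, hC1, hR1, h1⟩ := uniform_bigO (ι := Fin n × Fin n) (q := q)
    (f := fun p x => D.g x p.1 p.2 - if p.1 = p.2 then 1 else 0)
    (fun p => (h p.1 p.2 i0 i0).1)
  obtain ⟨C2, R2, hC2, hR2, h2⟩ := uniform_bigO (ι := Fin n × Fin n × Fin n) (q := q + 1)
    (f := fun p => Stmt.pd p.2.2 fun x => D.g x p.1 p.2.1)
    (fun p => (h p.1 p.2.1 p.2.2 i0).2.1)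
  obtain ⟨C3, R3, hC3, hR3, h3⟩ := uniform_bigO (ι := Fin n × Fin n × Fin n × Fin n)
    (q := q + 1 + 1)
    (f := fun p => Stmt.pd p.2.2.2 (Stmt.pd p.2.2.1 fun x => D.g x p.1 p.2.1))
    (fun p => (h p.1 p.2.1 p.2.2.1 p.2.2.2).2.2.1)
  obtain ⟨C4, R4, hC4, hR4, h4⟩ := uniform_bigO (ι := Fin n × Fin n) (q := q + 1)
    (f := fun p x => D.K x p.1 p.2)
    (fun p => (h p.1 p.2 i0 i0).2.2.2.1)
  obtain ⟨C5, R5, hC5, hR5, h5⟩ := uniform_bigO (ι := Fin n × Fin n × Fin n) (q := q + 1 + 1)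
    (f := fun p => Stmt.pd p.2.2 fun x => D.K x p.1 p.2.1)
    (fun p => (h p.1 p.2.1 p.2.2 i0).2.2.2.2)
  refine ⟨q, C1 + C2 + C3 + C4 + C5, R1 + R2 + R3 + R4 + R5, by linarith only [hq], by (clear * - hR1 hR2 hR3 hR4 hR5; positivity), ?_⟩
  intro x hx i j k l
  have hpos : ∀ s : ℝ, 0 ≤ ‖x‖ ^ s := fun s => Real.rpow_nonneg (norm_nonneg x) _
  have hle : ∀ {C s : ℝ}, C ≤ C1 + C2 + C3 + C4 + C5 →
      C * ‖x‖ ^ s ≤ (C1 + C2 + C3 + C4 + C5) * ‖x‖ ^ s := fun h =>
    mul_le_mul_of_nonneg_right h (hpos _)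
  have hgs := g_smooth D
  have hpd : ∀ k i j, Stmt.pd k (fun x => D.g x i j) = pd k (fun y => D.g y i j) :=
    fun k i j => by
      funext y
      exact pd_eq ((hgs i j).differentiable (by norm_num) y) k
  refine ⟨?_, ?_, ?_, ?_, ?_⟩
  · refine (h1 (i, j) x (by linarith only [hR4, hR2, hR3, hR5, hx])).trans (hle (by linarith only [hC4, hC2, hC3, hC5]))
  · have := h2 (i, j, k) x (by linarith only [hR4, hR1, hR3, hR5, hx])
    simp only at this
    rw [hpd] at this
    rw [show -q - 1 = -(q + 1) by ring]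
    exact this.trans (hle (by linarith only [hC4, hC1, hC3, hC5]))
  · have := h3 (i, j, k, l) x (by linarith only [hR4, hR1, hR2, hR5, hx])
    simp only at this
    rw [hpd, pd_eq ((pd_smooth (hgs i j).contDiffAt k).differentiableAt (by norm_num))] at this
    rw [show -q - 2 = -(q + 1 + 1) by ring]
    exact this.trans (hle (by linarith only [hC4, hC1, hC2, hC5]))
  · rw [show -1 - q = -(q + 1) by ring]
    exact (h4 (i, j) x (by linarith only [hR3, hR1, hR2, hR5, hx])).trans (hle (by linarith only [hC3, hC1, hC2, hC5]))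
  · have := h5 (i, j, k) x (by linarith only [hR3, hR1, hR2, hR4, hx])
    simp only at this
    rw [pd_eq ((K_smooth D i j).differentiable (by norm_num) x)] at this
    rw [show -2 - q = -(q + 1 + 1) by ring]
    exact this.trans (hle (by linarith only [hC3, hC1, hC2, hC4]))

/-- the hypothesis on the metric -/
lemma raw_conf {R₁ : ℝ} {c : ℝ → ℝ}
    (hc : ∀ x, R₁ ≤ Stmt.len x → ∀ i j, D.g x i j = if i = j then c (Stmt.len x) else 0)
    (x : E n) (hx : R₁ ≤ ‖x‖) :
    (toRaw D).g x = c ‖x‖ • (1 : Matrix (Fin n) (Fin n) ℝ) := by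
  ext i j
  have h1 := hc x hx i j
  rw [Matrix.smul_apply, Matrix.one_apply, smul_eq_mul]
  change D.g x i j = _
  rw [h1]
  change (if i = j then c ‖x‖ else 0) = _
  split_ifs <;> simp

lemma len_diff {x : E n} (hx : x ≠ 0) : DifferentiableAt ℝ (Stmt.len : E n → ℝ) x :=
  (contDiffAt_norm ℝ hx (n := 1)).differentiableAt (by norm_num)

lemma raw_trS {x : E n} (hx : x ≠ 0) :
    Stmt.trS D.g D.K Stmt.len x = trS (toRaw D).g (toRaw D).K norm x :=
  trS_eq (len_diff hx)

end Vale.Agent.P366.Bridge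
end
end
end
end

section

section

section

open MeasureTheory Metric Filter Topology Set
open scoped BigOperators ENNReal ContDiff

noncomputable section
namespace Vale.Agent.P366

variable {n : ℕ}

theorem penrose_stmt2 (hn : 3 ≤ n) (D : Stmt.Exterior n) (hAF : D.IsAF) (hDEC : D.DEC)
    (hT : D.Trapped) {m : ℝ} {P : Fin n → ℝ} (hm : D.IsEnergy m) (hP : D.IsMomentum P)
    {R₁ : ℝ} (hR₁ : IsGreatest {r | ∃ x, D.F x = 0 ∧ Stmt.len x = r} R₁) {c k : ℝ → ℝ}
    (hc : ∀ x, R₁ ≤ Stmt.len x → ∀ i j, D.g x i j = if i = j then c (Stmt.len x) else 0)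
    (hk : ∀ x, R₁ ≤ Stmt.len x → Stmt.trS D.g D.K Stmt.len x = k (Stmt.len x)) :
    D.Amin ≠ ⊤ ∧ √(∑ i, P i ^ 2) < m ∧
    (D.Amin.toReal / Stmt.omega n) ^ (((n : ℝ) - 2) / (n - 1)) / 2 ≤
      √(m ^ 2 - ∑ i, P i ^ 2) := by
  have hn2 : 2 ≤ n := by omega
  have : Nonempty (Fin n) := ⟨⟨0, by omega⟩⟩
  have : Nontrivial (E n) := inferInstance
  have hR := Bridge.raw_R1 D hR₁
  have hR1 : 0 < R₁ := (Bridge.toRaw D).R1_pos hn2 hR
  have hout := (Bridge.toRaw D).outside_closed_subset hn2 hR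
  have hne : ∀ {x : E n}, R₁ ≤ ‖x‖ → x ≠ 0 := fun {x} hx h => by
    rw [h, norm_zero] at hx; linarith only [hx, hR1]
  have hm' : (Bridge.toRaw D).IsEnergy m := energy_bridge D hm
  have hP' : (Bridge.toRaw D).IsMomentum (WithLp.toLp 2 P) := momentum_bridge D hP
  obtain ⟨R2, ρ, hR2, hρ, hA, hm0, hfin⟩ := assembled2' hn (Bridge.toRaw D)
    (Bridge.raw_AF D hn hAF) (Bridge.raw_DEC D hDEC) (Bridge.raw_Trapped D hT) hm' hP' hR
    (φ := c) (fun x hx => Bridge.raw_conf D hc x hx)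
    (by
      intro x y hx hxy
      have hy : R₁ ≤ ‖y‖ := hxy ▸ hx
      have h1 := Bridge.raw_trS D (hne hx)
      have h2 := Bridge.raw_trS D (hne hy)
      rw [hk x hx] at h1
      rw [hk y hy] at h2
      rw [← h1, ← h2]
      change k ‖x‖ = k ‖y‖
      rw [hxy])
  have hR20 : 0 < R2 := lt_of_lt_of_le hR1 hR2
  have hsub : {x : E n | R2 ≤ ‖x‖} ⊆ (Bridge.toRaw D).Ω := fun x (hx : R2 ≤ ‖x‖) =>
    hout (hR2.trans hx)
  have hAm : D.Amin ≤ ENNReal.ofReal (omega n * ρ ^ (n - 1)) := by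
    refine le_trans ?_ ((area_bridge D (Bridge.toRaw D) rfl rfl hR20 hsub).trans hA)
    refine sInf_le ⟨_, isExt_round hn2 hR20, ?_, rfl⟩
    intro x hx
    have hx' : R2 ≤ ‖x‖ := by
      have h : R2 ^ 2 ≤ ‖x‖ ^ 2 := by linarith only [hx]
      exact (abs_le_of_sq_le_sq' h (norm_nonneg x)).2
    exact hsub hx'
  have hω : 0 < omega n := omega_pos'
  have hPsq : ‖(WithLp.toLp 2 P : E n)‖ ^ 2 = ∑ i, P i ^ 2 :=
    EuclideanSpace.real_norm_sq_eq _
  rw [hPsq] at hfin
  have hn1 : (0 : ℝ) < (n : ℝ) - 1 := by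
    have : (3 : ℝ) ≤ n := by exact_mod_cast hn
    linarith only [this]
  have hn3 : (0 : ℝ) ≤ (n : ℝ) - 2 := by
    have : (3 : ℝ) ≤ n := by exact_mod_cast hn
    linarith only [this]
  have hρ2 : 0 < (ρ ^ (n - 2) / 2) ^ 2 := by positivity
  refine ⟨ne_top_of_le_ne_top ENNReal.ofReal_ne_top hAm, ?_, ?_⟩
  · rw [Real.sqrt_lt' hm0]
    linarith only [hρ2, hfin]
  · rw [omega_eq]
    have h1 : D.Amin.toReal ≤ omega n * ρ ^ (n - 1) := by
      have := ENNReal.toReal_mono ENNReal.ofReal_ne_top hAm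
      rwa [ENNReal.toReal_ofReal (by (clear * - hω hρ; positivity))] at this
    have h2 : D.Amin.toReal / omega n ≤ ρ ^ (n - 1) := by
      rw [div_le_iff₀ hω]; linarith only [h1]
    have h3 : (D.Amin.toReal / omega n) ^ (((n : ℝ) - 2) / ((n : ℝ) - 1)) ≤ ρ ^ (n - 2) := by
      calc (D.Amin.toReal / omega n) ^ (((n : ℝ) - 2) / ((n : ℝ) - 1))
          ≤ (ρ ^ (n - 1)) ^ (((n : ℝ) - 2) / ((n : ℝ) - 1)) :=
            Real.rpow_le_rpow (by (clear * - hω; positivity)) h2 (by (clear * - hn3 hn1; positivity))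
        _ = ρ ^ (n - 2) := by
            rw [← Real.rpow_natCast ρ (n - 1), ← Real.rpow_mul hρ.le,
              ← Real.rpow_natCast ρ (n - 2)]
            congr 1
            have e1 : ((n - 1 : ℕ) : ℝ) = (n : ℝ) - 1 := by
              rw [Nat.cast_sub (by omega)]; norm_num
            have e2 : ((n - 2 : ℕ) : ℝ) = (n : ℝ) - 2 := by
              rw [Nat.cast_sub (by omega)]; norm_num
            rw [e1, e2]
            (clear * - hn1; field_simp)
    have h4 : ρ ^ (n - 2) / 2 ≤ √(m ^ 2 - ∑ i, P i ^ 2) := Real.le_sqrt_of_sq_le hfin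
    linarith only [h4, h3]

end Vale.Agent.P366
end
end
end
end
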